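import Mathlib

/-! A homotopy invariance lemma of degree type on finite dimensional spaces. -/

open MeasureTheory Set Filter Topology

namespace Vale.Agent.Lib.Degree

section Z

variable {V : Type*} [NormedAddCommGroup V] [NormedSpace ℝ V] {ι : Type*} [Fintype ι]
  [DecidableEq ι]

theorem alt_sum_zero (i0 : ι) (a : ι → ι → ℝ) (S : ι → ι → ι → ℝ)
    (hS : ∀ l p q, l ≠ i0 → S l p q = S l q p) :
    ∑ σ : Equiv.Perm ι, ((Equiv.Perm.sign σ : ℤ) : ℝ) *
      ∑ l ∈ Finset.univ.erase i0,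
        (∏ i ∈ (Finset.univ.erase i0).erase l, a i (σ i)) * S l (σ i0) (σ l) = 0 := by
  simp_rw [Finset.mul_sum]
  rw [Finset.sum_comm]
  refine Finset.sum_eq_zero fun l hl => ?_
  have hl' : l ≠ i0 := Finset.ne_of_mem_erase hl
  refine Finset.sum_involution (fun σ _ => σ * Equiv.swap i0 l) ?_ ?_ ?_ ?_
  · intro σ _
    have h1 : ∏ i ∈ (Finset.univ.erase i0).erase l, a i ((σ * Equiv.swap i0 l) i)
        = ∏ i ∈ (Finset.univ.erase i0).erase l, a i (σ i) := by
      refine Finset.prod_congr rfl fun i hi => ?_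
      have h2 : i ≠ l := Finset.ne_of_mem_erase hi
      have h3 : i ≠ i0 := Finset.ne_of_mem_erase (Finset.mem_of_mem_erase hi)
      simp [Equiv.swap_apply_of_ne_of_ne h3 h2]
    rw [h1]
    simp [Equiv.Perm.sign_swap hl'.symm, hS l (σ l) (σ i0) hl']
  · intro σ _ _ h
    have := congrArg (fun τ : Equiv.Perm ι => τ i0) h
    simp at this
    exact hl' this
  · intro σ _
    simp
  · intro σ _
    simp [mul_assoc]

theorem integral_det_eq_zero [FiniteDimensional ℝ V] [MeasurableSpace V] [BorelSpace V]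
    (μ : Measure V) [μ.IsAddHaarMeasure] (i0 : ι) (u : ι → V → ℝ) (v : ι → V)
    (h0 : ContDiff ℝ 1 (u i0)) (hc : HasCompactSupport (u i0))
    (h2 : ∀ i, i ≠ i0 → ContDiff ℝ 2 (u i)) :
    ∫ x, (Matrix.of fun i j => fderiv ℝ (u j) x (v i)).det ∂μ = 0 := by
  have hd1 : ∀ i, i ≠ i0 → ContDiff ℝ 1 (fderiv ℝ (u i)) := fun i hi =>
    (h2 i hi).fderiv_right (m := 1) (by norm_num)
  let P : Equiv.Perm ι → V → ℝ := fun σ x =>
    ∏ i ∈ Finset.univ.erase i0, fderiv ℝ (u i) x (v (σ i))
  have hP : ∀ σ, ContDiff ℝ 1 (P σ) := fun σ =>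
    contDiff_prod fun i hi => (hd1 i (Finset.ne_of_mem_erase hi)).clm_apply contDiff_const
  have hPd : ∀ σ x w, fderiv ℝ (P σ) x w = ∑ l ∈ Finset.univ.erase i0,
      (∏ i ∈ (Finset.univ.erase i0).erase l, fderiv ℝ (u i) x (v (σ i))) *
        fderiv ℝ (fderiv ℝ (u l)) x w (v (σ l)) := by
    intro σ x w
    have hdiff : ∀ i ∈ Finset.univ.erase i0,
        HasFDerivAt (fun x => fderiv ℝ (u i) x (v (σ i)))
          ((fderiv ℝ (fderiv ℝ (u i)) x).flip (v (σ i))) x := by
      intro i hi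
      have := ((hd1 i (Finset.ne_of_mem_erase hi)).differentiable (by norm_num) x).hasFDerivAt
      have h3 := this.clm_apply (hasFDerivAt_const (v (σ i)) x)
      simpa using h3
    have := (HasFDerivAt.finsetProd hdiff).fderiv
    simp only [P]
    rw [this]
    simp
  have hc0 : Continuous (fderiv ℝ (u i0)) := h0.continuous_fderiv (by norm_num)
  have hint1 : ∀ σ : Equiv.Perm ι,
      Integrable (fun x => fderiv ℝ (u i0) x (v (σ i0)) * P σ x) μ := fun σ =>
    ((hc0.clm_apply continuous_const).mul (hP σ).continuous).integrable_of_hasCompactSupport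
      (hc.fderiv_apply ℝ _).mul_right
  have hint2 : ∀ σ : Equiv.Perm ι,
      Integrable (fun x => u i0 x * fderiv ℝ (P σ) x (v (σ i0))) μ := fun σ =>
    (h0.continuous.mul (((hP σ).continuous_fderiv (by norm_num)).clm_apply
      continuous_const)).integrable_of_hasCompactSupport hc.mul_right
  have hint3 : ∀ σ : Equiv.Perm ι, Integrable (fun x => u i0 x * P σ x) μ := fun σ =>
    (h0.continuous.mul (hP σ).continuous).integrable_of_hasCompactSupport hc.mul_right
  have hIBP : ∀ σ : Equiv.Perm ι, ∫ x, fderiv ℝ (u i0) x (v (σ i0)) * P σ x ∂μ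
      = - ∫ x, u i0 x * fderiv ℝ (P σ) x (v (σ i0)) ∂μ := by
    intro σ
    rw [integral_mul_fderiv_eq_neg_fderiv_mul_of_integrable (hint1 σ) (hint2 σ) (hint3 σ)
      (fun x _ => h0.differentiable (by norm_num) x)
      (fun x _ => (hP σ).differentiable (by norm_num) x), neg_neg]
  have hdet : ∀ x, (Matrix.of fun i j => fderiv ℝ (u j) x (v i)).det =
      ∑ σ : Equiv.Perm ι, ((Equiv.Perm.sign σ : ℤ) : ℝ) *
        (fderiv ℝ (u i0) x (v (σ i0)) * P σ x) := by
    intro x
    rw [Matrix.det_apply']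
    refine Finset.sum_congr rfl fun σ _ => ?_
    simp only [Matrix.of_apply, P]
    rw [Finset.mul_prod_erase _ (fun i => fderiv ℝ (u i) x (v (σ i))) (Finset.mem_univ i0)]
  simp_rw [hdet]
  rw [integral_finsetSum _ fun σ _ => (hint1 σ).const_mul _]
  simp_rw [integral_const_mul, hIBP, ← integral_neg, ← integral_const_mul]
  have hint4 : ∀ σ : Equiv.Perm ι,
      Integrable (fun x => -(u i0 x * fderiv ℝ (P σ) x (v (σ i0)))) μ := fun σ => (hint2 σ).neg
  rw [← integral_finsetSum _ fun σ _ => (hint4 σ).const_mul _]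
  refine integral_eq_zero_of_ae (Eventually.of_forall fun x => ?_)
  have := alt_sum_zero i0 (fun i j => fderiv ℝ (u i) x (v j))
    (fun l p q => fderiv ℝ (fderiv ℝ (u l)) x (v p) (v q))
    (fun l p q hl => ((h2 l hl).contDiffAt.isSymmSndFDerivAt (by simp)).eq _ _)
  simp only [hPd, Pi.zero_apply]
  have h4 : ∀ (a b c : ℝ), a * -(b * c) = - b * (a * c) := fun a b c => by ring
  simp_rw [h4]
  rw [← Finset.mul_sum, this, mul_zero]

end Z

section Deg

variable {E : Type*} [NormedAddCommGroup E] [NormedSpace ℝ E] [FiniteDimensional ℝ E]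

theorem det_block {κ : Type*} [Fintype κ] [DecidableEq κ] (b : Module.Basis κ ℝ E)
    (T0 : ℝ × E →L[ℝ] ℝ) (L : ℝ × E →L[ℝ] E) (α : ℝ) (φ : E →L[ℝ] ℝ)
    (h : ∀ x, T0 x = α * x.1 + φ (L x)) :
    (Matrix.of fun (i j : Unit ⊕ κ) =>
      (Sum.elim (fun _ => T0) (fun j => (LinearMap.toContinuousLinearMap (b.coord j)).comp L) j)
        (Sum.elim (fun _ => ((1 : ℝ), (0 : E))) (fun i => (0, b i)) i)).det
      = α * (L.comp (ContinuousLinearMap.inr ℝ ℝ E)).det := by
  have hφ : ∀ y : E, φ y = ∑ j, b.repr y j * φ (b j) := by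
    intro y
    conv_lhs => rw [← b.sum_repr y, map_sum]
    simp only [map_smul, smul_eq_mul]
  have : (Matrix.of fun (i j : Unit ⊕ κ) =>
      (Sum.elim (fun _ => T0) (fun j => (LinearMap.toContinuousLinearMap (b.coord j)).comp L) j)
        (Sum.elim (fun _ => ((1 : ℝ), (0 : E))) (fun i => (0, b i)) i)) =
      Matrix.fromBlocks (Matrix.of fun _ _ => α) (Matrix.of fun _ j => b.repr (L (1, 0)) j) 0
        (Matrix.of fun i j => b.repr (L (0, b i)) j) *
      Matrix.fromBlocks 1 0 (Matrix.of fun j _ => φ (b j)) 1 := by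
    rw [Matrix.fromBlocks_multiply]
    ext (i | i) (j | j)
    · simp [h, Matrix.mul_apply, hφ (L (1, 0))]
    · simp
    · simp [h, Matrix.mul_apply, hφ (L (0, b i))]
    · simp
  rw [this, Matrix.det_mul, Matrix.det_fromBlocks_zero₂₁, Matrix.det_fromBlocks_zero₁₂]
  simp only [Matrix.det_one, mul_one]
  congr 1
  · simp
  · rw [ContinuousLinearMap.det, ← LinearMap.det_toMatrix b, ← Matrix.det_transpose]
    congr 1
    ext i j
    simp [LinearMap.toMatrix_apply]

/-- If `H` is a `C^2` homotopy without zeros on `K \ Ω`, and the zeros of `H (0, ·)` in `Ω`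
are nonempty with Jacobians of one sign, then `H (1, ·)` has a zero in `Ω`. -/
theorem exists_zero (H : ℝ × E → E) (hH : ContDiff ℝ 2 H) (Ω K : Set E) (hΩ : IsOpen Ω)
    (hK : IsCompact K) (hΩK : Ω ⊆ K)
    (hfr : ∀ s ∈ Icc (0 : ℝ) 1, ∀ x ∈ K, H (s, x) = 0 → x ∈ Ω) (ς : ℝ)
    (hsign : ∀ x ∈ Ω, H (0, x) = 0 → 0 < ς * (fderiv ℝ (fun y => H (0, y)) x).det)
    (hex : ∃ x ∈ Ω, H (0, x) = 0) : ∃ x ∈ Ω, H (1, x) = 0 := by
  classical
  by_contra hno
  push Not at hno
  have hH0 : ContDiff ℝ 2 (fun y => H (0, y)) := hH.comp (by fun_prop)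
  have hdc : Continuous fun x => ς * (fderiv ℝ (fun y => H (0, y)) x).det :=
    continuous_const.mul (ContinuousLinearMap.continuous_det.comp
      (hH0.continuous_fderiv (by norm_num)))
  let Bd : Set E := H '' (Icc 0 1 ×ˢ (K \ Ω)) ∪ (fun y => H (1, y)) '' K ∪
    (fun y => H (0, y)) '' (K ∩ {x | ς * (fderiv ℝ (fun y => H (0, y)) x).det ≤ 0})
  have hBd : IsCompact Bd := by
    refine ((((isCompact_Icc.prod (hK.diff hΩ)).image hH.continuous).union
      (hK.image (hH.continuous.comp (by fun_prop)))).union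
      ((hK.inter_right (isClosed_le hdc continuous_const)).image hH0.continuous))
  have h0Bd : (0 : E) ∉ Bd := by
    rintro ((⟨⟨s, x⟩, ⟨hs, hx⟩, h⟩ | ⟨x, hx, h⟩) | ⟨x, ⟨hx, hx'⟩, h⟩)
    · exact hx.2 (hfr s hs x hx.1 h)
    · exact hno x (hfr 1 (by simp) x hx h) h
    · exact absurd (hsign x (hfr 0 (by simp) x hx h) h) (not_lt.2 hx')
  obtain ⟨g, hgs, -, hg, hg01, hg0⟩ :=
    exists_contDiff_tsupport_subset (n := 1) (hBd.isClosed.isOpen_compl.mem_nhds h0Bd)
  have hgz : ∀ z ∈ Bd, g z = 0 := fun z hz =>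
    image_eq_zero_of_notMem_tsupport fun h => hgs h hz
  have hgnn : ∀ z, 0 ≤ g z := fun z => (hg01 ⟨z, rfl⟩).1
  have hst : ContDiff ℝ 2 Real.smoothTransition := Real.smoothTransition.contDiff (n := 2)
  let Ht : ℝ × E → E := fun x => H (Real.smoothTransition x.1, x.2)
  have hHt : ContDiff ℝ 2 Ht := hH.comp ((hst.comp contDiff_fst).prodMk contDiff_snd)
  let χ : ℝ → ℝ := fun s => Real.smoothTransition (s + 1)
  have hχ : ContDiff ℝ 2 χ := hst.comp (by fun_prop)
  have hχm : Monotone χ := fun a b hab => Real.smoothTransition.monotone (by linarith)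
  let w : ℝ × E → ℝ := fun x => χ x.1 * g (Ht x)
  have hw : ContDiff ℝ 1 w :=
    ((hχ.of_le (by norm_num)).comp contDiff_fst).mul (hg.comp (hHt.of_le (by norm_num)))
  let u0 : ℝ × E → ℝ := fun x => if x.2 ∈ Ω then w x else 0
  have hin : ∀ x : ℝ × E, x.2 ∈ Ω → u0 =ᶠ[𝓝 x] w := by
    intro x hx
    filter_upwards [(hΩ.preimage continuous_snd).mem_nhds hx] with y hy
    exact if_pos hy
  have hout : ∀ x : ℝ × E, x.2 ∉ Ω → u0 =ᶠ[𝓝 x] fun _ => 0 := by
    intro x hx
    by_cases hxK : x.2 ∈ K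
    · have h1 : Ht x ∈ Bd := Or.inl (Or.inl ⟨(Real.smoothTransition x.1, x.2),
        ⟨⟨Real.smoothTransition.nonneg _, Real.smoothTransition.le_one _⟩, hxK, hx⟩, rfl⟩)
      have h2 : Ht x ∈ (tsupport g)ᶜ := fun h => hgs h h1
      filter_upwards [((isClosed_tsupport g).isOpen_compl.preimage hHt.continuous).mem_nhds h2]
        with y hy
      simp [u0, w, image_eq_zero_of_notMem_tsupport hy]
    · filter_upwards [(hK.isClosed.isOpen_compl.preimage continuous_snd).mem_nhds hxK] with y hy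
      exact if_neg fun h => hy (hΩK h)
  have hu0 : ContDiff ℝ 1 u0 := by
    rw [contDiff_iff_contDiffAt]
    intro x
    by_cases hx : x.2 ∈ Ω
    · exact hw.contDiffAt.congr_of_eventuallyEq (hin x hx)
    · exact contDiffAt_const.congr_of_eventuallyEq (hout x hx)
  have hu0c : HasCompactSupport u0 := by
    refine HasCompactSupport.intro (isCompact_Icc.prod hK : IsCompact (Icc (-1 : ℝ) 1 ×ˢ K)) ?_
    rintro ⟨s, y⟩ hx
    by_cases hy : y ∈ Ω
    · have hs : s < -1 ∨ 1 < s := by
        by_contra hc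
        push Not at hc
        exact hx ⟨hc, hΩK hy⟩
      rcases hs with hs | hs
      · simp [u0, w, χ, Real.smoothTransition.zero_of_nonpos (show s + 1 ≤ 0 by linarith)]
      · have : g (Ht (s, y)) = 0 := hgz _ (Or.inl (Or.inr ⟨y, hΩK hy, by
          simp [Ht, Real.smoothTransition.one_of_one_le hs.le]⟩))
        simp [u0, w, this]
    · simp [u0, hy]
  let b := Module.finBasis ℝ E
  let u : Unit ⊕ Fin (Module.finrank ℝ E) → ℝ × E → ℝ :=
    Sum.elim (fun _ => u0) fun j x => (LinearMap.toContinuousLinearMap (b.coord j)) (Ht x)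
  let v : Unit ⊕ Fin (Module.finrank ℝ E) → ℝ × E :=
    Sum.elim (fun _ => ((1 : ℝ), (0 : E))) (fun i => (0, b i))
  have hu2 : ∀ i, i ≠ Sum.inl () → ContDiff ℝ 2 (u i) := by
    rintro (i | i) hi
    · exact absurd rfl hi
    · exact (LinearMap.toContinuousLinearMap (b.coord i)).contDiff.comp hHt
  have hu1 : ∀ i, ContDiff ℝ 1 (u i) := by
    rintro (i | i)
    · exact hu0
    · exact (hu2 _ (by simp)).of_le (by norm_num)
  borelize (ℝ × E)
  have hZ := integral_det_eq_zero (Measure.addHaar) (Sum.inl ()) u v hu0 hu0c hu2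
  let f : ℝ × E → ℝ := fun x => (Matrix.of fun i j => fderiv ℝ (u j) x (v i)).det
  have hfc : Continuous f := by
    refine Continuous.matrix_det (continuous_matrix fun i j => ?_)
    exact ((hu1 j).continuous_fderiv (by norm_num)).clm_apply continuous_const
  have hf0 : ∀ x, fderiv ℝ u0 x = 0 → f x = 0 := by
    intro x hx
    refine Matrix.det_eq_zero_of_column_eq_zero (Sum.inl ()) fun i => ?_
    simp [u, hx]
  have hfs : HasCompactSupport f :=
    HasCompactSupport.intro (hu0c.fderiv ℝ).isCompact fun x hx =>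
      hf0 x (image_eq_zero_of_notMem_tsupport hx)
  have hfin : ∀ x : ℝ × E, x.2 ∈ Ω →
      f x = (deriv χ x.1 * g (Ht x)) * (fderiv ℝ (fun y => Ht (x.1, y)) x.2).det := by
    intro x hx
    have hL := (hHt.differentiable (by norm_num) x).hasFDerivAt
    have hgd := (hg.differentiable (by norm_num) (Ht x)).hasFDerivAt
    have hχd := (hχ.differentiable (by norm_num) x.1).hasDerivAt
    have hwd := (hχd.hasFDerivAt.comp x hasFDerivAt_fst).mul (hgd.comp x hL)
    have hu0d : fderiv ℝ u0 x = _ := (hin x hx).fderiv_eq.trans hwd.fderiv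
    have key := det_block b (fderiv ℝ u0 x) (fderiv ℝ Ht x) (deriv χ x.1 * g (Ht x))
      (χ x.1 • fderiv ℝ g (Ht x)) (fun y => by rw [hu0d]; simp; ring)
    have h5 : fderiv ℝ (fun y => Ht (x.1, y)) x.2 =
        (fderiv ℝ Ht x).comp (ContinuousLinearMap.inr ℝ ℝ E) :=
      (HasFDerivAt.comp (g := Ht) (f := fun y => (x.1, y)) x.2 hL
        (hasFDerivAt_prodMk_right x.1 x.2)).fderiv
    rw [h5, ← key]
    simp only [f]
    congr 1
    ext i (j | j)
    · rfl
    · have := ((LinearMap.toContinuousLinearMap (b.coord j)).hasFDerivAt.comp x hL).fderiv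
      simp only [Matrix.of_apply, Sum.elim_inr, u]
      rw [← this]
      rfl
  have hneg : ∀ s ≤ (0 : ℝ), ∀ y, Ht (s, y) = H (0, y) := fun s hs y => by
    simp [Ht, Real.smoothTransition.zero_of_nonpos hs]
  have hnn : 0 ≤ fun x => ς * f x := by
    rintro ⟨s, y⟩
    show 0 ≤ ς * f (s, y)
    by_cases hy : y ∈ Ω
    · rw [hfin _ hy]
      rcases le_or_gt s 0 with hs | hs
      · simp only [hneg s hs]
        by_cases hgy : g (H (0, y)) = 0
        · simp [hgy]
        · have : 0 < ς * (fderiv ℝ (fun y => H (0, y)) y).det := by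
            by_contra hc
            exact hgy (hgz _ (Or.inr ⟨y, ⟨hΩK hy, not_lt.1 hc⟩, rfl⟩))
          have h6 := mul_nonneg (mul_nonneg (hχm.deriv_nonneg (x := s)) (hgnn (H (0, y)))) this.le
          linarith
      · have : χ =ᶠ[𝓝 s] fun _ => 1 := by
          filter_upwards [Ioi_mem_nhds hs] with t ht
          exact Real.smoothTransition.one_of_one_le (by have : 0 < t := ht; linarith)
        simp [this.deriv_eq]
    · rw [hf0 _ ((hout (s, y) hy).fderiv_eq.trans (by simp))]
      simp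
  obtain ⟨y0, hy0, hy00⟩ := hex
  obtain ⟨s0, hs0, hs0'⟩ := exists_deriv_eq_slope χ (show (-1 : ℝ) < 0 by norm_num)
    hχ.continuous.continuousOn (hχ.differentiable (by norm_num)).differentiableOn
  have hpos : ς * f (s0, y0) ≠ 0 := by
    rw [hfin _ hy0]
    simp only [hneg s0 hs0.2.le, hy00, hg0, hs0', χ]
    have := hsign y0 hy0 hy00
    simp only [zero_add, Real.smoothTransition.one, neg_add_cancel, Real.smoothTransition.zero]
    intro h
    norm_num at h this
    rcases h with h | h <;> simp [h] at this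
  have hc' : Continuous fun x => ς * f x := continuous_const.mul hfc
  have := hc'.integral_pos_of_hasCompactSupport_nonneg_nonzero (μ := Measure.addHaar)
    hfs.mul_left hnn hpos
  rw [integral_const_mul, hZ] at this
  simp at this

end Deg

end Vale.Agent.Lib.Degree
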