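import Mathlib
import Vale.Agent.Lib.Degree

/-! Brouwer fixed point theorem for continuous maps with bounded range. -/

open Set Filter Topology Metric

namespace Vale.Agent.Lib.Brouwer

variable {E : Type*} [NormedAddCommGroup E] [NormedSpace ℝ E] [FiniteDimensional ℝ E]

theorem smooth_fixed (f : E → E) (hf : ContDiff ℝ 2 f) (C : ℝ) (hC : ∀ x, ‖f x‖ ≤ C) :
    ∃ x, f x = x := by
  have hC0 : 0 ≤ C := (norm_nonneg _).trans (hC 0)
  let H : ℝ × E → E := fun p => p.2 - p.1 • f p.2
  have hH : ContDiff ℝ 2 H := contDiff_snd.sub (contDiff_fst.smul (hf.comp contDiff_snd))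
  have h0 : (fun y => H (0, y)) = id := by ext y; simp [H]
  obtain ⟨x, -, hx⟩ := Vale.Agent.Lib.Degree.exists_zero H hH (ball 0 (C + 1))
    (closedBall 0 (C + 1)) isOpen_ball (isCompact_closedBall _ _) ball_subset_closedBall
    (by
      intro s hs x _ hx
      have hx' : x = s • f x := sub_eq_zero.mp hx
      rw [mem_ball_zero_iff, hx', norm_smul, Real.norm_of_nonneg hs.1]
      have := hC x
      have h2 : s * ‖f x‖ ≤ 1 * C := mul_le_mul hs.2 this (norm_nonneg _) zero_le_one
      linarith) 1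
    (by
      intro x _ _
      rw [h0, fderiv_id]
      simp [ContinuousLinearMap.det])
    ⟨0, by simp; linarith, by simp [H]⟩
  refine ⟨x, ?_⟩
  simp only [H, one_smul] at hx
  exact (sub_eq_zero.mp hx).symm

/-- A continuous self-map with bounded range of a finite dimensional space has a fixed point. -/
theorem exists_fixed (f : E → E) (hf : Continuous f) (C : ℝ) (hC : ∀ x, ‖f x‖ ≤ C) :
    ∃ x, f x = x := by
  have hC0 : 0 ≤ C := (norm_nonneg _).trans (hC 0)
  obtain ⟨x, hx, hmin⟩ := (isCompact_closedBall (0 : E) (C + 1)).exists_isMinOn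
    ⟨0, by simp; linarith⟩ (f := fun x => ‖f x - x‖) (by fun_prop)
  refine ⟨x, ?_⟩
  by_contra hne
  have hpos : 0 < ‖f x - x‖ := norm_pos_iff.mpr (sub_ne_zero.mpr hne)
  set ε := min ‖f x - x‖ 1 with hε
  have hε0 : 0 < ε := lt_min hpos one_pos
  obtain ⟨g, hg, hgf, -⟩ := hf.exists_contDiff_approx 2 (ε := fun _ => ε) continuous_const
    (fun _ => hε0)
  have hgC : ∀ y, ‖g y‖ ≤ C + 1 := by
    intro y
    have h1 := hgf y
    rw [dist_eq_norm] at h1
    have h2 : ‖g y‖ ≤ ‖g y - f y‖ + ‖f y‖ := by simpa using norm_add_le (g y - f y) (f y)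
    have := hC y
    have := min_le_right ‖f x - x‖ 1
    linarith
  obtain ⟨y, hy⟩ := smooth_fixed g hg (C + 1) hgC
  have hyb : y ∈ closedBall (0 : E) (C + 1) := by
    rw [mem_closedBall_zero_iff, ← hy]; exact hgC y
  have h3 : ‖f x - x‖ ≤ ‖f y - y‖ := hmin hyb
  have h4 := hgf y
  rw [hy, dist_eq_norm, ← norm_neg, neg_sub] at h4
  have := min_le_left ‖f x - x‖ 1
  linarith

end Vale.Agent.Lib.Brouwer
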