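import Mathlib

/-! The first and second theorems of Mertens with explicit error terms, and consequences. -/

open Finset Real Filter Topology MeasureTheory
open scoped ArithmeticFunction.vonMangoldt

namespace Vale.Agent.Lib.Mertens

theorem prod_Ioc_eq_factorial (N : ℕ) : ∏ n ∈ Ioc 0 N, n = N.factorial := by
  induction N with
  | zero => simp
  | succ N ih => rw [prod_Ioc_succ_top (Nat.zero_le N), ih, Nat.factorial_succ, mul_comm]

theorem sum_log_bounds {N : ℕ} (hN : 1 ≤ N) :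
    N * log N - N ≤ ∑ n ∈ Ioc 0 N, log n ∧ ∑ n ∈ Ioc 0 N, log n ≤ N * log N := by
  have hN' : (0 : ℝ) < N := by exact_mod_cast hN
  constructor
  · have h1 : ∑ n ∈ Ioc 0 N, log n = log (N.factorial : ℝ) := by
      rw [← prod_Ioc_eq_factorial, Nat.cast_prod, log_prod]
      intro n hn
      have := (mem_Ioc.1 hn).1
      positivity
    have h2 := Real.pow_div_factorial_le_exp (N : ℝ) hN'.le N
    have h3 := log_le_log (by positivity) h2
    rw [log_div (by positivity) (by positivity), log_pow, log_exp] at h3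
    linarith
  · have h1 : ∀ n ∈ Ioc 0 N, log n ≤ log N := fun n hn =>
      log_le_log (by exact_mod_cast (mem_Ioc.1 hn).1) (by exact_mod_cast (mem_Ioc.1 hn).2)
    simpa using sum_le_sum h1

theorem lambda_nat {N : ℕ} (hN : 1 ≤ N) : |∑ n ∈ Ioc 0 N, Λ n / n - log N| ≤ 6 := by
  have hN' : (0 : ℝ) < N := by exact_mod_cast hN
  have h1 := ArithmeticFunction.sum_Ioc_mul_zeta_eq_sum Λ N
  rw [ArithmeticFunction.vonMangoldt_mul_zeta] at h1
  simp only [ArithmeticFunction.log_apply] at h1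
  obtain ⟨h2, h3⟩ := sum_log_bounds hN
  have h4 : ∑ n ∈ Ioc 0 N, Λ n * ((N / n : ℕ) : ℝ) ≤ N * ∑ n ∈ Ioc 0 N, Λ n / n := by
    rw [mul_sum]
    refine sum_le_sum fun n _ => ?_
    have := mul_le_mul_of_nonneg_left (Nat.cast_div_le (α := ℝ) (m := N) (n := n))
      (ArithmeticFunction.vonMangoldt_nonneg (n := n))
    refine this.trans (le_of_eq ?_)
    ring
  have h5 : N * ∑ n ∈ Ioc 0 N, Λ n / n ≤
      ∑ n ∈ Ioc 0 N, Λ n * ((N / n : ℕ) : ℝ) + ∑ n ∈ Ioc 0 N, Λ n := by
    rw [mul_sum, ← sum_add_distrib]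
    refine sum_le_sum fun n hn => ?_
    have hn' : (0 : ℝ) < n := by exact_mod_cast (mem_Ioc.1 hn).1
    have h6 : (N : ℝ) / n ≤ (N / n : ℕ) + 1 := by
      rw [← Nat.floor_div_eq_div (K := ℝ)]
      exact (Nat.lt_floor_add_one _).le
    have := mul_le_mul_of_nonneg_left h6 (ArithmeticFunction.vonMangoldt_nonneg (n := n))
    calc N * (Λ n / n) = Λ n * (N / n) := by ring
      _ ≤ _ := by linarith
  have h6 := Chebyshev.psi_le_const_mul_self hN'.le
  rw [Chebyshev.psi, Nat.floor_natCast] at h6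
  have h7 : log 4 ≤ 2 := by
    have := log_le_sub_one_of_pos (show (0 : ℝ) < 2 by norm_num)
    rw [show (4 : ℝ) = 2 ^ 2 by norm_num, log_pow]
    push_cast
    linarith
  rw [abs_le]
  constructor
  · by_contra h
    nlinarith
  · by_contra h
    nlinarith

theorem log_floor {x : ℝ} (hx : 1 ≤ x) : |log ⌊x⌋₊ - log x| ≤ 1 := by
  have h1 : (1 : ℝ) ≤ ⌊x⌋₊ := by exact_mod_cast Nat.one_le_floor_iff x |>.2 hx
  have h2 := Nat.floor_le (show 0 ≤ x by linarith)
  have h3 := Nat.lt_floor_add_one x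
  have h4 := log_le_log (by linarith) h2
  have h5 : log x ≤ log (2 * ⌊x⌋₊) := log_le_log (by linarith) (by linarith)
  rw [log_mul (by norm_num) (by linarith)] at h5
  have := log_le_sub_one_of_pos (show (0 : ℝ) < 2 by norm_num)
  rw [abs_le]
  constructor <;> linarith

theorem Icc_one_eq (N : ℕ) : Icc 1 N = Ioc 0 N := rfl

/-- Mertens' first theorem for the von Mangoldt function. -/
theorem mertens1_lambda {x : ℝ} (hx : 1 ≤ x) : |∑ n ∈ Icc 1 ⌊x⌋₊, Λ n / n - log x| ≤ 7 := by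
  have h1 := lambda_nat (Nat.one_le_floor_iff x |>.2 hx)
  have h2 := log_floor hx
  rw [Icc_one_eq]
  rw [abs_le] at *
  constructor <;> linarith

/-- Mertens' first theorem. -/
theorem mertens1 : ∃ C, ∀ x ≥ (1 : ℝ),
    |∑ p ∈ (Icc 1 ⌊x⌋₊).filter Nat.Prime, log p / p - log x| ≤ C := by
  have hs := ArithmeticFunction.vonMangoldt.summable_residueClass_non_primes_div (0 : ZMod 1)
  have e : ∀ n, ArithmeticFunction.vonMangoldt.residueClass (0 : ZMod 1) n = Λ n := fun n => by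
    simp [ArithmeticFunction.vonMangoldt.residueClass, Subsingleton.elim (n : ZMod 1) 0]
  simp only [e] at hs
  have h0 : ∀ n : ℕ, 0 ≤ (if n.Prime then 0 else Λ n) / n := fun n => by
    have := ArithmeticFunction.vonMangoldt_nonneg (n := n)
    split_ifs <;> positivity
  refine ⟨7 + ∑' n : ℕ, (if n.Prime then 0 else Λ n) / n, fun x hx => ?_⟩
  have h1 := mertens1_lambda hx
  have h2 : ∑ n ∈ Icc 1 ⌊x⌋₊, Λ n / n = ∑ p ∈ (Icc 1 ⌊x⌋₊).filter Nat.Prime, log p / p +
      ∑ n ∈ Icc 1 ⌊x⌋₊, (if n.Prime then 0 else Λ n) / n := by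
    rw [sum_filter, ← sum_add_distrib]
    refine sum_congr rfl fun n _ => ?_
    split_ifs with h
    · rw [ArithmeticFunction.vonMangoldt_apply_prime h]
      simp
    · simp
  have h3 := hs.sum_le_tsum (Icc 1 ⌊x⌋₊) fun n _ => h0 n
  have h4 := sum_nonneg (s := Icc 1 ⌊x⌋₊) fun n _ => h0 n
  rw [abs_le] at *
  constructor <;> linarith

theorem integral_inv_mul_log_sq {a b : ℝ} (ha : 1 < a) (hab : a ≤ b) :
    ∫ t in a..b, 1 / (t * log t ^ 2) = 1 / log a - 1 / log b := by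
  have h : ∀ t ∈ Set.uIcc a b, HasDerivAt (fun t => -(log t)⁻¹) (1 / (t * log t ^ 2)) t := by
    intro t ht
    rw [Set.uIcc_of_le hab] at ht
    have h1 : 0 < t := by linarith [ht.1]
    have h2 : 0 < log t := log_pos (by linarith [ht.1])
    refine (((hasDerivAt_log h1.ne').inv h2.ne').neg).congr_deriv ?_
    field_simp
  rw [intervalIntegral.integral_eq_sub_of_hasDerivAt h]
  · ring
  · refine ContinuousOn.intervalIntegrable fun t ht => ContinuousAt.continuousWithinAt ?_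
    rw [Set.uIcc_of_le hab] at ht
    have h1 : 0 < t := by linarith [ht.1]
    have h2 : 0 < log t := log_pos (by linarith [ht.1])
    have h3 : t * log t ^ 2 ≠ 0 := by positivity
    have h4 := h1.ne'
    fun_prop (disch := assumption)

theorem integral_inv_mul_log {a b : ℝ} (ha : 1 < a) (hab : a ≤ b) :
    ∫ t in a..b, 1 / (t * log t) = log (log b) - log (log a) := by
  have h : ∀ t ∈ Set.uIcc a b, HasDerivAt (fun t => log (log t)) (1 / (t * log t)) t := by
    intro t ht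
    rw [Set.uIcc_of_le hab] at ht
    have h1 : 0 < t := by linarith [ht.1]
    have h2 : 0 < log t := log_pos (by linarith [ht.1])
    refine ((hasDerivAt_log h1.ne').log h2.ne').congr_deriv ?_
    field_simp
  rw [intervalIntegral.integral_eq_sub_of_hasDerivAt h]
  refine ContinuousOn.intervalIntegrable fun t ht => ContinuousAt.continuousWithinAt ?_
  rw [Set.uIcc_of_le hab] at ht
  have h1 : 0 < t := by linarith [ht.1]
  have h2 : 0 < log t := log_pos (by linarith [ht.1])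
  have h3 : t * log t ≠ 0 := by positivity
  have h4 := h1.ne'
  fun_prop (disch := assumption)

/-- Abel summation against `log p / p`. -/
theorem abel_log : ∃ C, 0 ≤ C ∧ ∀ (a b : ℝ) (g g' : ℝ → ℝ), 1 ≤ a → a ≤ b →
    (∀ t ∈ Set.Icc a b, HasDerivAt g (g' t) t) → ContinuousOn g' (Set.Icc a b) →
    |∑ p ∈ (Ioc ⌊a⌋₊ ⌊b⌋₊).filter Nat.Prime, g p * (log p / p) - ∫ t in a..b, g t / t| ≤
      C * (|g a| + |g b| + ∫ t in a..b, |g' t|) := by
  obtain ⟨C, hC⟩ := mertens1
  have hC0 : 0 ≤ C := (abs_nonneg _).trans (hC 1 le_rfl)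
  refine ⟨C, hC0, fun a b g g' ha hab hg hg' => ?_⟩
  set c : ℕ → ℝ := fun k => if k.Prime then log k / k else 0 with hc
  have hA : ∀ t, 1 ≤ t → |∑ k ∈ Icc 0 ⌊t⌋₊, c k - log t| ≤ C := fun t ht => by
    have h1 := hC t ht
    rw [sum_filter] at h1
    rw [← add_sum_Ioc_eq_sum_Icc (Nat.zero_le _)]
    simpa [hc, Icc_one_eq, Nat.not_prime_zero] using h1
  have hint : IntegrableOn g' (Set.Icc a b) := hg'.integrableOn_Icc
  have hd : ∀ t ∈ Set.Icc a b, deriv g t = g' t := fun t ht => (hg t ht).deriv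
  have h1 := sum_mul_eq_sub_sub_integral_mul c (f := g) (by linarith) hab
    (fun t ht => (hg t ht).differentiableAt)
    (hint.congr_fun (fun t ht => (hd t ht).symm) measurableSet_Icc)
  rw [setIntegral_congr_fun measurableSet_Ioc (g := fun t => g' t * ∑ k ∈ Icc 0 ⌊t⌋₊, c k)
    (fun t ht => by simp only [hd t (Set.Ioc_subset_Icc_self ht)]),
    ← intervalIntegral.integral_of_le hab] at h1
  have hu : Set.uIcc a b = Set.Icc a b := Set.uIcc_of_le hab
  have hcl : ContinuousOn log (Set.Icc a b) := continuousOn_log.mono fun t ht =>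
    (show 0 < t by linarith [ht.1]).ne'
  have h2 := intervalIntegral.integral_mul_deriv_eq_deriv_mul (a := a) (b := b) (u := g)
    (v := log) (u' := g') (v' := fun t => t⁻¹) (by rwa [hu])
    (fun t ht => hasDerivAt_log (by rw [hu] at ht; linarith [ht.1]))
    (ContinuousOn.intervalIntegrable (by rwa [hu]))
    (ContinuousOn.intervalIntegrable (continuousOn_inv₀.mono fun t ht => by
      rw [hu] at ht
      exact (show 0 < t by linarith [ht.1]).ne'))
  have i1 : IntervalIntegrable (fun t => g' t * ∑ k ∈ Icc 0 ⌊t⌋₊, c k) volume a b := by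
    rw [intervalIntegrable_iff_integrableOn_Icc_of_le hab]
    exact integrableOn_mul_sum_Icc c (by linarith) hint
  have i2 : IntervalIntegrable (fun t => g' t * log t) volume a b :=
    ContinuousOn.intervalIntegrable (by rw [hu]; exact hg'.mul hcl)
  have i3 : IntervalIntegrable (fun t => C * |g' t|) volume a b :=
    ContinuousOn.intervalIntegrable (by rw [hu]; exact continuousOn_const.mul hg'.abs)
  have h3 : |(∫ t in a..b, g' t * ∑ k ∈ Icc 0 ⌊t⌋₊, c k) - ∫ t in a..b, g' t * log t| ≤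
      C * ∫ t in a..b, |g' t| := by
    rw [← intervalIntegral.integral_sub i1 i2, ← intervalIntegral.integral_const_mul]
    refine (intervalIntegral.abs_integral_le_integral_abs hab).trans ?_
    refine intervalIntegral.integral_mono_on hab (i1.sub i2).abs i3 fun t ht => ?_
    rw [← mul_sub, abs_mul, mul_comm]
    exact mul_le_mul_of_nonneg_right (hA t (by linarith [ht.1])) (abs_nonneg _)
  have h4 : ∑ p ∈ (Ioc ⌊a⌋₊ ⌊b⌋₊).filter Nat.Prime, g p * (log p / p) =
      ∑ k ∈ Ioc ⌊a⌋₊ ⌊b⌋₊, g k * c k := by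
    rw [sum_filter]
    refine sum_congr rfl fun k _ => ?_
    simp only [hc]
    split_ifs <;> simp
  have h5 : |g b * (∑ k ∈ Icc 0 ⌊b⌋₊, c k - log b)| ≤ |g b| * C := by
    rw [abs_mul]
    exact mul_le_mul_of_nonneg_left (hA b (by linarith)) (abs_nonneg _)
  have h6 : |g a * (∑ k ∈ Icc 0 ⌊a⌋₊, c k - log a)| ≤ |g a| * C := by
    rw [abs_mul]
    exact mul_le_mul_of_nonneg_left (hA a ha) (abs_nonneg _)
  simp only [div_eq_mul_inv] at h4 ⊢
  rw [h4, h1, h2]
  rw [abs_le] at *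
  constructor <;> linarith

/-- Sums over primes of slowly varying functions. -/
theorem prime_sum_approx : ∃ C, 0 ≤ C ∧ ∀ (a b B : ℝ) (h h' : ℝ → ℝ), 1 < a → a ≤ b →
    (∀ t ∈ Set.Icc a b, HasDerivAt h (h' t) t) → ContinuousOn h' (Set.Icc a b) →
    (∀ t ∈ Set.Icc a b, |h t| ≤ B) → (∀ t ∈ Set.Icc a b, |h' t| ≤ B / (t * log t)) →
    |∑ p ∈ (Ioc ⌊a⌋₊ ⌊b⌋₊).filter Nat.Prime, h p / p - ∫ t in a..b, h t / (t * log t)| ≤
      C * B / log a := by
  obtain ⟨C, hC0, hC⟩ := abel_log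
  refine ⟨4 * C, by positivity, fun a b B h h' ha hab hd hc hB hB' => ?_⟩
  have hu : Set.uIcc a b = Set.Icc a b := Set.uIcc_of_le hab
  have hla : 0 < log a := log_pos ha
  have hlab : log a ≤ log b := log_le_log (by linarith) hab
  have hB0 : 0 ≤ B := (abs_nonneg _).trans (hB a ⟨le_rfl, hab⟩)
  have hpos : ∀ t ∈ Set.Icc a b, 0 < t ∧ 0 < log t := fun t ht =>
    ⟨by linarith [ht.1], log_pos (by linarith [ht.1])⟩
  have hcl : ContinuousOn log (Set.Icc a b) := continuousOn_log.mono fun t ht => (hpos t ht).1.ne'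
  have hch : ContinuousOn h (Set.Icc a b) := fun t ht =>
    (hd t ht).continuousAt.continuousWithinAt
  have hcg : ContinuousOn (fun t => h' t / log t - h t / (t * log t ^ 2)) (Set.Icc a b) :=
    (hc.div hcl fun t ht => (hpos t ht).2.ne').sub (hch.div (continuousOn_id.mul (hcl.pow 2))
      fun t ht => (mul_pos (hpos t ht).1 (pow_pos (hpos t ht).2 2)).ne')
  have h1 := hC a b (fun t => h t / log t) (fun t => h' t / log t - h t / (t * log t ^ 2)) ha.le
    hab (fun t ht => by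
      have h2 := (hpos t ht).1.ne'
      have h3 := (hpos t ht).2.ne'
      refine ((hd t ht).div (hasDerivAt_log h2) h3).congr_deriv ?_
      field_simp) hcg
  have h2 : ∑ p ∈ (Ioc ⌊a⌋₊ ⌊b⌋₊).filter Nat.Prime, h p / log p * (log p / p) =
      ∑ p ∈ (Ioc ⌊a⌋₊ ⌊b⌋₊).filter Nat.Prime, h p / p := by
    refine sum_congr rfl fun p hp => ?_
    have h3 : (1 : ℝ) < p := by exact_mod_cast (mem_filter.1 hp).2.one_lt
    have h4 := (log_pos h3).ne'
    field_simp
  have h3 : ∫ t in a..b, h t / log t / t = ∫ t in a..b, h t / (t * log t) := by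
    simp only [div_div, mul_comm]
  have h4 : ∫ t in a..b, |h' t / log t - h t / (t * log t ^ 2)| ≤ 2 * B / log a := by
    have h5 : ∫ t in a..b, |h' t / log t - h t / (t * log t ^ 2)| ≤
        ∫ t in a..b, 2 * B * (1 / (t * log t ^ 2)) := by
      refine intervalIntegral.integral_mono_on hab
        (ContinuousOn.intervalIntegrable (by rw [hu]; exact hcg.abs))
        (ContinuousOn.intervalIntegrable (by
          rw [hu]
          exact continuousOn_const.mul (continuousOn_const.div (continuousOn_id.mul (hcl.pow 2))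
            fun t ht => (mul_pos (hpos t ht).1 (pow_pos (hpos t ht).2 2)).ne'))) fun t ht => ?_
      obtain ⟨h6, h7⟩ := hpos t ht
      refine (abs_sub _ _).trans ?_
      rw [abs_div, abs_div, abs_of_pos h7, abs_of_pos (show 0 < t * log t ^ 2 by positivity)]
      have h8 : |h' t| / log t ≤ B / (t * log t) / log t := by gcongr; exact hB' t ht
      have h9 : |h t| / (t * log t ^ 2) ≤ B / (t * log t ^ 2) := by gcongr; exact hB t ht
      have h10 : B / (t * log t) / log t + B / (t * log t ^ 2) =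
          2 * B * (1 / (t * log t ^ 2)) := by
        field_simp
        ring
      linarith
    rw [intervalIntegral.integral_const_mul, integral_inv_mul_log_sq ha hab] at h5
    have h6 : 0 ≤ 2 * B * (1 / log b) := by
      have : 0 < log b := by linarith
      positivity
    have h7 : 2 * B * (1 / log a - 1 / log b) = 2 * B / log a - 2 * B * (1 / log b) := by ring
    linarith
  have h5 : |h a / log a| ≤ B / log a := by
    rw [abs_div, abs_of_pos hla]
    gcongr
    exact hB a ⟨le_rfl, hab⟩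
  have h6 : |h b / log b| ≤ B / log a := by
    rw [abs_div, abs_of_pos (show 0 < log b by linarith)]
    gcongr
    exact hB b ⟨hab, le_rfl⟩
  rw [h2, h3] at h1
  refine h1.trans ?_
  have h7 : 4 * C * B / log a = C * (B / log a + B / log a + 2 * B / log a) := by ring
  rw [h7]
  gcongr

/-- Mertens' second theorem between two points. -/
theorem mertens2_Ioc : ∃ C, 0 ≤ C ∧ ∀ y z : ℝ, 1 < y → y ≤ z →
    |∑ p ∈ (Ioc ⌊y⌋₊ ⌊z⌋₊).filter Nat.Prime, (1 : ℝ) / p - (log (log z) - log (log y))| ≤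
      C / log y := by
  obtain ⟨C, hC0, hC⟩ := prime_sum_approx
  refine ⟨C, hC0, fun y z hy hyz => ?_⟩
  have h := hC y z 1 (fun _ => 1) (fun _ => 0) hy hyz (fun t _ => hasDerivAt_const t 1)
    continuousOn_const (fun t _ => by simp) (fun t ht => by
      have h1 : 0 < log t := log_pos (by linarith [ht.1])
      have h2 : 0 < t := by linarith [ht.1]
      rw [abs_zero]
      positivity)
  rwa [integral_inv_mul_log hy hyz, mul_one] at h

theorem sum_Icc_sub (f : ℕ → ℝ) {y z : ℝ} (hyz : y ≤ z) :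
    ∑ p ∈ (Icc 1 ⌊z⌋₊).filter Nat.Prime, f p - ∑ p ∈ (Icc 1 ⌊y⌋₊).filter Nat.Prime, f p =
      ∑ p ∈ (Ioc ⌊y⌋₊ ⌊z⌋₊).filter Nat.Prime, f p := by
  simp only [sum_filter, Icc_one_eq]
  rw [← sum_Ioc_consecutive _ (Nat.zero_le _) (Nat.floor_le_floor hyz)]
  ring

/-- Mertens' second theorem. -/
theorem mertens2 : ∃ M C, ∀ x ≥ (2 : ℝ),
    |∑ p ∈ (Icc 1 ⌊x⌋₊).filter Nat.Prime, (1 : ℝ) / p - log (log x) - M| ≤ C / log x := by
  obtain ⟨C, hC0, hC⟩ := mertens2_Ioc
  set E : ℝ → ℝ := fun x => ∑ p ∈ (Icc 1 ⌊x⌋₊).filter Nat.Prime, (1 : ℝ) / p - log (log x) with hE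
  have h1 : ∀ y z, 2 ≤ y → y ≤ z → |E z - E y| ≤ C / log y := fun y z hy hyz => by
    have h2 := hC y z (by linarith) hyz
    rw [← sum_Icc_sub _ hyz] at h2
    refine le_trans (le_of_eq ?_) h2
    simp only [hE]
    congr 1
    ring
  have h2 : CauchySeq fun x : ℝ => E (max x 2) := by
    refine cauchySeq_of_le_tendsto_0' (fun x => C / log (max x 2)) (fun y z hyz => ?_) ?_
    · rw [dist_comm, Real.dist_eq]
      exact h1 _ _ (le_max_right _ _) (max_le_max hyz le_rfl)
    · exact (tendsto_log_atTop.comp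
        (tendsto_atTop_mono (fun x => le_max_left x 2) tendsto_id)).const_div_atTop C
  obtain ⟨M, hM⟩ := cauchySeq_tendsto_of_complete h2
  refine ⟨M, C, fun x hx => ?_⟩
  have h3 : Tendsto (fun z => |E (max z 2) - E x|) atTop (𝓝 |M - E x|) :=
    (hM.sub_const _).abs
  rw [abs_sub_comm]
  refine le_of_tendsto h3 ?_
  filter_upwards [eventually_ge_atTop x] with z hz
  exact h1 x _ hx (hz.trans (le_max_left _ _))

/-- The sum of the reciprocals of the primes up to `x` is `log log x + O(1)`. -/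
theorem mertens2_crude : ∃ C, 0 ≤ C ∧ ∀ x ≥ (2 : ℝ),
    |∑ p ∈ (Icc 1 ⌊x⌋₊).filter Nat.Prime, (1 : ℝ) / p - log (log x)| ≤ C := by
  obtain ⟨M, C, h⟩ := mertens2
  refine ⟨|M| + |C| / log 2, by positivity, fun x hx => ?_⟩
  have h1 := h x hx
  have h2 : 0 < log 2 := log_pos (by norm_num)
  have h3 : log 2 ≤ log x := log_le_log (by norm_num) hx
  have h4 : C / log x ≤ |C| / log 2 := by
    gcongr
    exact le_abs_self C
  rw [abs_le] at *
  constructor <;> linarith [le_abs_self M, neg_abs_le M]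

/-- Upper bound for the reciprocals of the primes in a window. -/
theorem window_le : ∃ C, 0 ≤ C ∧ ∀ y ≥ (2 : ℝ),
    ∑ p ∈ (Ioc ⌊y⌋₊ ⌊4 * y⌋₊).filter Nat.Prime, (1 : ℝ) / p ≤ C / log y := by
  obtain ⟨C, hC0, hC⟩ := mertens2_Ioc
  refine ⟨C + log 4, by positivity, fun y hy => ?_⟩
  have h1 := (abs_le.1 (hC y (4 * y) (by linarith) (by linarith))).2
  have h2 : 0 < log y := log_pos (by linarith)
  have h3 : 0 < log 4 := log_pos (by norm_num)
  rw [log_mul (by norm_num) (by linarith), ← log_div (by linarith) h2.ne'] at h1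
  have h4 := log_le_sub_one_of_pos (show 0 < (log 4 + log y) / log y by positivity)
  have h5 : (log 4 + log y) / log y - 1 = log 4 / log y := by field_simp; ring
  rw [add_div]
  linarith

theorem theta_window : ∃ y₀ : ℝ, 2 ≤ y₀ ∧ ∀ y ≥ y₀,
    y ≤ Chebyshev.theta (4 * y) - Chebyshev.theta y := by
  have h1 : ∀ᶠ x : ℝ in atTop, log x ≤ 1 / 100 * √x := by
    have h := (isLittleO_log_rpow_atTop (show (0 : ℝ) < 1 / 2 by norm_num)).bound
      (show (0 : ℝ) < 1 / 100 by norm_num)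
    filter_upwards [h, eventually_ge_atTop 0] with x hx h0
    rw [Real.norm_eq_abs, Real.norm_eq_abs, ← sqrt_eq_rpow, abs_of_nonneg (sqrt_nonneg x)] at hx
    exact (le_abs_self _).trans hx
  obtain ⟨x₀, hx₀⟩ := eventually_atTop.1 h1
  refine ⟨max x₀ 100, le_trans (by norm_num) (le_max_right _ _), fun y hy => ?_⟩
  have h2 : x₀ ≤ y := (le_max_left _ _).trans hy
  have h3 : 100 ≤ y := (le_max_right _ _).trans hy
  have h4 := Chebyshev.theta_ge' (x := 4 * y) (by linarith)
  have h5 := Chebyshev.theta_le_log4_mul_x (x := y) (by linarith)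
  have h6 := hx₀ (4 * y) (by linarith)
  have h7 := hx₀ (4 * y + 2) (by linarith)
  have h8 : √(4 * y + 2) ≤ 4 * y + 2 := by
    rw [sqrt_le_left (by linarith)]
    nlinarith
  have h9 : √(4 * y) * √(4 * y) = 4 * y := mul_self_sqrt (by linarith)
  have h10 := mul_le_mul_of_nonneg_left h6 (sqrt_nonneg (4 * y))
  have h11 : log 4 = 2 * log 2 := by
    rw [show (4 : ℝ) = 2 ^ 2 by norm_num, log_pow]
    norm_num
  have h12 := log_two_gt_d9
  have h13 := log_two_lt_d9
  rw [h11] at h5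
  nlinarith

/-- Lower bound for the reciprocals of the primes in a window. -/
theorem window_ge : ∃ y₀ : ℝ, 2 ≤ y₀ ∧ ∀ y ≥ y₀,
    1 / 12 / log y ≤ ∑ p ∈ (Ioc ⌊y⌋₊ ⌊4 * y⌋₊).filter Nat.Prime, (1 : ℝ) / p := by
  obtain ⟨y₀, h0, h⟩ := theta_window
  refine ⟨y₀, h0, fun y hy => ?_⟩
  have h1 := h y hy
  have h2 : 2 ≤ y := h0.trans hy
  have h3 : 0 < log y := log_pos (by linarith)
  have h4 : Chebyshev.theta (4 * y) - Chebyshev.theta y =
      ∑ p ∈ (Ioc ⌊y⌋₊ ⌊4 * y⌋₊).filter Nat.Prime, log p :=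
    sum_Icc_sub (fun p => log p) (by linarith)
  have h5 : log (4 * y) ≤ 3 * log y := by
    have := log_le_log (by linarith) (show 4 * y ≤ y ^ 3 by
      nlinarith [mul_nonneg (show 0 ≤ y by linarith) (show 0 ≤ y ^ 2 - 4 by nlinarith)])
    rwa [log_pow] at this
  have h6 : ∑ p ∈ (Ioc ⌊y⌋₊ ⌊4 * y⌋₊).filter Nat.Prime, log p ≤
      12 * y * log y * ∑ p ∈ (Ioc ⌊y⌋₊ ⌊4 * y⌋₊).filter Nat.Prime, (1 : ℝ) / p := by
    rw [mul_sum]
    refine sum_le_sum fun p hp => ?_
    rw [mem_filter, mem_Ioc] at hp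
    have h7 : (0 : ℝ) < p := by exact_mod_cast hp.2.pos
    have h8 : (p : ℝ) ≤ 4 * y := (Nat.le_floor_iff (by linarith)).1 hp.1.2
    have h9 := log_le_log h7 h8
    rw [mul_one_div, le_div_iff₀ h7]
    have h10 : 0 ≤ log p := log_nonneg (by exact_mod_cast hp.2.one_lt.le)
    nlinarith
  rw [div_div, div_le_iff₀ (by positivity)]
  by_contra h7
  nlinarith

theorem one_sub_inv_pos {p : ℕ} (hp : p.Prime) : 0 < 1 - 1 / (p : ℝ) := by
  have : (1 : ℝ) < p := by exact_mod_cast hp.one_lt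
  rw [sub_pos, div_lt_one (by linarith)]
  exact this

/-- Upper bound for the Mertens product. -/
theorem prod_le {z : ℝ} (hz : 1 < z) :
    ∏ p ∈ (Icc 1 ⌊z⌋₊).filter Nat.Prime, (1 - 1 / (p : ℝ)) ≤ 1 / log z := by
  set N := ⌊z⌋₊
  let f : ℕ →* ℝ := ⟨⟨fun n => (n : ℝ)⁻¹, by simp⟩, fun a b => by push_cast; rw [mul_inv]⟩
  have hf : ∀ n, f n = (n : ℝ)⁻¹ := fun _ => rfl
  have h := (EulerProduct.summable_and_hasSum_smoothNumbers_prod_primesBelow_geometric (f := f)
    (fun {p} hp => by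
      rw [hf, norm_inv, Real.norm_natCast]
      exact inv_lt_one_of_one_lt₀ (by exact_mod_cast hp.one_lt)) (N + 1)).2
  have h1 : ∑ n ∈ Icc 1 N, (n : ℝ)⁻¹ ≤ ∏ p ∈ (N + 1).primesBelow, (1 - f p)⁻¹ := by
    have h2 := sum_le_hasSum ((Icc 1 N).subtype (· ∈ (N + 1).smoothNumbers))
      (fun i _ => by rw [hf]; positivity) h
    rw [sum_subtype_of_mem (fun n => f n)] at h2
    · exact h2
    · intro n hn
      rw [mem_Icc] at hn
      exact Nat.mem_smoothNumbers_of_lt (by omega) (by omega)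
  have h3 : log z ≤ ∑ n ∈ Icc 1 N, (n : ℝ)⁻¹ := by
    have := log_add_one_le_harmonic N
    simp only [harmonic_eq_sum_Icc, Rat.cast_sum, Rat.cast_inv, Rat.cast_natCast] at this
    refine le_trans (log_le_log (by linarith) ?_) this
    push_cast
    exact (Nat.lt_floor_add_one z).le
  have h4 : ∏ p ∈ (N + 1).primesBelow, (1 - f p)⁻¹ =
      (∏ p ∈ (Icc 1 N).filter Nat.Prime, (1 - 1 / (p : ℝ)))⁻¹ := by
    rw [← prod_inv_distrib]
    refine prod_congr ?_ fun p _ => by rw [hf, one_div]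
    ext p
    simp only [Nat.mem_primesBelow, mem_filter, mem_Icc]
    exact ⟨fun h => ⟨⟨h.2.one_lt.le, by omega⟩, h.2⟩, fun h => ⟨by omega, h.2⟩⟩
  rw [one_div (log z), le_inv_comm₀ (prod_pos fun _ hp => one_sub_inv_pos (mem_filter.1 hp).2)
    (log_pos hz), ← h4]
  exact h3.trans h1

theorem sum_inv_sq_le (S : Finset ℕ) (hS : ∀ p ∈ S, 2 ≤ p) : ∑ p ∈ S, (1 / (p : ℝ)) ^ 2 ≤ 1 := by
  have h1 : S ⊆ Ioo 1 (S.sup id + 1) := fun p hp =>
    mem_Ioo.2 ⟨hS p hp, Nat.lt_succ_of_le (le_sup (f := id) hp)⟩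
  refine (sum_le_sum_of_subset_of_nonneg h1 fun _ _ _ => by positivity).trans ?_
  have h2 := sum_Ioo_inv_sq_le (α := ℝ) 1 (S.sup id + 1)
  simp only [one_div, inv_pow]
  refine h2.trans ?_
  norm_num

theorem exp_le_one_sub {x : ℝ} (h1 : x ≤ 1 / 2) : exp (-(x + 2 * x ^ 2)) ≤ 1 - x := by
  rw [exp_neg, inv_le_comm₀ (exp_pos _) (by linarith)]
  refine le_trans ?_ (add_one_le_exp _)
  rw [inv_le_iff_one_le_mul₀ (by linarith)]
  nlinarith [mul_nonneg (sq_nonneg x) (show 0 ≤ 1 - 2 * x by linarith)]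

/-- Lower bound for a product over any finite set of primes. -/
theorem exp_le_prod (S : Finset ℕ) (hS : ∀ p ∈ S, 2 ≤ p) :
    exp (-(∑ p ∈ S, (1 : ℝ) / p + 2)) ≤ ∏ p ∈ S, (1 - 1 / (p : ℝ)) := by
  have h1 : ∏ p ∈ S, exp (-(1 / (p : ℝ) + 2 * (1 / (p : ℝ)) ^ 2)) ≤ ∏ p ∈ S, (1 - 1 / (p : ℝ)) := by
    refine prod_le_prod (fun _ _ => (exp_pos _).le) fun p hp => exp_le_one_sub ?_
    exact one_div_le_one_div_of_le (by norm_num) (by exact_mod_cast hS p hp)
  refine le_trans ?_ h1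
  rw [← exp_sum, exp_le_exp, sum_neg_distrib, sum_add_distrib, ← mul_sum]
  linarith [sum_inv_sq_le S hS]

/-- Lower bound for the Mertens product. -/
theorem prod_ge : ∃ c, 0 < c ∧ ∀ z ≥ (2 : ℝ),
    c / log z ≤ ∏ p ∈ (Icc 1 ⌊z⌋₊).filter Nat.Prime, (1 - 1 / (p : ℝ)) := by
  obtain ⟨C, -, hC⟩ := mertens2_crude
  refine ⟨exp (-(C + 2)), exp_pos _, fun z hz => ?_⟩
  refine le_trans ?_ (exp_le_prod _ fun p hp => (mem_filter.1 hp).2.two_le)
  have h1 := (abs_le.1 (hC z hz)).2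
  have h2 : 0 < log z := log_pos (by linarith)
  conv_lhs => rw [← exp_log h2, ← exp_sub]
  rw [exp_le_exp]
  linarith

end Vale.Agent.Lib.Mertens
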