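import Mathlib

/-! The Wiener-Ikehara theorem and the prime number theorem. -/

namespace Vale.Agent.Lib.PNT

open MeasureTheory Filter Topology Set

noncomputable section

/-- The Fejer kernel. -/
def K (t : ℝ) : ℝ := ∫ y in (0 : ℝ)..2, (2 - y) * Real.cos (y * t)

theorem K_cont : Continuous K := by
  unfold K
  fun_prop

theorem K_eq {t : ℝ} (ht : t ≠ 0) : K t = (1 - Real.cos (2 * t)) / t ^ 2 := by
  have h : ∀ y ∈ uIcc (0 : ℝ) 2, HasDerivAt
      (fun y => (2 - y) * Real.sin (y * t) / t - Real.cos (y * t) / t ^ 2)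
      ((2 - y) * Real.cos (y * t)) y := fun y _ => by
    have h1 : HasDerivAt (fun y : ℝ => y * t) t y := by simpa using (hasDerivAt_id y).mul_const t
    have h2 := ((((hasDerivAt_id y).const_sub 2).mul h1.sin).div_const t).sub
      (h1.cos.div_const (t ^ 2))
    refine h2.congr_deriv ?_
    simp only [id]
    field_simp
    ring
  rw [K, intervalIntegral.integral_eq_sub_of_hasDerivAt h
    (Continuous.intervalIntegrable (by fun_prop) _ _)]
  simp only [sub_self, zero_mul, Real.sin_zero, Real.cos_zero, mul_zero, zero_div]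
  ring

theorem K_nonneg (t : ℝ) : 0 ≤ K t := by
  by_cases ht : t = 0
  · rw [ht, K]
    refine intervalIntegral.integral_nonneg (by norm_num) fun y hy => ?_
    simpa using hy.2
  · rw [K_eq ht]
    exact div_nonneg (sub_nonneg.2 (Real.cos_le_one _)) (sq_nonneg _)

theorem K_le (t : ℝ) : K t ≤ 6 * (1 + t ^ 2)⁻¹ := by
  have h1 : K t ≤ 4 := by
    have := intervalIntegral.norm_integral_le_of_norm_le_const (a := (0 : ℝ)) (b := 2) (C := 2)
      (f := fun y => (2 - y) * Real.cos (y * t)) fun y hy => by
        rw [uIoc_of_le (by norm_num)] at hy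
        rw [norm_mul, Real.norm_eq_abs, Real.norm_eq_abs, abs_of_nonneg (by linarith [hy.2])]
        nlinarith [Real.abs_cos_le_one (y * t), hy.1, hy.2, abs_nonneg (Real.cos (y * t))]
    have h2 := le_abs_self (K t)
    rw [Real.norm_eq_abs] at this
    norm_num at this
    unfold K at h2 ⊢
    linarith
  have h2 : K t * t ^ 2 ≤ 2 := by
    by_cases ht : t = 0
    · simp [ht]
    · rw [K_eq ht, div_mul_cancel₀ _ (pow_ne_zero 2 ht)]
      linarith [Real.neg_one_le_cos (2 * t)]
  rw [← div_eq_mul_inv, le_div_iff₀ (by positivity)]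
  linarith

theorem K_int : Integrable K :=
  (integrable_inv_one_add_sq.const_mul 6).mono' K_cont.aestronglyMeasurable
    (Eventually.of_forall fun t => by
      rw [Real.norm_eq_abs, abs_of_nonneg (K_nonneg t)]; exact K_le t)

theorem K_pos : 0 < ∫ t, K t :=
  integral_pos_of_integrable_nonneg_nonzero (x := 1) K_cont K_int K_nonneg (by
    rw [K_eq one_ne_zero, mul_one]
    have := Real.cos_two_neg
    exact (div_pos (by linarith) (by norm_num)).ne')

/-- The complex form of the kernel. -/
def Kc (t : ℝ) : ℂ := ∫ y in Ioc (0 : ℝ) 2, ((2 - y : ℝ) : ℂ) * Complex.exp (y * t * Complex.I)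

theorem Kc_re (t : ℝ) : (Kc t).re = K t := by
  have hi : IntegrableOn (fun y : ℝ => ((2 - y : ℝ) : ℂ) * Complex.exp (y * t * Complex.I))
      (Ioc 0 2) := (Continuous.integrableOn_Icc (by fun_prop)).mono_set Ioc_subset_Icc_self
  rw [K, intervalIntegral.integral_of_le (by norm_num), Kc]
  refine (Complex.reCLM.integral_comp_comm hi).symm.trans ?_
  refine integral_congr_ae (Eventually.of_forall fun y => ?_)
  simp only [Complex.reCLM_apply, Complex.re_ofReal_mul]
  rw [← Complex.ofReal_mul, Complex.exp_ofReal_mul_I_re]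

theorem damped {f : ℝ → ℝ} (hf : Measurable f) {M : ℝ} (hM : ∀ t, |f t| ≤ M) {G : ℂ → ℂ}
    (hL : ∀ z : ℂ, 0 < z.re → G z = ∫ t in Ioi (0 : ℝ), f t * Complex.exp (-z * t))
    {s : ℝ} (hs : 0 < s) (T : ℝ) :
    ∫ t in Ioi (0 : ℝ), f t * Real.exp (-s * t) * K (T - t) =
      (∫ y in Ioc (0 : ℝ) 2, ((2 - y : ℝ) : ℂ) * Complex.exp (y * T * Complex.I) *
        G (s + y * Complex.I)).re := by
  let Φ : ℝ → ℝ → ℂ := fun t y => ((f t * Real.exp (-s * t) : ℝ) : ℂ) *
    (((2 - y : ℝ) : ℂ) * Complex.exp (y * (T - t : ℝ) * Complex.I))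
  have hi : Integrable (Function.uncurry Φ)
      ((volume.restrict (Ioi (0 : ℝ))).prod (volume.restrict (Ioc (0 : ℝ) 2))) := by
    have h1 : IntegrableOn (fun y : ℝ => |2 - y|) (Ioc 0 2) :=
      (Continuous.integrableOn_Icc (by fun_prop)).mono_set Ioc_subset_Icc_self
    refine (Integrable.mul_prod ((exp_neg_integrableOn_Ioi 0 hs).const_mul M) h1).mono'
      (Measurable.aestronglyMeasurable ?_) (Eventually.of_forall fun p => ?_)
    · simp only [Φ]
      unfold Function.uncurry
      fun_prop
    · simp only [Φ, Function.uncurry, norm_mul, Complex.norm_real, Real.norm_eq_abs]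
      rw [← Complex.ofReal_mul, Complex.norm_exp_ofReal_mul_I, mul_one,
        abs_of_pos (Real.exp_pos _)]
      gcongr
      exact hM _
  have h2 := integral_integral_swap hi
  have h3 : ∀ y : ℝ, ∫ t in Ioi (0 : ℝ), Φ t y = ((2 - y : ℝ) : ℂ) *
      Complex.exp (y * T * Complex.I) * G (s + y * Complex.I) := fun y => by
    rw [hL _ (by simpa using hs), ← integral_const_mul]
    refine integral_congr_ae (Eventually.of_forall fun t => ?_)
    simp only [Φ]
    push_cast
    rw [show -((s : ℂ) + y * Complex.I) * t = -s * t + (y * (T - t) * Complex.I -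
      y * T * Complex.I) by ring, Complex.exp_add, Complex.exp_sub]
    field_simp
  simp only [h3] at h2
  rw [← h2]
  refine Eq.trans ?_ (Complex.reCLM.integral_comp_comm hi.integral_prod_left)
  refine integral_congr_ae (Eventually.of_forall fun t => ?_)
  simp only [Φ, Complex.reCLM_apply]
  rw [integral_const_mul, Complex.re_ofReal_mul, ← Kc_re, Kc]

theorem kernel_tendsto {f : ℝ → ℝ} (hf : Measurable f) {M : ℝ} (hM : ∀ t, |f t| ≤ M) {G : ℂ → ℂ}
    (hG : ContinuousOn G {z | 0 ≤ z.re})
    (hL : ∀ z : ℂ, 0 < z.re → G z = ∫ t in Ioi (0 : ℝ), f t * Complex.exp (-z * t)) :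
    Tendsto (fun T => ∫ t in Ioi (0 : ℝ), f t * K (T - t)) atTop (𝓝 0) := by
  have hc : ∀ s : ℝ, 0 ≤ s → Continuous fun y : ℝ => G (s + y * Complex.I) := fun s hs =>
    hG.comp_continuous (by fun_prop) fun y => by simpa using hs
  obtain ⟨B, hB⟩ := (isCompact_Icc.prod isCompact_Icc : IsCompact (Icc (0 : ℝ) 1 ×ˢ Icc (0 : ℝ) 2)
    ).exists_bound_of_continuousOn (f := fun p : ℝ × ℝ => G (p.1 + p.2 * Complex.I))
    (hG.comp (by fun_prop) fun p hp => by simpa using hp.1.1)
  have key : ∀ T : ℝ, ∫ t in Ioi (0 : ℝ), f t * K (T - t) =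
      (∫ y in Ioc (0 : ℝ) 2, ((2 - y : ℝ) : ℂ) * Complex.exp (y * T * Complex.I) *
        G ((0 : ℝ) + y * Complex.I)).re := by
    intro T
    have h1 : Tendsto (fun s : ℝ => ∫ t in Ioi (0 : ℝ), f t * Real.exp (-s * t) * K (T - t))
        (𝓝[>] 0) (𝓝 (∫ t in Ioi (0 : ℝ), f t * K (T - t))) := by
      refine tendsto_integral_filter_of_dominated_convergence (fun t => M * K (T - t))
        (Eventually.of_forall fun s => Measurable.aestronglyMeasurable ?_) ?_
        ((K_int.comp_sub_left T).const_mul M).integrableOn (Eventually.of_forall fun t => ?_)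
      · have := K_cont.measurable
        fun_prop
      · filter_upwards [self_mem_nhdsWithin] with s hs
        filter_upwards [ae_restrict_mem measurableSet_Ioi] with t ht
        rw [norm_mul, norm_mul, Real.norm_eq_abs, Real.norm_eq_abs, Real.norm_eq_abs,
          abs_of_pos (Real.exp_pos _), abs_of_nonneg (K_nonneg _)]
        refine mul_le_mul_of_nonneg_right ?_ (K_nonneg _)
        have h2 : Real.exp (-s * t) ≤ 1 := Real.exp_le_one_iff.2 (by
          have := mul_pos (mem_Ioi.1 hs) (mem_Ioi.1 ht)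
          linarith)
        nlinarith [hM t, abs_nonneg (f t), Real.exp_pos (-s * t)]
      · have : Continuous fun s : ℝ => f t * Real.exp (-s * t) * K (T - t) := by fun_prop
        simpa using (this.tendsto 0).mono_left nhdsWithin_le_nhds
    have h2 : Tendsto (fun s : ℝ => ∫ y in Ioc (0 : ℝ) 2, ((2 - y : ℝ) : ℂ) *
        Complex.exp (y * T * Complex.I) * G (s + y * Complex.I)) (𝓝[>] 0)
        (𝓝 (∫ y in Ioc (0 : ℝ) 2, ((2 - y : ℝ) : ℂ) * Complex.exp (y * T * Complex.I) *
          G ((0 : ℝ) + y * Complex.I))) := by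
      refine tendsto_integral_filter_of_dominated_convergence (fun _ => 2 * B) ?_ ?_
        (integrable_const _) (Eventually.of_forall fun y => ?_)
      · filter_upwards [self_mem_nhdsWithin] with s hs
        exact (Continuous.mul (by fun_prop) (hc s (le_of_lt hs))).aestronglyMeasurable
      · filter_upwards [Ioc_mem_nhdsGT (zero_lt_one' ℝ)] with s hs
        filter_upwards [ae_restrict_mem measurableSet_Ioc] with y hy
        rw [norm_mul, norm_mul, ← Complex.ofReal_mul, Complex.norm_exp_ofReal_mul_I, mul_one,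
          Complex.norm_real, Real.norm_eq_abs, abs_of_nonneg (by linarith [hy.2])]
        exact mul_le_mul (by linarith [hy.1]) (hB (s, y) ⟨⟨hs.1.le, hs.2⟩, hy.1.le, hy.2⟩)
          (norm_nonneg _) (by norm_num)
      · refine Tendsto.const_mul _ ((hG _ (by simp)).tendsto.comp ?_)
        refine tendsto_nhdsWithin_iff.2 ⟨?_, ?_⟩
        · have : Continuous fun s : ℝ => (s : ℂ) + y * Complex.I := by fun_prop
          exact (this.tendsto 0).mono_left nhdsWithin_le_nhds
        · filter_upwards [self_mem_nhdsWithin] with s hs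
          simpa using le_of_lt hs
    refine tendsto_nhds_unique h1 (((Complex.continuous_re.tendsto _).comp h2).congr' ?_)
    filter_upwards [self_mem_nhdsWithin] with s hs
    exact (damped hf hM hL hs T).symm
  simp only [key]
  have h3 := (Real.tendsto_integral_exp_smul_cocompact ((Ioc (0 : ℝ) 2).indicator
    fun y => ((2 - y : ℝ) : ℂ) * G ((0 : ℝ) + y * Complex.I))).comp
    (f := fun T : ℝ => -T / (2 * Real.pi)) (x := atTop)
    ((tendsto_neg_atTop_atBot.atBot_div_const (by positivity)).mono_right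
      atBot_le_cocompact)
  have h4 := (Complex.continuous_re.tendsto _).comp h3
  rw [Complex.zero_re] at h4
  refine h4.congr fun T => ?_
  simp only [Function.comp]
  rw [← integral_indicator measurableSet_Ioc]
  congr 2
  funext y
  rw [Circle.smul_def, Real.fourierChar_apply, smul_eq_mul,
    show 2 * Real.pi * -(y * (-T / (2 * Real.pi))) = y * T by field_simp]
  by_cases hy : y ∈ Ioc (0 : ℝ) 2
  · rw [indicator_of_mem hy, indicator_of_mem hy]
    push_cast
    ring
  · rw [indicator_of_notMem hy, indicator_of_notMem hy, mul_zero]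

theorem window {φ : ℝ → ℝ} (hφ : Measurable φ) {M b R : ℝ} (hM : ∀ t, |φ t| ≤ M)
    (hb : ∀ u ∈ Ioc (-R) R, b ≤ φ u) :
    b * (∫ u in Ioc (-R) R, K u) - M * ((∫ u, K u) - ∫ u in Ioc (-R) R, K u) ≤
      ∫ u, φ u * K u := by
  have hi : Integrable fun u => φ u * K u :=
    K_int.bdd_mul hφ.aestronglyMeasurable (Eventually.of_forall hM)
  have hs : MeasurableSet (Ioc (-R) R) := measurableSet_Ioc
  rw [← integral_add_compl hs hi, ← integral_add_compl hs K_int, add_sub_cancel_left,
    sub_eq_add_neg, ← neg_mul, ← integral_const_mul, ← integral_const_mul]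
  refine add_le_add (setIntegral_mono_on (K_int.const_mul _).integrableOn hi.integrableOn hs
    fun u hu => mul_le_mul_of_nonneg_right (hb u hu) (K_nonneg u))
    (integral_mono (K_int.const_mul _).integrableOn hi.integrableOn
      fun u => mul_le_mul_of_nonneg_right (neg_le_of_abs_le (hM u)) (K_nonneg u))

/-- The Tauberian theorem for slowly decreasing functions. -/
theorem tauber {F : ℝ → ℝ} (hF : Measurable F) {M A : ℝ} (hM : ∀ t, |F t - A| ≤ M)
    (h0 : ∀ t, 0 ≤ F t) (hm : Monotone fun t => F t * Real.exp t) {G : ℂ → ℂ}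
    (hG : ContinuousOn G {z | 0 ≤ z.re})
    (hL : ∀ z : ℂ, 0 < z.re →
      G z = ∫ t in Ioi (0 : ℝ), ((F t - A : ℝ) : ℂ) * Complex.exp (-z * t)) :
    Tendsto F atTop (𝓝 A) := by
  have hM0 : 0 ≤ M := (abs_nonneg _).trans (hM 0)
  have hc := K_pos
  set c := ∫ u, K u with hcdef
  have hFb : ∀ t, F t ≤ M + |A| := fun t => by
    linarith [le_abs_self (F t - A), le_abs_self A, hM t]
  have hsc : ∀ l : ℝ, 0 < l → Tendsto (fun T => ∫ u,
      (Ioi (0 : ℝ)).indicator (fun t => F (t / l) - A) (T - u) * K u) atTop (𝓝 0) := by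
    intro l hl
    have h1 := kernel_tendsto (f := fun t => F (t / l) - A) (by fun_prop) (fun t => hM _)
      (G := fun z => l * G (l * z))
      (continuousOn_const.mul (hG.comp (by fun_prop) fun z hz => by
        simpa using mul_nonneg hl.le hz)) fun z hz => by
        have := integral_comp_mul_left_Ioi'
          (fun t : ℝ => ((F (t / l) - A : ℝ) : ℂ) * Complex.exp (-z * t)) 0 hl
        rw [mul_zero] at this
        rw [← this, hL _ (by simpa using mul_pos hl hz), Complex.real_smul]
        congr 2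
        funext t
        rw [mul_div_cancel_left₀ _ hl.ne']
        push_cast
        congr 2
        ring
    refine h1.congr fun T => ?_
    rw [← integral_indicator measurableSet_Ioi, ← integral_sub_left_eq_self _ volume T]
    congr 1
    funext u
    by_cases hu : T - u ∈ Ioi (0 : ℝ)
    · rw [indicator_of_mem hu, indicator_of_mem hu, sub_sub_cancel]
    · rw [indicator_of_notMem hu, indicator_of_notMem hu, zero_mul]
  rw [Metric.tendsto_nhds]
  intro ε hε
  obtain ⟨R, hR0, hR1, hR2⟩ : ∃ R : ℝ, 0 < R ∧ c / 2 < ∫ u in Ioc (-R) R, K u ∧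
      M * (c - ∫ u in Ioc (-R) R, K u) < ε * c / 8 := by
    have h1 : Tendsto (fun R : ℝ => ∫ u in Ioc (-R) R, K u) atTop (𝓝 c) := by
      refine (intervalIntegral_tendsto_integral K_int tendsto_neg_atTop_atBot tendsto_id).congr' ?_
      filter_upwards [eventually_ge_atTop 0] with R hR
      exact intervalIntegral.integral_of_le (by simp only [id]; linarith)
    have h2 := (h1.const_sub c).const_mul M
    rw [sub_self, mul_zero] at h2
    exact ((eventually_gt_atTop 0).and ((h1.eventually (lt_mem_nhds (half_lt_self hc))).and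
      (h2.eventually (gt_mem_nhds (by positivity))))).exists
  obtain ⟨δ, hδ0, hδ⟩ : ∃ δ : ℝ, 0 < δ ∧ (M + |A|) * (Real.exp δ - 1) < ε / 4 := by
    have h1 : Continuous fun δ : ℝ => (M + |A|) * (Real.exp δ - 1) := by fun_prop
    have h2 := (h1.tendsto 0).mono_left (nhdsWithin_le_nhds (s := Ioi 0))
    simp only [Real.exp_zero, sub_self, mul_zero] at h2
    exact ((eventually_mem_nhdsWithin).and (h2.eventually (gt_mem_nhds (by positivity)))).exists
  set cR := ∫ u in Ioc (-R) R, K u with hcR
  set l := 2 * R / δ with hl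
  have hl0 : 0 < l := by positivity
  have hRl : 2 * R / l = δ := by rw [hl]; field_simp
  have t1 : Tendsto (fun T : ℝ => l * T + R) atTop atTop :=
    tendsto_atTop_add_const_right _ _ (tendsto_id.const_mul_atTop hl0)
  have t2 : Tendsto (fun T : ℝ => l * T - R) atTop atTop :=
    tendsto_atTop_add_const_right _ (-R) (tendsto_id.const_mul_atTop hl0)
  have hφm : ∀ T : ℝ, Measurable fun u =>
      (Ioi (0 : ℝ)).indicator (fun t => F (t / l) - A) (T - u) := fun T =>
    (Measurable.indicator (by fun_prop) measurableSet_Ioi).comp (by fun_prop)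
  have hφb : ∀ T u : ℝ, |(Ioi (0 : ℝ)).indicator (fun t => F (t / l) - A) (T - u)| ≤ M := by
    intro T u
    by_cases hu : T - u ∈ Ioi (0 : ℝ)
    · rw [indicator_of_mem hu]; exact hM _
    · rw [indicator_of_notMem hu, abs_zero]; exact hM0
  have he : 1 ≤ Real.exp δ := Real.one_le_exp hδ0.le
  have step : ∀ a b : ℝ, a ≤ b → b ≤ a + δ → F a - ε / 4 ≤ F b := fun a b h1 h2 => by
    have h3 : F a * Real.exp a ≤ F b * Real.exp b := hm h1
    have h4 : Real.exp b ≤ Real.exp δ * Real.exp a := by
      rw [← Real.exp_add]; exact Real.exp_le_exp.2 (by linarith)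
    have h5 : F a * Real.exp a ≤ F b * Real.exp δ * Real.exp a := by
      rw [mul_assoc]; exact h3.trans (mul_le_mul_of_nonneg_left h4 (h0 b))
    have h6 := le_of_mul_le_mul_right h5 (Real.exp_pos a)
    nlinarith [hFb b, h0 b]
  filter_upwards [((hsc l hl0).comp t1).eventually (gt_mem_nhds (show 0 < ε * c / 8 by positivity)),
    ((hsc l hl0).comp t2).eventually (lt_mem_nhds (show -(ε * c / 8) < 0 by
      rw [neg_lt_zero]; positivity)), eventually_gt_atTop δ] with T h1 h2 hT
  have hlT : 2 * R < l * T := by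
    rw [← hRl, div_lt_iff₀ hl0] at hT
    linarith
  have u1 := window (hφm (l * T + R)) (b := F T - ε / 4 - A) (R := R) (hφb _) fun u hu => by
    rw [indicator_of_mem (show l * T + R - u ∈ Ioi (0 : ℝ) from by
      rw [mem_Ioi]; linarith [hu.2])]
    refine sub_le_sub_right (step _ _ ?_ ?_) A
    · rw [le_div_iff₀ hl0]; linarith [hu.2]
    · rw [div_le_iff₀ hl0, ← hRl, add_mul, div_mul_cancel₀ _ hl0.ne']; linarith [hu.1]
  have u2 := window (hφm (l * T - R)).neg (b := A - F T - ε / 4) (R := R) (M := M)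
    (fun u => by rw [Pi.neg_apply, abs_neg]; exact hφb _ u) fun u hu => by
    rw [Pi.neg_apply, indicator_of_mem (show l * T - R - u ∈ Ioi (0 : ℝ) from by
      rw [mem_Ioi]; linarith [hu.2])]
    have := step ((l * T - R - u) / l) T (by rw [div_le_iff₀ hl0]; linarith [hu.1]) (by
      rw [← hRl, ← add_div, le_div_iff₀ hl0]; linarith [hu.2])
    linarith
  simp only [Pi.neg_apply, neg_mul, integral_neg] at u2
  simp only [Function.comp] at h1 h2
  rw [← hcdef, ← hcR] at u1 u2
  rw [Real.dist_eq, abs_lt]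
  constructor
  · by_contra H
    nlinarith
  · by_contra H
    nlinarith

/-- The Wiener-Ikehara theorem (with a Chebyshev-type bound as hypothesis). -/
theorem wiener_ikehara {a : ℕ → ℝ} (ha : ∀ n, 0 ≤ a n) {C A : ℝ}
    (hC : ∀ x : ℝ, 0 ≤ x → ∑ k ∈ Finset.Icc 1 ⌊x⌋₊, a k ≤ C * x) {H : ℂ → ℂ}
    (hH : ContinuousOn H {s | 1 ≤ s.re})
    (hL : ∀ s : ℂ, 1 < s.re → H s = LSeries (fun n => (a n : ℂ)) s - A / (s - 1)) :
    Tendsto (fun x : ℝ => (∑ k ∈ Finset.Icc 1 ⌊x⌋₊, a k) / x) atTop (𝓝 A) := by
  let S : ℝ → ℝ := fun x => ∑ k ∈ Finset.Icc 1 ⌊x⌋₊, a k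
  have hS0 : ∀ x, 0 ≤ S x := fun x => Finset.sum_nonneg fun k _ => ha k
  have hSm : Monotone S := fun x y h => Finset.sum_le_sum_of_subset_of_nonneg
    (Finset.Icc_subset_Icc_right (Nat.floor_mono h)) fun k _ _ => ha k
  let F : ℝ → ℝ := fun t => S (Real.exp t) / Real.exp t
  have hF : Measurable F := by
    have := hSm.measurable
    simp only [F]
    fun_prop
  have hF0 : ∀ t, 0 ≤ F t := fun t => div_nonneg (hS0 _) (Real.exp_pos _).le
  have hFC : ∀ t, F t ≤ C := fun t => (div_le_iff₀ (Real.exp_pos _)).2 (hC _ (Real.exp_pos _).le)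
  have h1 := tauber hF (M := C + |A|) (A := A) (fun t => by
      refine (abs_sub _ _).trans ?_
      rw [abs_of_nonneg (hF0 t)]
      linarith [hFC t]) hF0 (fun s t h => by
      simp only [F, div_mul_cancel₀ _ (Real.exp_pos _).ne']
      exact hSm (Real.exp_le_exp.2 h))
    (G := fun z => (H (1 + z) - A) / (1 + z))
    (((hH.comp (by fun_prop) fun z hz => by simpa using hz).sub continuousOn_const).div
      (by fun_prop) fun z hz h => by
        have := congrArg Complex.re h
        simp only [Complex.add_re, Complex.one_re, Complex.zero_re] at this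
        have h2 : 0 ≤ z.re := hz
        linarith) fun z hz => by
    have hz0 : z ≠ 0 := Complex.ne_zero_of_re_pos hz
    have hz1 : 1 < (1 + z).re := by simpa using hz
    have hz2 : 1 + z ≠ 0 := Complex.ne_zero_of_one_lt_re hz1
    have i1 := integrableOn_exp_mul_complex_Ioi (a := -z) (by simpa using hz) 0
    have i2 : IntegrableOn (fun t : ℝ => (F t : ℂ) * Complex.exp (-z * t)) (Ioi 0) :=
      Integrable.bdd_mul (c := C) i1 (Measurable.aestronglyMeasurable (by fun_prop))
        (Eventually.of_forall fun t => by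
          rw [Complex.norm_real, Real.norm_eq_abs, abs_of_nonneg (hF0 t)]; exact hFC t)
    have e1 := LSeries_eq_mul_integral_of_nonneg a zero_le_one hz1 (by
      refine Asymptotics.IsBigO.of_bound C (Eventually.of_forall fun n => ?_)
      have := hC n (Nat.cast_nonneg n)
      rw [Nat.floor_natCast] at this
      rwa [Real.norm_eq_abs, abs_of_nonneg (Finset.sum_nonneg fun k _ => ha k), Real.rpow_one,
        Real.norm_natCast]) ha
    rw [← Real.exp_zero, ← integral_comp_exp_Ioi] at e1
    have e2 : ∫ t in Ioi (0 : ℝ), Real.exp t • ((∑ k ∈ Finset.Icc 1 ⌊Real.exp t⌋₊, (a k : ℂ)) *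
        ((Real.exp t : ℝ) : ℂ) ^ (-(1 + z + 1))) =
        ∫ t in Ioi (0 : ℝ), (F t : ℂ) * Complex.exp (-z * t) := by
      refine integral_congr_ae (Eventually.of_forall fun t => ?_)
      simp only [F, S]
      rw [Complex.cpow_def_of_ne_zero (by exact_mod_cast (Real.exp_pos t).ne'),
        ← Complex.ofReal_log (Real.exp_pos t).le, Real.log_exp, Complex.real_smul]
      push_cast
      rw [show (t : ℂ) * -(1 + z + 1) = -z * t - t - t by ring, Complex.exp_sub, Complex.exp_sub]
      field_simp
    rw [e2] at e1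
    simp only [Complex.ofReal_sub, sub_mul]
    rw [integral_sub i2 (i1.const_mul _), integral_const_mul,
      integral_exp_mul_complex_Ioi (by simpa using hz), hL _ hz1, e1]
    simp only [Complex.ofReal_zero, mul_zero, Complex.exp_zero, add_sub_cancel_left]
    field_simp
    ring
  refine (h1.comp Real.tendsto_log_atTop).congr' ?_
  filter_upwards [eventually_gt_atTop 0] with x hx
  simp only [Function.comp, F, Real.exp_log hx, S]

theorem sum_Icc_eq_psi (x : ℝ) :
    ∑ k ∈ Finset.Icc 1 ⌊x⌋₊, ArithmeticFunction.vonMangoldt k = Chebyshev.psi x := rfl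

open ArithmeticFunction.vonMangoldt in
/-- The prime number theorem in arithmetic progressions, for the von Mangoldt function. -/
theorem psi_ap_asymp {q : ℕ} [NeZero q] {a : ZMod q} (ha : IsUnit a) :
    Tendsto (fun x : ℝ => (∑ k ∈ Finset.Icc 1 ⌊x⌋₊, residueClass a k) / x) atTop
      (𝓝 (q.totient : ℝ)⁻¹) :=
  wiener_ikehara (residueClass_nonneg a) (C := Real.log 4 + 4)
    (fun x hx => (Finset.sum_le_sum fun k _ => residueClass_le a k).trans
      ((sum_Icc_eq_psi x).le.trans (Chebyshev.psi_le_const_mul_self hx)))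
    (continuousOn_LFunctionResidueClassAux a) fun s hs => by
      rw [eqOn_LFunctionResidueClassAux ha hs]
      simp

theorem psi_asymp : Tendsto (fun x : ℝ => Chebyshev.psi x / x) atTop (𝓝 1) := by
  have h := psi_ap_asymp (q := 1) (a := 1) isUnit_one
  simp only [Nat.totient_one, Nat.cast_one, inv_one] at h
  refine h.congr fun x => ?_
  rw [← sum_Icc_eq_psi]
  congr 1
  exact Finset.sum_congr rfl fun k _ => indicator_of_mem
    (s := {n : ℕ | (n : ZMod 1) = 1}) (Subsingleton.elim (k : ZMod 1) 1) _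

theorem theta_asymp : Tendsto (fun x : ℝ => Chebyshev.theta x / x) atTop (𝓝 1) := by
  have h1 : Tendsto (fun x : ℝ => (Chebyshev.psi - Chebyshev.theta) x / x) atTop (𝓝 0) := by
    refine (Chebyshev.isBigO_psi_sub_theta_sqrt.trans_isLittleO ?_).tendsto_div_nhds_zero
    refine (Asymptotics.isLittleO_iff_tendsto' ?_).2 ?_
    · filter_upwards [eventually_gt_atTop 0] with x hx h using absurd h hx.ne'
    · refine (Real.tendsto_sqrt_atTop.inv_tendsto_atTop).congr fun x => ?_
      simp [Real.sqrt_div_self']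
  have h2 := psi_asymp.sub h1
  rw [sub_zero] at h2
  refine h2.congr fun x => ?_
  simp only [Pi.sub_apply]
  ring

theorem pi_asymp : Tendsto (fun x : ℝ => (Nat.primeCounting ⌊x⌋₊ : ℝ) * Real.log x / x) atTop
    (𝓝 1) := by
  have h1 : Tendsto (fun x : ℝ => ((Nat.primeCounting ⌊x⌋₊ : ℝ) - Chebyshev.theta x / Real.log x) /
      (x / Real.log x)) atTop (𝓝 0) := by
    refine (Chebyshev.primeCounting_sub_theta_div_log_isBigO.trans_isLittleO
      ?_).tendsto_div_nhds_zero
    refine (Asymptotics.isLittleO_iff_tendsto' ?_).2 ?_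
    · filter_upwards [eventually_gt_atTop 1] with x hx h
      exact absurd h (div_pos (by linarith) (Real.log_pos hx)).ne'
    · refine (Real.tendsto_log_atTop.inv_tendsto_atTop).congr' ?_
      filter_upwards [eventually_gt_atTop 1] with x hx
      have := (Real.log_pos hx).ne'
      simp only [Pi.inv_apply]
      field_simp
  have h2 := theta_asymp.add h1
  rw [add_zero] at h2
  refine h2.congr' ?_
  filter_upwards [eventually_gt_atTop 1] with x hx
  have := (Real.log_pos hx).ne'
  field_simp
  ring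

end

end Vale.Agent.Lib.PNT
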