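import Mathlib

/-!
The Prekopa-Leindler inequality for an additive Haar measure on a finite-dimensional real normed
space, with arbitrary weights, and the multiplicative Brunn-Minkowski inequality.
-/

open MeasureTheory Set
open scoped ENNReal Pointwise

namespace Vale.Agent.Lib.PL

theorem vol_add_compact {K L C : Set ℝ} (hK : IsCompact K) (hL : IsCompact L) (hK0 : K.Nonempty)
    (hL0 : L.Nonempty) (h : ∀ x ∈ K, ∀ y ∈ L, x + y ∈ C) : volume K + volume L ≤ volume C := by
  obtain ⟨k, hk, hk'⟩ := hK.exists_isGreatest hK0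
  obtain ⟨l, hl, hl'⟩ := hL.exists_isLeast hL0
  have h1 : volume ((fun x => x - l) ⁻¹' K) = volume K := by
    simp [sub_eq_add_neg]
  have h2 : volume ((fun x => x - k) ⁻¹' L) = volume L := by
    simp [sub_eq_add_neg]
  have hd : AEDisjoint volume ((fun x => x - l) ⁻¹' K) ((fun x => x - k) ⁻¹' L) := by
    refine measure_mono_null (t := {k + l}) ?_ (by simp)
    rintro x ⟨hx, hx'⟩
    have a := hk' hx
    have b := hl' hx'
    simp only [mem_singleton_iff] at a b ⊢
    linarith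
  rw [← h1, ← h2, ← measure_union₀ ((measurable_sub_const k hL.measurableSet).nullMeasurableSet) hd]
  apply measure_mono
  rintro x (hx | hx)
  · simpa using h _ hx _ hl
  · simpa using h _ hk _ hx

theorem vol_smul_real {a : ℝ} (ha : 0 < a) (K : Set ℝ) :
    volume (a • K) = ENNReal.ofReal a * volume K := by
  rw [Measure.addHaar_smul]
  simp [abs_of_pos ha]

/-- One-dimensional Brunn-Minkowski inequality. -/
theorem brunn_minkowski_one {a b : ℝ} (ha : 0 < a) (hb : 0 < b) {A B C : Set ℝ}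
    (hA : MeasurableSet A) (hB : MeasurableSet B) (hA0 : A.Nonempty) (hB0 : B.Nonempty)
    (h : ∀ x ∈ A, ∀ y ∈ B, a * x + b * y ∈ C) :
    ENNReal.ofReal a * volume A + ENNReal.ofReal b * volume B ≤ volume C := by
  obtain ⟨x₀, hx₀⟩ := hA0
  obtain ⟨y₀, hy₀⟩ := hB0
  have key : ∀ K ⊆ A, IsCompact K → ∀ L ⊆ B, IsCompact L →
      ENNReal.ofReal a * volume K + ENNReal.ofReal b * volume L ≤ volume C := by
    intro K hKA hK L hLB hL
    have := vol_add_compact (C := C) ((hK.insert x₀).smul a) ((hL.insert y₀).smul b)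
      (insert_nonempty _ _).smul_set (insert_nonempty _ _).smul_set (by
        rintro _ ⟨x, hx, rfl⟩ _ ⟨y, hy, rfl⟩
        exact h x (insert_subset hx₀ hKA hx) y (insert_subset hy₀ hLB hy))
    rw [vol_smul_real ha, vol_smul_real hb] at this
    refine le_trans ?_ this
    gcongr <;> exact subset_insert _ _
  rw [hA.measure_eq_iSup_isCompact volume, hB.measure_eq_iSup_isCompact volume]
  simp only [iSup_and', ENNReal.mul_iSup]
  refine ENNReal.biSup_add_biSup_le' ⟨∅, empty_subset _, isCompact_empty⟩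
    ⟨∅, empty_subset _, isCompact_empty⟩ fun K hK L hL => key K hK.1 hK.2 L hL.1 hL.2

theorem layer {X : Type*} [MeasurableSpace X] (μ : Measure X) {f : X → ℝ≥0∞} (hf : Measurable f) :
    ∫⁻ x, min (f x) 1 ∂μ = ∫⁻ t in Ioi (0 : ℝ), μ {x | ENNReal.ofReal t < min (f x) 1} := by
  have hm : Measurable fun x => (min (f x) 1).toReal := (hf.min measurable_const).ennreal_toReal
  have hne : ∀ x, min (f x) 1 ≠ ∞ := fun x => ne_top_of_le_ne_top ENNReal.one_ne_top (min_le_right _ _)
  have := lintegral_eq_lintegral_meas_lt μ (f := fun x => (min (f x) 1).toReal)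
    (Filter.Eventually.of_forall fun x => ENNReal.toReal_nonneg) hm.aemeasurable
  simp only [ENNReal.ofReal_toReal (hne _)] at this
  rw [this]
  refine setLIntegral_congr_fun measurableSet_Ioi fun t ht => ?_
  congr 1
  ext x
  exact (ENNReal.ofReal_lt_iff_lt_toReal (le_of_lt ht) (hne x)).symm

theorem meas_layer {X : Type*} [MeasurableSpace X] (μ : Measure X) (f : X → ℝ≥0∞) :
    Measurable fun t : ℝ => μ {x | ENNReal.ofReal t < f x} := by
  apply Antitone.measurable
  intro s t hst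
  apply measure_mono
  intro x hx
  exact (ENNReal.ofReal_le_ofReal hst).trans_lt hx

theorem pl_normalized {a b : ℝ} (ha : 0 < a) (hb : 0 < b) (hab : a + b = 1) {f g h : ℝ → ℝ≥0∞}
    (hf : Measurable f) (hg : Measurable g) (hh : Measurable h) (f1 : ∀ x, f x ≤ 1)
    (g1 : ∀ x, g x ≤ 1) (f2 : ∀ t < 1, ∃ x, t < f x) (g2 : ∀ t < 1, ∃ x, t < g x)
    (H : ∀ x y, f x ^ a * g y ^ b ≤ h (a * x + b * y)) :
    ENNReal.ofReal a * (∫⁻ x, f x) + ENNReal.ofReal b * (∫⁻ x, g x) ≤ ∫⁻ x, h x := by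
  have e1 := layer volume hf
  have e2 := layer volume hg
  simp only [min_eq_left (f1 _)] at e1
  simp only [min_eq_left (g1 _)] at e2
  have e3 : ∫⁻ x, min (h x) 1 ≤ ∫⁻ x, h x := lintegral_mono fun x => min_le_left _ _
  refine le_trans ?_ e3
  rw [e1, e2, layer volume hh, ← lintegral_const_mul _ (meas_layer _ _),
    ← lintegral_const_mul _ (meas_layer _ _), ← lintegral_add_left ((meas_layer _ _).const_mul _)]
  refine setLIntegral_mono' measurableSet_Ioi fun t ht => ?_
  by_cases ht1 : ENNReal.ofReal t < 1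
  · refine brunn_minkowski_one ha hb (measurableSet_lt measurable_const hf)
      (measurableSet_lt measurable_const hg) (f2 _ ht1) (g2 _ ht1) ?_
    intro x hx y hy
    simp only [mem_ofPred_eq, lt_min_iff] at hx hy ⊢
    refine ⟨lt_of_lt_of_le ?_ (H x y), ht1⟩
    have ht0 : ENNReal.ofReal t ≠ 0 := by simpa using ht
    calc ENNReal.ofReal t = ENNReal.ofReal t ^ a * ENNReal.ofReal t ^ b := by
          rw [← ENNReal.rpow_add _ _ ht0 ENNReal.ofReal_ne_top, hab, ENNReal.rpow_one]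
      _ < f x ^ a * g y ^ b := ENNReal.mul_lt_mul (ENNReal.rpow_lt_rpow hx ha)
          (ENNReal.rpow_lt_rpow hy hb)
  · have z1 : {x | ENNReal.ofReal t < f x} = ∅ :=
      eq_empty_of_forall_notMem fun x hx => ht1 (lt_of_lt_of_le hx (f1 x))
    have z2 : {x | ENNReal.ofReal t < g x} = ∅ :=
      eq_empty_of_forall_notMem fun x hx => ht1 (lt_of_lt_of_le hx (g1 x))
    simp [z1, z2]

theorem amgm {a b : ℝ} (ha : 0 < a) (hb : 0 < b) (hab : a + b = 1) (u v : ℝ≥0∞) :
    u ^ a * v ^ b ≤ ENNReal.ofReal a * u + ENNReal.ofReal b * v := by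
  have hc : (a⁻¹).HolderConjugate b⁻¹ := Real.HolderConjugate.inv_inv ha hb hab
  have := ENNReal.young_inequality (u ^ a) (v ^ b) hc
  rw [← ENNReal.rpow_mul, ← ENNReal.rpow_mul, mul_inv_cancel₀ ha.ne', mul_inv_cancel₀ hb.ne',
    ENNReal.rpow_one, ENNReal.rpow_one, ENNReal.ofReal_inv_of_pos ha, ENNReal.ofReal_inv_of_pos hb,
    div_eq_mul_inv, div_eq_mul_inv, inv_inv, inv_inv, mul_comm u, mul_comm v] at this
  exact this

theorem pl_bounded {a b : ℝ} (ha : 0 < a) (hb : 0 < b) (hab : a + b = 1) {f g h : ℝ → ℝ≥0∞}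
    (hf : Measurable f) (hg : Measurable g) (hh : Measurable h) (f1 : ⨆ x, f x ≠ ∞)
    (g1 : ⨆ x, g x ≠ ∞) (H : ∀ x y, f x ^ a * g y ^ b ≤ h (a * x + b * y)) :
    (∫⁻ x, f x) ^ a * (∫⁻ x, g x) ^ b ≤ ∫⁻ x, h x := by
  set M := ⨆ x, f x with hM
  set N := ⨆ x, g x with hN
  by_cases M0 : M = 0
  · have : f = 0 := funext fun x => le_antisymm ((le_iSup f x).trans M0.le) zero_le
    simp [this, ha]
  by_cases N0 : N = 0
  · have : g = 0 := funext fun x => le_antisymm ((le_iSup g x).trans N0.le) zero_le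
    simp [this, hb]
  have norm1 : ∀ (f : ℝ → ℝ≥0∞) (M : ℝ≥0∞), M = ⨆ x, f x → M ≠ 0 → M ≠ ∞ →
      (∀ x, M⁻¹ * f x ≤ 1) ∧ ∀ t < 1, ∃ x, t < M⁻¹ * f x := by
    intro f M hM M0 M1
    constructor
    · intro x
      calc M⁻¹ * f x ≤ M⁻¹ * M := by gcongr; exact hM ▸ le_iSup f x
        _ = 1 := ENNReal.inv_mul_cancel M0 M1
    · intro t ht
      rw [← lt_iSup_iff, ← ENNReal.mul_iSup, ← hM, ENNReal.inv_mul_cancel M0 M1]
      exact ht
  have key := pl_normalized ha hb hab (f := fun x => M⁻¹ * f x) (g := fun x => N⁻¹ * g x)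
    (h := fun x => (M⁻¹ ^ a * N⁻¹ ^ b) * h x) (hf.const_mul _) (hg.const_mul _) (hh.const_mul _)
    (norm1 f M hM M0 f1).1 (norm1 g N hN N0 g1).1 (norm1 f M hM M0 f1).2 (norm1 g N hN N0 g1).2
    (fun x y => by
      rw [ENNReal.mul_rpow_of_nonneg _ _ ha.le, ENNReal.mul_rpow_of_nonneg _ _ hb.le,
        mul_mul_mul_comm]
      gcongr
      exact H x y)
  have key2 := (amgm ha hb hab _ _).trans key
  rw [lintegral_const_mul _ hf, lintegral_const_mul _ hg, lintegral_const_mul _ hh,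
    ENNReal.mul_rpow_of_nonneg _ _ ha.le, ENNReal.mul_rpow_of_nonneg _ _ hb.le,
    mul_mul_mul_comm] at key2
  refine (ENNReal.mul_le_mul_iff_right ?_ ?_).1 key2
  · exact mul_ne_zero (by simp [f1, M0, not_lt.2 ha.le]) (by simp [g1, N0, not_lt.2 hb.le])
  · exact ENNReal.mul_ne_top (ENNReal.rpow_ne_top_of_nonneg ha.le (by simpa using M0))
      (ENNReal.rpow_ne_top_of_nonneg hb.le (by simpa using N0))

theorem lintegral_rpow_iSup {X : Type*} [MeasurableSpace X] (μ : Measure X) {f : X → ℝ≥0∞}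
    (hf : Measurable f) {a : ℝ} (ha : 0 < a) :
    (∫⁻ x, f x ∂μ) ^ a = ⨆ n : ℕ, (∫⁻ x, min (f x) n ∂μ) ^ a := by
  have h1 : ∫⁻ x, f x ∂μ = ⨆ n : ℕ, ∫⁻ x, min (f x) n ∂μ := by
    rw [← lintegral_iSup (fun n => hf.min measurable_const)
      (fun m n hmn x => min_le_min_left _ (by exact_mod_cast hmn))]
    congr 1
    funext x
    rw [← inf_iSup_eq, ENNReal.iSup_natCast, inf_top_eq]
  rw [h1]
  exact (ENNReal.orderIsoRpow a ha).map_iSup _

/-- The Prekopa-Leindler property of a measure on a real vector space. -/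
def HasPL (a b : ℝ) {X : Type*} [MeasurableSpace X] [AddCommGroup X] [Module ℝ X]
    (μ : Measure X) : Prop :=
  ∀ f g h : X → ℝ≥0∞, Measurable f → Measurable g → Measurable h →
    (∀ x y, f x ^ a * g y ^ b ≤ h (a • x + b • y)) →
    (∫⁻ x, f x ∂μ) ^ a * (∫⁻ x, g x ∂μ) ^ b ≤ ∫⁻ x, h x ∂μ

theorem hasPL_real {a b : ℝ} (ha : 0 < a) (hb : 0 < b) (hab : a + b = 1) :
    HasPL a b (volume : Measure ℝ) := by
  intro f g h hf hg hh H
  rw [lintegral_rpow_iSup _ hf ha, lintegral_rpow_iSup _ hg hb, ENNReal.iSup_mul]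
  refine iSup_le fun n => ?_
  rw [ENNReal.mul_iSup]
  refine iSup_le fun m => ?_
  refine pl_bounded ha hb hab (hf.min measurable_const) (hg.min measurable_const) hh
    (ne_top_of_le_ne_top (ENNReal.natCast_ne_top n) (iSup_le fun x => min_le_right _ _))
    (ne_top_of_le_ne_top (ENNReal.natCast_ne_top m) (iSup_le fun x => min_le_right _ _))
    fun x y => le_trans ?_ (H x y)
  gcongr <;> exact min_le_left _ _

section transfer

variable {a b : ℝ} {X Y : Type*} [MeasurableSpace X] [AddCommGroup X] [Module ℝ X]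
  [MeasurableSpace Y] [AddCommGroup Y] [Module ℝ Y] {μ : Measure X} {ν : Measure Y}

theorem HasPL.prod [SFinite ν] (h₁ : HasPL a b μ) (h₂ : HasPL a b ν) : HasPL a b (μ.prod ν) := by
  intro f g h hf hg hh H
  rw [lintegral_prod _ hf.aemeasurable, lintegral_prod _ hg.aemeasurable,
    lintegral_prod _ hh.aemeasurable]
  refine h₁ _ _ _ hf.lintegral_prod_right' hg.lintegral_prod_right' hh.lintegral_prod_right' ?_
  intro x x'
  exact h₂ _ _ _ (hf.comp measurable_prodMk_left) (hg.comp measurable_prodMk_left)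
    (hh.comp measurable_prodMk_left) fun y y' => H (x, y) (x', y')

theorem HasPL.map (h₁ : HasPL a b μ) {e : X → Y} (he : Measurable e)
    (hlin : ∀ x y, e (a • x + b • y) = a • e x + b • e y) : HasPL a b (μ.map e) := by
  intro f g h hf hg hh H
  rw [lintegral_map hf he, lintegral_map hg he, lintegral_map hh he]
  exact h₁ _ _ _ (hf.comp he) (hg.comp he) (hh.comp he) fun x y => by
    rw [hlin]; exact H _ _

theorem HasPL.smul (ha : 0 < a) (hb : 0 < b) (hab : a + b = 1) (h₁ : HasPL a b μ) (c : ℝ≥0∞) :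
    HasPL a b (c • μ) := by
  intro f g h hf hg hh H
  simp only [lintegral_smul_measure, smul_eq_mul]
  rw [ENNReal.mul_rpow_of_nonneg _ _ ha.le, ENNReal.mul_rpow_of_nonneg _ _ hb.le,
    mul_mul_mul_comm, ← ENNReal.rpow_add_of_nonneg _ _ ha.le hb.le, hab, ENNReal.rpow_one]
  gcongr
  exact h₁ f g h hf hg hh H

end transfer

theorem hasPL_pi {a b : ℝ} (ha : 0 < a) (hb : 0 < b) (hab : a + b = 1) (n : ℕ) :
    HasPL a b (volume : Measure (Fin n → ℝ)) := by
  induction n with
  | zero =>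
    intro f g h _ _ _ H
    simp only [lintegral_unique, volume_pi, Measure.pi_univ, Finset.univ_eq_empty,
      Finset.prod_empty, mul_one]
    exact (H _ _).trans (le_of_eq (congrArg h (Subsingleton.elim _ _)))
  | succ n ih =>
    have h1 := (hasPL_real ha hb hab).prod ih
    have h2 := (volume_preserving_piFinSuccAbove (fun _ : Fin (n + 1) => ℝ) 0).symm
    rw [← h2.map_eq]
    refine HasPL.map h1 h2.measurable ?_
    intro x y
    ext i
    refine Fin.cases ?_ (fun j => ?_) i <;>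
      simp [MeasurableEquiv.piFinSuccAbove_symm_apply, Fin.insertNthEquiv]

variable {E : Type*} [NormedAddCommGroup E] [NormedSpace ℝ E] [FiniteDimensional ℝ E]
  [MeasurableSpace E] [BorelSpace E]

theorem hasPL_haar (μ : Measure E) [μ.IsAddHaarMeasure] {a b : ℝ} (ha : 0 < a) (hb : 0 < b)
    (hab : a + b = 1) : HasPL a b μ := by
  let e : (Fin (Module.finrank ℝ E) → ℝ) ≃L[ℝ] E :=
    (Module.finBasis ℝ E).equivFun.toContinuousLinearEquiv.symm
  have h1 : HasPL a b ((volume : Measure (Fin (Module.finrank ℝ E) → ℝ)).map e) :=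
    (hasPL_pi ha hb hab _).map e.continuous.measurable fun x y => by simp
  have : ((volume : Measure (Fin (Module.finrank ℝ E) → ℝ)).map e).IsAddHaarMeasure :=
    e.isAddHaarMeasure_map _
  rw [Measure.isAddLeftInvariant_eq_smul μ
    ((volume : Measure (Fin (Module.finrank ℝ E) → ℝ)).map e)]
  exact h1.smul ha hb hab _

/-- The Prekopa-Leindler inequality. -/
theorem prekopa_leindler (μ : Measure E) [μ.IsAddHaarMeasure] {a b : ℝ} (ha : 0 < a) (hb : 0 < b)
    (hab : a + b = 1) {f g h : E → ℝ≥0∞} (hf : Measurable f) (hg : Measurable g)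
    (hh : Measurable h) (H : ∀ x y, f x ^ a * g y ^ b ≤ h (a • x + b • y)) :
    (∫⁻ x, f x ∂μ) ^ a * (∫⁻ x, g x ∂μ) ^ b ≤ ∫⁻ x, h x ∂μ :=
  hasPL_haar μ ha hb hab f g h hf hg hh H

/-- The multiplicative Brunn-Minkowski inequality. -/
theorem brunn_minkowski_mul (μ : Measure E) [μ.IsAddHaarMeasure] {a b : ℝ} (ha : 0 < a)
    (hb : 0 < b) (hab : a + b = 1) {A B C : Set E} (hA : MeasurableSet A) (hB : MeasurableSet B)
    (hC : MeasurableSet C) (H : ∀ x ∈ A, ∀ y ∈ B, a • x + b • y ∈ C) :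
    μ A ^ a * μ B ^ b ≤ μ C := by
  rw [← lintegral_indicator_one hA, ← lintegral_indicator_one hB, ← lintegral_indicator_one hC]
  refine prekopa_leindler μ ha hb hab (measurable_one.indicator hA) (measurable_one.indicator hB)
    (measurable_one.indicator hC) fun x y => ?_
  by_cases hx : x ∈ A
  · by_cases hy : y ∈ B
    · simp [hx, hy, H x hx y hy]
    · simp [hy, hb]
  · simp [hx, ha]

end Vale.Agent.Lib.PL
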