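import Vale.Agent.Lib.PrimeSumGRHC

/-!
# Prime sums under quasi-GRH, part D: arithmetic progressions and the Liouville function

Main results of the library (namespace `Vale.Agent.Lib.PS`, all from `QGRH`):
`psi_twist`, `ps_all`, `ps_nonprincipal`, `ps_trivial`, `psi_all`, `psi_power`, `psi_chi_power`
(part C), `psi_ap_power`, `theta_ap_power`, `liouville_log` (this file).
-/

open Finset Filter Topology
open ArithmeticFunction (vonMangoldt liouville cardFactors)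

namespace Vale.Agent.Lib.PS

lemma principal_diff (q : ℕ) [NeZero q] {N : ℕ} (hN : 1 ≤ N) :
    ‖∑ n ∈ Icc 1 N, (vonMangoldt n : ℂ) * (1 : DirichletCharacter ℂ q) n -
      ∑ n ∈ Icc 1 N, (vonMangoldt n : ℂ)‖ ≤ 2 * √N * Real.log N + Real.log q := by
  have hq := NeZero.ne q
  have h2 := Chebyshev.psi_sub_theta_le (x := N) (by exact_mod_cast hN)
  rw [Chebyshev.psi_sub_theta_eq_sum_not_prime, Nat.floor_natCast] at h2
  have h3 : ∑ p ∈ q.primeFactors, Real.log p ≤ Real.log q := by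
    rw [← Real.log_prod (fun p hp => by
      exact_mod_cast (Nat.prime_of_mem_primeFactors hp).ne_zero), ← Nat.cast_prod]
    refine Real.log_le_log ?_ ?_
    · exact_mod_cast prod_pos fun p hp => (Nat.prime_of_mem_primeFactors hp).pos
    · exact_mod_cast Nat.le_of_dvd (Nat.pos_of_ne_zero hq) (Nat.prod_primeFactors_dvd q)
  rw [← sum_sub_distrib]
  refine (norm_sum_le _ _).trans ?_
  have h4 : ∀ n ∈ Icc 1 N, ‖(vonMangoldt n : ℂ) * (1 : DirichletCharacter ℂ q) n -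
      (vonMangoldt n : ℂ)‖ ≤ (if ¬ n.Prime then vonMangoldt n else 0) +
        (if n ∈ q.primeFactors then Real.log n else 0) := by
    intro n _
    have hΛ : 0 ≤ vonMangoldt n := ArithmeticFunction.vonMangoldt_nonneg
    have hl := Real.log_natCast_nonneg n
    by_cases hu : IsUnit (n : ZMod q)
    · rw [MulChar.one_apply hu, mul_one, sub_self, norm_zero]
      positivity
    · rw [MulChar.map_nonunit _ hu, mul_zero, zero_sub, norm_neg, Complex.norm_real,
        Real.norm_of_nonneg hΛ]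
      by_cases hp : n.Prime
      · have : n ∈ q.primeFactors := by
          rw [ZMod.isUnit_iff_coprime] at hu
          exact Nat.mem_primeFactors.mpr ⟨hp, by
            by_contra h; exact hu ((Nat.Prime.coprime_iff_not_dvd hp).mpr h), hq⟩
        simp [hp, this, ArithmeticFunction.vonMangoldt_apply_prime hp]
      · rw [if_pos hp]
        have : 0 ≤ (if n ∈ q.primeFactors then Real.log n else 0) := by positivity
        linarith
  refine (sum_le_sum h4).trans ?_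
  rw [sum_add_distrib, ← sum_filter, ← sum_filter]
  refine add_le_add h2 (le_trans ?_ h3)
  exact sum_le_sum_of_subset_of_nonneg (fun n hn => (mem_filter.mp hn).2)
    fun n _ _ => Real.log_natCast_nonneg n

/-- Prime number theorem in arithmetic progressions with power saving, uniformly in `q`. -/
theorem psi_ap_power (h : QGRH) : ∃ δ > 0, ∃ C : ℝ, ∀ (q : ℕ) [NeZero q] (a : ZMod q), IsUnit a →
    ∀ y : ℝ, y ≥ 1 →
      |∑ n ∈ (Icc 1 ⌊y⌋₊).filter (fun n : ℕ => (n : ZMod q) = a), vonMangoldt n - y / q.totient| ≤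
        C * y ^ (1 - δ : ℝ) * Real.log (2 * q * y) := by
  obtain ⟨θ, C, hθ, hθ1, hC, h1, h2⟩ := psi_all h
  refine ⟨1 - θ, by linarith, C + 3, fun q _ a ha y hy => ?_⟩
  rw [sub_sub_cancel]
  have hq : (1 : ℝ) ≤ q := by exact_mod_cast Nat.pos_of_ne_zero (NeZero.ne q)
  have hφ : (0 : ℝ) < q.totient := by
    exact_mod_cast Nat.totient_pos.mpr (Nat.pos_of_ne_zero (NeZero.ne q))
  set B := (C + 3) * y ^ θ * Real.log (2 * q * y) with hB
  have hy0 : 0 < y := by linarith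
  have hL : 0 ≤ Real.log (2 * q * y) := Real.log_nonneg (by nlinarith)
  have hyθ : 1 ≤ y ^ θ := Real.one_le_rpow hy (by linarith)
  have hall : ∀ χ : DirichletCharacter ℂ q,
      ‖∑ n ∈ Icc 1 ⌊y⌋₊, (vonMangoldt n : ℂ) * χ n - if χ = 1 then (y : ℂ) else 0‖ ≤ B := by
    intro χ
    split_ifs with hχ
    · subst hχ
      have hN : 1 ≤ ⌊y⌋₊ := Nat.le_floor (by exact_mod_cast hy)
      have e1 := principal_diff q hN
      have e2 := h2 y hy
      rw [psi_cast] at e1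
      rw [← Real.norm_eq_abs, ← Complex.norm_real, Complex.ofReal_sub] at e2
      refine (norm_sub_le_norm_sub_add_norm_sub _ _ _).trans ((add_le_add e1 e2).trans ?_)
      have e3 : (⌊y⌋₊ : ℝ) ≤ y := Nat.floor_le hy0.le
      have e3' : (1 : ℝ) ≤ ⌊y⌋₊ := by exact_mod_cast hN
      have e4 : √⌊y⌋₊ ≤ y ^ θ := by
        refine (Real.sqrt_le_sqrt e3).trans ?_
        rw [Real.sqrt_eq_rpow]; gcongr; linarith
      have e5 : Real.log ⌊y⌋₊ ≤ Real.log (2 * q * y) :=
        Real.log_le_log (by linarith) (by nlinarith)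
      have e6 : Real.log q ≤ Real.log (2 * q * y) := Real.log_le_log (by linarith) (by nlinarith)
      have e7 : Real.log (2 * y) ≤ Real.log (2 * q * y) :=
        Real.log_le_log (by linarith) (by nlinarith)
      have e8 : 2 * √⌊y⌋₊ * Real.log ⌊y⌋₊ ≤ 2 * y ^ θ * Real.log (2 * q * y) := by
        have := Real.log_natCast_nonneg ⌊y⌋₊
        gcongr
      have e9 : C * y ^ θ * Real.log (2 * y) ≤ C * y ^ θ * Real.log (2 * q * y) := by gcongr
      rw [hB]; nlinarith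
    · rw [sub_zero]
      refine (h1 q χ hχ y hy).trans ?_
      rw [hB]; gcongr; linarith
  have hid : (q.totient : ℂ) * ((∑ n ∈ (Icc 1 ⌊y⌋₊).filter (fun n : ℕ => (n : ZMod q) = a),
      vonMangoldt n - y / q.totient : ℝ) : ℂ) = ∑ χ : DirichletCharacter ℂ q, χ a⁻¹ *
        (∑ n ∈ Icc 1 ⌊y⌋₊, (vonMangoldt n : ℂ) * χ n - if χ = 1 then (y : ℂ) else 0) := by
    have e1 : ∑ χ : DirichletCharacter ℂ q, χ a⁻¹ * (if χ = 1 then (y : ℂ) else 0) = y := by
      rw [sum_eq_single 1 (fun χ _ hχ => by simp [hχ]) (by simp), if_pos rfl,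
        MulChar.one_apply, one_mul]
      exact IsUnit.of_mul_eq_one a (ZMod.inv_mul_of_unit a ha)
    have e2 : ∑ χ : DirichletCharacter ℂ q, χ a⁻¹ *
        ∑ n ∈ Icc 1 ⌊y⌋₊, (vonMangoldt n : ℂ) * χ n = (q.totient : ℂ) *
        ∑ n ∈ (Icc 1 ⌊y⌋₊).filter (fun n : ℕ => (n : ZMod q) = a), (vonMangoldt n : ℂ) := by
      simp only [mul_sum]
      rw [sum_comm, sum_filter]
      refine sum_congr rfl fun n _ => ?_
      simp only [mul_left_comm _ (vonMangoldt n : ℂ), ← mul_sum]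
      rw [DirichletCharacter.sum_char_inv_mul_char_eq ℂ ha]
      by_cases hn : (n : ZMod q) = a
      · simp [hn, mul_comm]
      · simp [hn, Ne.symm hn]
    simp only [mul_sub, sum_sub_distrib, e1, e2]
    have : (q.totient : ℂ) ≠ 0 := by exact_mod_cast hφ.ne'
    push_cast
    field_simp
  have hn := congrArg norm hid
  rw [norm_mul, Complex.norm_natCast, Complex.norm_real, Real.norm_eq_abs] at hn
  have hle : (q.totient : ℝ) * |∑ n ∈ (Icc 1 ⌊y⌋₊).filter (fun n : ℕ => (n : ZMod q) = a),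
      vonMangoldt n - y / q.totient| ≤ q.totient * B := by
    rw [hn]
    refine (norm_sum_le _ _).trans ((sum_le_card_nsmul _ _ B fun χ _ => ?_).trans ?_)
    · rw [norm_mul]
      exact (mul_le_of_le_one_left (norm_nonneg _) (χ.norm_le_one _)).trans (hall χ)
    · rw [card_univ, ← Nat.card_eq_fintype_card,
        DirichletCharacter.card_eq_totient_of_hasEnoughRootsOfUnity, nsmul_eq_mul]
  exact le_of_mul_le_mul_left hle hφ

/-- The same for the sum of `log p` over primes in a progression. -/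
theorem theta_ap_power (h : QGRH) : ∃ δ > 0, ∃ C : ℝ, ∀ (q : ℕ) [NeZero q] (a : ZMod q),
    IsUnit a → ∀ y : ℝ, y ≥ 1 →
      |∑ p ∈ (Icc 1 ⌊y⌋₊).filter (fun p : ℕ => p.Prime ∧ (p : ZMod q) = a), Real.log p -
        y / q.totient| ≤ C * y ^ (1 - δ : ℝ) * Real.log (2 * q * y) := by
  obtain ⟨δ, hδ, C, h1⟩ := psi_ap_power h
  refine ⟨min δ (1 / 2), lt_min hδ (by norm_num), |C| + 2, fun q _ a ha y hy => ?_⟩
  have hq : (1 : ℝ) ≤ q := by exact_mod_cast Nat.pos_of_ne_zero (NeZero.ne q)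
  have hL : 0 ≤ Real.log (2 * q * y) := Real.log_nonneg (by nlinarith)
  have hy0 : 0 < y := by linarith
  have e1 := h1 q a ha y hy
  have e2 := Chebyshev.psi_sub_theta_le hy
  rw [Chebyshev.psi_sub_theta_eq_sum_not_prime] at e2
  have e3 : ∑ n ∈ (Icc 1 ⌊y⌋₊).filter (fun n : ℕ => (n : ZMod q) = a), vonMangoldt n =
      ∑ p ∈ (Icc 1 ⌊y⌋₊).filter (fun p : ℕ => p.Prime ∧ (p : ZMod q) = a), Real.log p +
      ∑ n ∈ ((Icc 1 ⌊y⌋₊).filter (fun n : ℕ => (n : ZMod q) = a)).filter (fun n => ¬ n.Prime),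
        vonMangoldt n := by
    rw [← sum_filter_add_sum_filter_not _ Nat.Prime, filter_filter]
    congr 1
    refine sum_congr (by simp only [and_comm]) fun p hp => ?_
    exact ArithmeticFunction.vonMangoldt_apply_prime (mem_filter.mp hp).2.1
  have e4 : ∑ n ∈ ((Icc 1 ⌊y⌋₊).filter (fun n : ℕ => (n : ZMod q) = a)).filter
      (fun n => ¬ n.Prime), vonMangoldt n ≤ 2 * √y * Real.log y :=
    le_trans (sum_le_sum_of_subset_of_nonneg (filter_subset_filter _ (filter_subset _ _))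
      fun _ _ _ => ArithmeticFunction.vonMangoldt_nonneg) e2
  have e5 : 0 ≤ ∑ n ∈ ((Icc 1 ⌊y⌋₊).filter (fun n : ℕ => (n : ZMod q) = a)).filter
      (fun n => ¬ n.Prime), vonMangoldt n :=
    sum_nonneg fun _ _ => ArithmeticFunction.vonMangoldt_nonneg
  have e6 : C * y ^ (1 - δ) * Real.log (2 * q * y) ≤
      |C| * y ^ (1 - min δ (1 / 2)) * Real.log (2 * q * y) := by
    gcongr
    · exact le_abs_self C
    · exact min_le_left _ _
  have e7 : 2 * √y * Real.log y ≤ 2 * y ^ (1 - min δ (1 / 2)) * Real.log (2 * q * y) := by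
    have := Real.log_nonneg hy
    gcongr
    · rw [Real.sqrt_eq_rpow]; gcongr; linarith [min_le_right δ (1 / 2)]
    · nlinarith
  rw [e3] at e1
  rw [abs_le] at e1 ⊢
  have : 0 ≤ y ^ (1 - min δ (1 / 2)) * Real.log (2 * q * y) := by positivity
  constructor <;> nlinarith [e1.1, e1.2]

/-! ### The Liouville function -/

/-- The Liouville function with real values. -/
noncomputable abbrev lam : ArithmeticFunction ℝ := (liouville : ArithmeticFunction ℤ)

lemma lam_apply {n : ℕ} (hn : n ≠ 0) : lam n = (-1 : ℝ) ^ cardFactors n := by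
  simp [ArithmeticFunction.liouville_apply hn]

lemma lam_mul (m n : ℕ) : lam (m * n) = lam m * lam n := by
  simp [ArithmeticFunction.liouville_apply_mul]

lemma abs_lam_le (n : ℕ) : |lam n| ≤ 1 := by
  rcases eq_or_ne n 0 with rfl | h
  · simp
  · simp [lam_apply h, abs_pow]

lemma abs_lam_zeta_le (n : ℕ) :
    |(lam * (ArithmeticFunction.zeta : ArithmeticFunction ℝ)) n| ≤ 1 := by
  have hm : (lam * (ArithmeticFunction.zeta : ArithmeticFunction ℝ)).IsMultiplicative :=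
    ArithmeticFunction.isMultiplicative_liouville.intCast.mul
      ArithmeticFunction.isMultiplicative_zeta.natCast
  induction n using Nat.recOnPosPrimePosCoprime with
  | zero => simp
  | one => rw [hm.1]; simp
  | prime_pow p n hp hn =>
    rw [ArithmeticFunction.coe_mul_zeta_apply, Nat.sum_divisors_prime_pow hp]
    have : ∀ i : ℕ, lam (p ^ i) = (-1 : ℝ) ^ i := fun i => by
      rw [lam_apply (pow_ne_zero _ hp.ne_zero), ArithmeticFunction.cardFactors_apply_prime_pow hp]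
    simp only [this, neg_one_geom_sum]
    split_ifs <;> simp
  | coprime a b _ _ hab ha hb =>
    rw [hm.map_mul_of_coprime hab, abs_mul]
    exact mul_le_one₀ ha (abs_nonneg _) hb

lemma floor_div_diff (N k : ℕ) : |((N / k : ℕ) : ℝ) - (N : ℝ) / k| ≤ 1 := by
  have h1 : ((N / k : ℕ) : ℝ) ≤ (N : ℝ) / k := Nat.cast_div_le
  have h2 := Nat.lt_floor_add_one ((N : ℝ) / k)
  rw [Nat.floor_div_eq_div] at h2
  rw [abs_le]; constructor <;> linarith

lemma lam_harm (N : ℕ) : |∑ k ∈ Ioc 0 N, lam k * ((N : ℝ) / k)| ≤ 2 * N := by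
  have h1 := ArithmeticFunction.sum_Ioc_mul_zeta_eq_sum lam N
  have h2 : |∑ n ∈ Ioc 0 N, (lam * (ArithmeticFunction.zeta : ArithmeticFunction ℝ)) n| ≤ N := by
    refine (abs_sum_le_sum_abs _ _).trans
      ((sum_le_card_nsmul _ _ 1 fun n _ => abs_lam_zeta_le n).trans ?_)
    simp
  have h3 : |∑ k ∈ Ioc 0 N, lam k * (((N / k : ℕ) : ℝ) - (N : ℝ) / k)| ≤ N := by
    refine (abs_sum_le_sum_abs _ _).trans ((sum_le_card_nsmul _ _ 1 fun n _ => ?_).trans ?_)
    · rw [abs_mul]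
      exact mul_le_one₀ (abs_lam_le n) (abs_nonneg _) (floor_div_diff N n)
    · simp
  simp only [mul_sub, sum_sub_distrib] at h3
  rw [← h1] at h3
  rw [abs_le] at h2 h3 ⊢
  constructor <;> linarith [h2.1, h2.2, h3.1, h3.2]

lemma sum_rpow_le {θ : ℝ} (h0 : 0 ≤ θ) (h1 : θ < 1) (N : ℕ) :
    ∑ k ∈ Ioc 0 N, (k : ℝ) ^ (-θ) ≤ (N : ℝ) ^ (1 - θ) / (1 - θ) := by
  have hp : 0 < 1 - θ := by linarith
  induction N with
  | zero => simp; positivity
  | succ N ih =>
    rw [sum_Ioc_succ_top (Nat.zero_le N)]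
    have hN : (0 : ℝ) < (N + 1 : ℕ) := by positivity
    have h2 := rpow_one_add_le_one_add_mul_self (s := -(1 / ((N + 1 : ℕ) : ℝ))) (p := 1 - θ)
      (by rw [neg_le_neg_iff, div_le_one hN]; simp) hp.le (by linarith)
    have h3 : (N : ℝ) = (N + 1 : ℕ) * (1 + -(1 / ((N + 1 : ℕ) : ℝ))) := by
      field_simp; push_cast; ring
    have h4 : (N : ℝ) ^ (1 - θ) ≤ ((N + 1 : ℕ) : ℝ) ^ (1 - θ) *
        (1 + (1 - θ) * -(1 / ((N + 1 : ℕ) : ℝ))) := by
      have h5 : 0 ≤ 1 + -(1 / ((N + 1 : ℕ) : ℝ)) := by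
        have : 1 / ((N + 1 : ℕ) : ℝ) ≤ 1 := by rw [div_le_one hN]; simp
        linarith
      calc (N : ℝ) ^ (1 - θ) = (((N + 1 : ℕ) : ℝ) * (1 + -(1 / ((N + 1 : ℕ) : ℝ)))) ^ (1 - θ) := by
            rw [← h3]
        _ = _ := Real.mul_rpow hN.le h5
        _ ≤ _ := by gcongr
    have h5 : ((N + 1 : ℕ) : ℝ) ^ (1 - θ) = (N + 1 : ℕ) * ((N + 1 : ℕ) : ℝ) ^ (-θ) := by
      rw [sub_eq_add_neg, Real.rpow_add hN, Real.rpow_one]
    have h6 : ((N + 1 : ℕ) : ℝ) ^ (1 - θ) * (1 + (1 - θ) * -(1 / ((N + 1 : ℕ) : ℝ))) =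
        ((N + 1 : ℕ) : ℝ) ^ (1 - θ) - (1 - θ) * ((N + 1 : ℕ) : ℝ) ^ (-θ) := by
      rw [h5]; field_simp; ring
    rw [h6] at h4
    refine (add_le_add_left ih _).trans ?_
    rw [div_add' _ _ _ hp.ne', div_le_div_iff_of_pos_right hp]
    linarith

lemma lam_log (N : ℕ) : ∑ n ∈ Ioc 0 N, lam n * Real.log n =
    ∑ k ∈ Ioc 0 N, lam k * ∑ m ∈ Ioc 0 (N / k), lam m * vonMangoldt m := by
  have := ArithmeticFunction.sum_Ioc_mul_eq_sum_sum lam (lam.pmul vonMangoldt) N
  simp only [ArithmeticFunction.pmul_apply] at this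
  rw [← this]
  refine sum_congr rfl fun n _ => ?_
  rw [ArithmeticFunction.mul_apply, ← ArithmeticFunction.vonMangoldt_sum, mul_sum,
    ← Nat.sum_divisorsAntidiagonal' (f := fun _ m => lam n * vonMangoldt m)]
  refine sum_congr rfl fun x hx => ?_
  rw [← (Nat.mem_divisorsAntidiagonal.mp hx).1, lam_mul, ArithmeticFunction.pmul_apply, mul_assoc]

lemma lam_vonMangoldt (M : ℕ) : |∑ m ∈ Ioc 0 M, lam m * vonMangoldt m + Chebyshev.psi M| ≤
    2 * (Chebyshev.psi M - Chebyshev.theta M) := by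
  rw [Chebyshev.psi_sub_theta_eq_sum_not_prime, Chebyshev.psi, Nat.floor_natCast,
    ← sum_add_distrib, sum_filter, mul_sum]
  refine (abs_sum_le_sum_abs _ _).trans (sum_le_sum fun m _ => ?_)
  by_cases hp : m.Prime
  · simp [hp, lam_apply hp.ne_zero, ArithmeticFunction.cardFactors_apply_prime hp]
  · have hΛ : 0 ≤ vonMangoldt m := ArithmeticFunction.vonMangoldt_nonneg
    have := abs_le.mp (abs_lam_le m)
    rw [if_pos hp, abs_le]
    constructor <;> nlinarith [this.1, this.2]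

/-- `∑_{n ≤ x} λ(n) ≪ x / log x`. -/
theorem liouville_log (h : QGRH) : ∃ C : ℝ, ∀ x : ℝ, x ≥ 2 →
    |∑ n ∈ Icc 1 ⌊x⌋₊, (-1 : ℝ) ^ (cardFactors n)| ≤ C * x / Real.log x := by
  obtain ⟨δ, hδ, C, h1⟩ := psi_power h
  obtain ⟨C1, h2⟩ := Chebyshev.psi_sub_theta_le_mul_sqrt
  set θ := max (1 - δ) (1 / 2) with hθ
  have hθ0 : 1 / 2 ≤ θ := le_max_right _ _
  have hθ1 : θ < 1 := max_lt (by linarith) (by norm_num)
  have hθ2 : 1 - δ ≤ θ := le_max_left _ _
  set D := 2 * |C1| + |C| + 1 with hD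
  have hD0 : 0 ≤ D := by positivity
  have hin : ∀ N k : ℕ, k ∈ Ioc 0 N →
      |∑ m ∈ Ioc 0 (N / k), lam m * vonMangoldt m + (N : ℝ) / k| ≤ D * ((N : ℝ) / k) ^ θ := by
    intro N k hk
    rw [mem_Ioc] at hk
    have e0 : 1 ≤ N / k := (Nat.one_le_div_iff hk.1).mpr hk.2
    have e0' : (1 : ℝ) ≤ (N / k : ℕ) := by exact_mod_cast e0
    have e1 := lam_vonMangoldt (N / k)
    have e2 := h2 (N / k : ℕ)
    have e3 := h1 (N / k : ℕ) e0'
    have e4 := floor_div_diff N k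
    have e5 : ((N / k : ℕ) : ℝ) ≤ (N : ℝ) / k := Nat.cast_div_le
    have e6 : ((N / k : ℕ) : ℝ) ^ θ ≤ ((N : ℝ) / k) ^ θ := by gcongr
    have e7 : C1 * √(N / k : ℕ) ≤ |C1| * ((N : ℝ) / k) ^ θ := by
      refine mul_le_mul (le_abs_self _) (le_trans ?_ e6) (by positivity) (abs_nonneg _)
      rw [Real.sqrt_eq_rpow]; gcongr
    have e8 : C * ((N / k : ℕ) : ℝ) ^ (1 - δ) ≤ |C| * ((N : ℝ) / k) ^ θ := by
      refine mul_le_mul (le_abs_self _) (le_trans ?_ e6) (by positivity) (abs_nonneg _)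
      gcongr
    have e9 : 1 ≤ ((N : ℝ) / k) ^ θ := Real.one_le_rpow (e0'.trans e5) (by linarith)
    rw [abs_le] at e1 e3 e4 ⊢
    rw [hD]
    constructor <;> linarith [e1.1, e1.2, e3.1, e3.2, e4.1, e4.2]
  have hmain : ∀ N : ℕ, |∑ n ∈ Ioc 0 N, lam n * Real.log n| ≤ (2 + D / (1 - θ)) * N := by
    intro N
    rcases Nat.eq_zero_or_pos N with rfl | hN
    · simp
    have hN' : (0 : ℝ) < N := by exact_mod_cast hN
    have e1 := lam_harm N
    have e2 : |∑ k ∈ Ioc 0 N, lam k * (∑ m ∈ Ioc 0 (N / k), lam m * vonMangoldt m +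
        (N : ℝ) / k)| ≤ D / (1 - θ) * N := by
      refine (abs_sum_le_sum_abs _ _).trans ((sum_le_sum
        (g := fun k : ℕ => D * (N : ℝ) ^ θ * (k : ℝ) ^ (-θ)) fun k hk => ?_).trans ?_)
      · rw [abs_mul]
        refine (mul_le_of_le_one_left (abs_nonneg _) (abs_lam_le k)).trans
          ((hin N k hk).trans (le_of_eq ?_))
        rw [Real.div_rpow hN'.le (Nat.cast_nonneg _), Real.rpow_neg (Nat.cast_nonneg _)]
        ring
      · rw [← mul_sum]
        calc D * (N : ℝ) ^ θ * ∑ k ∈ Ioc 0 N, (k : ℝ) ^ (-θ)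
            ≤ D * (N : ℝ) ^ θ * ((N : ℝ) ^ (1 - θ) / (1 - θ)) := by
              gcongr; exact sum_rpow_le (by linarith) hθ1 N
          _ = D / (1 - θ) * ((N : ℝ) ^ θ * (N : ℝ) ^ (1 - θ)) := by ring
          _ = _ := by rw [← Real.rpow_add hN']; simp
    simp only [mul_add, sum_add_distrib] at e2
    rw [← lam_log] at e2
    rw [abs_le] at e1 e2 ⊢
    constructor <;> linarith [e1.1, e1.2, e2.1, e2.2]
  refine ⟨2 + D / (1 - θ) + 4, fun x hx => ?_⟩
  have hx0 : 0 < x := by linarith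
  have hL : 0 < Real.log x := Real.log_pos (by linarith)
  have hNx : (⌊x⌋₊ : ℝ) ≤ x := Nat.floor_le hx0.le
  have e1 : ∑ n ∈ Icc 1 ⌊x⌋₊, (-1 : ℝ) ^ (cardFactors n) = ∑ n ∈ Ioc 0 ⌊x⌋₊, lam n :=
    sum_congr rfl fun n hn => (lam_apply (mem_Ioc.mp hn).1.ne').symm
  have e2 : |∑ n ∈ Ioc 0 ⌊x⌋₊, lam n * (Real.log x - Real.log n)| ≤ 4 * x := by
    refine (abs_sum_le_sum_abs _ _).trans ((sum_le_sum
      (g := fun k : ℕ => 2 * x ^ (1 / 2 : ℝ) * (k : ℝ) ^ (-(1 / 2) : ℝ)) fun k hk => ?_).trans ?_)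
    · rw [mem_Ioc] at hk
      have hk0 : (0 : ℝ) < k := by exact_mod_cast hk.1
      have hkx : (k : ℝ) ≤ x := (Nat.le_floor_iff hx0.le).mp hk.2
      rw [abs_mul, abs_of_nonneg (sub_nonneg.mpr (Real.log_le_log hk0 hkx))]
      refine (mul_le_of_le_one_left (sub_nonneg.mpr (Real.log_le_log hk0 hkx))
        (abs_lam_le k)).trans ?_
      rw [← Real.log_div hx0.ne' hk0.ne']
      refine (Real.log_le_rpow_div (ε := 1 / 2) (by positivity) (by norm_num)).trans
        (le_of_eq ?_)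
      rw [Real.div_rpow hx0.le hk0.le, Real.rpow_neg hk0.le]
      ring
    · rw [← mul_sum]
      calc 2 * x ^ (1 / 2 : ℝ) * ∑ k ∈ Ioc 0 ⌊x⌋₊, (k : ℝ) ^ (-(1 / 2) : ℝ)
          ≤ 2 * x ^ (1 / 2 : ℝ) * (x ^ (1 - 1 / 2 : ℝ) / (1 - 1 / 2)) := by
            gcongr
            refine (sum_rpow_le (by norm_num) (by norm_num) _).trans ?_
            gcongr
        _ = 4 * (x ^ (1 / 2 : ℝ) * x ^ (1 - 1 / 2 : ℝ)) := by ring
        _ = _ := by rw [← Real.rpow_add hx0]; simp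
  have e3 := hmain ⌊x⌋₊
  have e4 : (2 + D / (1 - θ)) * ⌊x⌋₊ ≤ (2 + D / (1 - θ)) * x := by
    have : 0 < 1 - θ := by linarith
    gcongr
  simp only [mul_sub, sum_sub_distrib, ← sum_mul] at e2
  rw [e1, le_div_iff₀ hL, ← abs_of_pos hL, ← abs_mul]
  rw [abs_le] at e2 e3 ⊢
  constructor <;> linarith [e2.1, e2.2, e3.1, e3.2]

end Vale.Agent.Lib.PS
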