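import Mathlib

/-!
# Prime sums under quasi-GRH, part A: bounds for `L'/L`
-/

open Complex Finset Metric Filter Topology MeasureTheory Asymptotics

namespace Vale.Agent.Lib.PS

/-- Quasi-GRH: a zero-free half-plane `σ₀ < re s` with `σ₀ < 1`, common to all Dirichlet
L-functions. -/
def QGRH : Prop :=
  ∃ σ₀ : ℝ, σ₀ < 1 ∧ ∀ (q : ℕ) [NeZero q] (χ : DirichletCharacter ℂ q) (s : ℂ),
    σ₀ < s.re → s ≠ 1 → χ.LFunction s ≠ 0

/-- Borel–Carathéodory bound for the logarithmic derivative. -/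
lemma logDeriv_bound {f : ℂ → ℂ} {c : ℂ} {R r M : ℝ} (hr : 0 ≤ r) (hrR : r < R) (hM : 0 < M)
    (hf : DifferentiableOn ℂ f (ball c R)) (h0 : ∀ z ∈ ball c R, f z ≠ 0)
    (hb : ∀ z ∈ ball c R, ‖f z‖ ≤ Real.exp M * ‖f c‖) {z : ℂ} (hz : ‖z - c‖ ≤ r) :
    ‖deriv f z / f z‖ ≤ 8 * R / (R - r) ^ 2 * M := by
  have hR : 0 < R := hr.trans_lt hrR
  have hc : c ∈ ball c R := mem_ball_self hR
  have hd : DifferentiableOn ℂ (fun w => deriv f w / f w) (ball c R) :=
    (hf.deriv isOpen_ball).div hf h0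
  obtain ⟨g, hgc, hg⟩ := hd.isExactOn_ball.with_val_at c 0
  have hfd : ∀ w ∈ ball c R, HasDerivAt f (deriv f w) w := fun w hw =>
    (hf.differentiableAt (isOpen_ball.mem_nhds hw)).hasDerivAt
  have key : ∀ w ∈ ball c R, f w = f c * exp (g w) := by
    have h1 : ∀ w ∈ ball c R, HasDerivAt (fun w => f w * exp (-g w)) 0 w := by
      intro w hw
      have h2 : HasDerivAt (fun w => f w * exp (-g w))
          (deriv f w * exp (-g w) + f w * (exp (-g w) * -(deriv f w / f w))) w :=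
        (hfd w hw).mul ((hg w hw).neg.cexp)
      convert h2 using 1
      have := h0 w hw
      field_simp
      ring
    intro w hw
    have h2 : f w * exp (-g w) = f c * exp (-g c) := by
      refine isOpen_ball.is_const_of_deriv_eq_zero (𝕜 := ℂ) (f := fun w => f w * exp (-g w))
        (convex_ball c R).isPreconnected
        (fun x hx => (h1 x hx).differentiableAt.differentiableWithinAt)
        (fun x hx => (h1 x hx).deriv) hw hc
    rw [hgc, neg_zero, exp_zero, mul_one] at h2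
    rw [← h2, mul_assoc, ← exp_add]; simp
  have hre : ∀ w ∈ ball c R, (g w).re ≤ M := by
    intro w hw
    have h1 := hb w hw
    rw [key w hw, norm_mul, norm_exp, mul_comm] at h1
    have h2 : 0 < ‖f c‖ := norm_pos_iff.mpr (h0 c hc)
    exact Real.exp_le_exp.mp (le_of_mul_le_mul_right h1 h2)
  have hmem : ∀ u ∈ ball (0 : ℂ) R, c + u ∈ ball c R := by
    intro u hu; simpa using hu
  have hgb : ∀ w ∈ ball c R, ‖g w‖ ≤ 2 * M * ‖w - c‖ / (R - ‖w - c‖) := by
    intro w hw
    have := borelCaratheodory_zero (f := fun u => g (c + u)) (z := w - c) hM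
      (fun u hu => ((hg _ (hmem u hu)).differentiableAt.comp u
        (by fun_prop)).differentiableWithinAt)
      (fun u hu => hre _ (hmem u hu)) hR (by simpa [dist_eq_norm] using hw) (by simpa using hgc)
    simpa using this
  set ρ := (R - r) / 2 with hρ
  have hρ0 : 0 < ρ := by rw [hρ]; linarith
  have hsub : closedBall z ρ ⊆ ball c R := by
    intro w hw
    rw [mem_closedBall, dist_eq_norm] at hw
    rw [mem_ball, dist_eq_norm]
    have : ‖w - c‖ ≤ ‖w - z‖ + ‖z - c‖ := norm_sub_le_norm_sub_add_norm_sub _ _ _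
    linarith
  have hzb : z ∈ ball c R := hsub (mem_closedBall_self hρ0.le)
  have hdc : DiffContOnCl ℂ g (ball z ρ) := by
    apply DifferentiableOn.diffContOnCl
    rw [closure_ball z hρ0.ne']
    exact fun w hw => (hg w (hsub hw)).differentiableAt.differentiableWithinAt
  have hC : ∀ w ∈ sphere z ρ, ‖g w‖ ≤ 2 * M * R / ρ := by
    intro w hw
    have hw' := hsub (sphere_subset_closedBall hw)
    have h1 : ‖w - z‖ = ρ := by simpa [dist_eq_norm] using hw
    have h2 : ‖w - c‖ ≤ ‖w - z‖ + ‖z - c‖ := norm_sub_le_norm_sub_add_norm_sub _ _ _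
    refine (hgb w hw').trans ?_
    have h3 : ρ ≤ R - ‖w - c‖ := by linarith
    have h4 : ‖w - c‖ ≤ R := by linarith
    gcongr
  have := norm_deriv_le_of_forall_mem_sphere_norm_le hρ0 hdc hC
  rw [(hg z hzb).deriv] at this
  refine this.trans (le_of_eq ?_)
  have : R - r ≠ 0 := by linarith
  rw [hρ]; field_simp; ring

/-- Continuation of a Dirichlet series whose partial sums are `κ x + O(K)` to `re s > 0`. -/
lemma cont_exists (f : ℕ → ℂ) (κ : ℂ) (K : ℝ)
    (hK : ∀ x : ℝ, 1 < x → ‖∑ k ∈ Icc 1 ⌊x⌋₊, f k - κ * x‖ ≤ K)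
    (hf : ∀ n, ‖f n‖ ≤ 1) :
    ∃ J : ℂ → ℂ, (∀ s : ℂ, 0 < s.re → DifferentiableAt ℂ J s) ∧
      (∀ s : ℂ, 1 / 2 ≤ s.re → ‖J s‖ ≤ 2 * K) ∧
      (∀ s : ℂ, 1 < s.re → LSeries f s = s * J s + κ * (s / (s - 1))) := by
  set S : ℝ → ℂ := fun x => ∑ k ∈ Icc 1 ⌊x⌋₊, f k - κ * x with hS
  have hK0 : 0 ≤ K := (norm_nonneg _).trans (hK 2 (by norm_num))
  have hSm : Measurable S := by
    refine Measurable.sub ?_ (by fun_prop)
    exact (measurable_from_top (f := fun n : ℕ => ∑ k ∈ Icc 1 n, f k)).comp Nat.measurable_floor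
  set Rm : ℝ → ℂ := Set.indicator (Set.Ioi 1) S with hRm
  have hRmm : Measurable Rm := hSm.indicator measurableSet_Ioi
  have hRb : ∀ x, ‖Rm x‖ ≤ K := by
    intro x
    by_cases hx : x ∈ Set.Ioi (1 : ℝ)
    · rw [hRm, Set.indicator_of_mem hx]; exact hK x hx
    · rw [hRm, Set.indicator_of_notMem hx]; simpa using hK0
  have hJ : ∀ s : ℂ, mellin Rm (-s) = ∫ t in Set.Ioi (1 : ℝ), S t * (t : ℂ) ^ (-(s + 1)) := by
    intro s
    have : ∀ t : ℝ, (t : ℂ) ^ (-s - 1) • Rm t =
        Set.indicator (Set.Ioi 1) (fun t : ℝ => S t * (t : ℂ) ^ (-(s + 1))) t := by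
      intro t
      by_cases hx : t ∈ Set.Ioi (1 : ℝ)
      · rw [hRm, Set.indicator_of_mem hx, Set.indicator_of_mem hx, smul_eq_mul, mul_comm]
        congr 2; ring
      · rw [hRm, Set.indicator_of_notMem hx, Set.indicator_of_notMem hx, smul_zero]
    simp only [mellin, this]
    rw [setIntegral_indicator measurableSet_Ioi, Set.Ioi_inter_Ioi]
    norm_num
  have hint : ∀ s : ℂ, 0 < s.re →
      IntegrableOn (fun t : ℝ => S t * (t : ℂ) ^ (-(s + 1))) (Set.Ioi 1) := by
    intro s hs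
    have h1 : IntegrableOn (fun t : ℝ => (t : ℂ) ^ (-(s + 1))) (Set.Ioi 1) :=
      integrableOn_Ioi_cpow_of_lt (by simp; linarith) one_pos
    refine Integrable.bdd_mul (c := K) h1 hSm.aestronglyMeasurable ?_
    filter_upwards [ae_restrict_mem measurableSet_Ioi] with t ht using hK t ht
  refine ⟨fun s => mellin Rm (-s), fun s hs => ?_, fun s hs => ?_, fun s hs => ?_⟩
  · have : DifferentiableAt ℂ (mellin Rm) (-s) := by
      refine mellin_differentiableAt_of_isBigO_rpow (a := 0) (b := (-s).re - 1) ?_ ?_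
        (by simpa using hs) ?_ (by linarith)
      · exact ((memLp_top_of_bound hRmm.aestronglyMeasurable K
          (Eventually.of_forall hRb)).locallyIntegrable le_top).locallyIntegrableOn _
      · refine IsBigO.of_bound K (Eventually.of_forall fun x => ?_)
        simpa using hRb x
      · refine IsBigO.of_bound 0 ?_
        have : Set.Iio (1 : ℝ) ∈ 𝓝[>] (0 : ℝ) := mem_nhdsWithin_of_mem_nhds (Iio_mem_nhds one_pos)
        filter_upwards [this] with x hx
        rw [hRm, Set.indicator_of_notMem (by simpa using le_of_lt hx)]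
        simp
    exact this.comp s (by fun_prop)
  · simp only [hJ]
    have h1 : IntegrableOn (fun t : ℝ => K * t ^ (-(3 / 2) : ℝ)) (Set.Ioi 1) :=
      (integrableOn_Ioi_rpow_of_lt (by norm_num) one_pos).const_mul K
    refine (norm_integral_le_of_norm_le h1 ?_).trans (le_of_eq ?_)
    · filter_upwards [ae_restrict_mem measurableSet_Ioi] with t ht
      have ht0 : 0 < t := one_pos.trans ht
      rw [norm_mul, norm_cpow_eq_rpow_re_of_pos ht0]
      refine mul_le_mul (hK t ht) (Real.rpow_le_rpow_of_exponent_le (le_of_lt ht) ?_)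
        (by positivity) hK0
      simp; linarith
    · rw [integral_const_mul, integral_Ioi_rpow_of_lt (by norm_num) one_pos]
      norm_num; ring
  · have hO : (fun n : ℕ => ∑ k ∈ Icc 1 n, ‖f k‖) =O[atTop] fun n : ℕ => (n : ℝ) ^ (1 : ℝ) := by
      refine IsBigO.of_bound 1 (Eventually.of_forall fun n => ?_)
      rw [Real.norm_of_nonneg (sum_nonneg fun _ _ => norm_nonneg _)]
      refine (sum_le_card_nsmul _ _ 1 fun k _ => hf k).trans ?_
      simp
    rw [LSeries_eq_mul_integral' f zero_le_one hs hO]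
    simp only [hJ]
    have h2 : IntegrableOn (fun t : ℝ => (t : ℂ) ^ (-s)) (Set.Ioi 1) :=
      integrableOn_Ioi_cpow_of_lt (by simp; linarith) one_pos
    have h3 : ∫ t in Set.Ioi (1 : ℝ), (∑ k ∈ Icc 1 ⌊t⌋₊, f k) * (t : ℂ) ^ (-(s + 1)) =
        ∫ t in Set.Ioi (1 : ℝ), (S t * (t : ℂ) ^ (-(s + 1)) + κ * (t : ℂ) ^ (-s)) := by
      refine setIntegral_congr_fun measurableSet_Ioi fun t ht => ?_
      have ht0 : (t : ℂ) ≠ 0 := ofReal_ne_zero.mpr (one_pos.trans ht).ne'
      have : (t : ℂ) ^ (-s) = t * (t : ℂ) ^ (-(s + 1)) := by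
        rw [show -s = 1 + -(s + 1) by ring, cpow_add _ _ ht0, cpow_one]
      simp only [hS, this]; ring
    rw [h3, integral_add (hint s (by linarith)) (h2.const_mul κ), integral_const_mul,
      integral_Ioi_cpow_of_lt (by simp; linarith) one_pos]
    have h4 : s - 1 ≠ 0 := by
      intro h; have := congrArg re h; simp at this; linarith
    have h5 : -s + 1 ≠ 0 := by
      intro h; apply h4; linear_combination -h
    simp only [ofReal_one, one_cpow]
    field_simp
    ring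

lemma eq_on_halfplane {F G : ℂ → ℂ} (hF : ∀ s : ℂ, 0 < s.re → DifferentiableAt ℂ F s)
    (hG : ∀ s : ℂ, 0 < s.re → DifferentiableAt ℂ G s) (h : ∀ s : ℂ, 1 < s.re → F s = G s)
    {s : ℂ} (hs : 0 < s.re) : F s = G s := by
  have ho : IsOpen {s : ℂ | 0 < s.re} := isOpen_lt continuous_const continuous_re
  have hF' : AnalyticOnNhd ℂ F {s : ℂ | 0 < s.re} :=
    DifferentiableOn.analyticOnNhd (fun z hz => (hF z hz).differentiableWithinAt) ho
  have hG' : AnalyticOnNhd ℂ G {s : ℂ | 0 < s.re} :=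
    DifferentiableOn.analyticOnNhd (fun z hz => (hG z hz).differentiableWithinAt) ho
  refine hF'.eqOn_of_preconnected_of_eventuallyEq hG' (convex_halfSpace_re_gt 0).isPreconnected
    (z₀ := 2) (by simp) ?_ hs
  have : {s : ℂ | 1 < s.re} ∈ 𝓝 (2 : ℂ) :=
    (isOpen_lt continuous_const continuous_re).mem_nhds (by simp)
  filter_upwards [this] with z hz using h z hz

lemma char_sum_le {q : ℕ} [NeZero q] {χ : DirichletCharacter ℂ q} (hχ : χ ≠ 1) (N : ℕ) :
    ‖∑ k ∈ Icc 1 N, χ k‖ ≤ q := by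
  have hq : 0 < q := Nat.pos_of_ne_zero (NeZero.ne q)
  have hper : ∀ m : ℕ, ∑ k ∈ Ioc m (m + q), χ (k : ℕ) = 0 := by
    intro m
    induction m with
    | zero =>
      rw [← MulChar.sum_eq_zero_of_ne_one hχ, zero_add]
      have h1 : ∑ k ∈ Ioc 0 q, χ (k : ℕ) = ∑ k ∈ range q, χ (k : ℕ) := by
        have h2 := Finset.sum_Ioc_add_eq_sum_Icc (f := fun k : ℕ => χ (k : ℕ)) (Nat.zero_le q)
        rw [← Nat.range_succ_eq_Icc_zero, sum_range_succ] at h2
        simpa using h2
      rw [h1]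
      obtain ⟨q, rfl⟩ := Nat.exists_eq_succ_of_ne_zero hq.ne'
      rw [sum_range]
      refine Fintype.sum_equiv (ZMod.finEquiv (q + 1)).toEquiv _ _ fun i => ?_
      congr 1
      exact Fin.cast_val_eq_self i
    | succ m ih =>
      have h1 := sum_Ioc_consecutive (fun k : ℕ => χ (k : ℕ)) (Nat.le_succ m)
        (show m + 1 ≤ m + 1 + q by omega)
      have h2 := sum_Ioc_consecutive (fun k : ℕ => χ (k : ℕ)) (Nat.le_add_right m q)
        (show m + q ≤ m + 1 + q by omega)
      rw [ih, zero_add, show m + 1 + q = m + q + 1 by ring, Nat.Ioc_succ_singleton,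
        sum_singleton] at h2
      rw [show m + 1 + q = m + q + 1 by ring, Nat.Ioc_succ_singleton, sum_singleton, ← h2] at h1
      have h3 : ((m + q + 1 : ℕ) : ZMod q) = ((m + 1 : ℕ) : ZMod q) := by push_cast; simp
      rw [h3] at h1
      rw [show m + 1 + q = m + q + 1 by ring]
      simpa using h1
  have hI : ∀ N : ℕ, Icc 1 N = Ioc 0 N := fun N => rfl
  rw [hI]
  induction N using Nat.strong_induction_on with
  | _ N ih =>
    by_cases h : N ≤ q
    · refine (norm_sum_le _ _).trans ((sum_le_card_nsmul _ _ 1 fun k _ => χ.norm_le_one _).trans ?_)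
      simpa using h
    · obtain ⟨m, rfl⟩ : ∃ m, N = m + q := ⟨N - q, by omega⟩
      rw [← sum_Ioc_consecutive _ (Nat.zero_le m) (Nat.le_add_right m q), hper, add_zero]
      exact ih m (by omega)

lemma L_upper {q : ℕ} [NeZero q] {χ : DirichletCharacter ℂ q} (hχ : χ ≠ 1) {s : ℂ}
    (hs : 1 / 2 ≤ s.re) : ‖χ.LFunction s‖ ≤ 2 * q * ‖s‖ := by
  obtain ⟨J, hJ1, hJ2, hJ3⟩ := cont_exists (fun n => χ n) 0 q
    (fun x _ => by simpa using char_sum_le hχ ⌊x⌋₊) (fun n => χ.norm_le_one _)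
  have : χ.LFunction s = s * J s := by
    refine eq_on_halfplane (F := χ.LFunction) (G := fun s => s * J s)
      (fun z _ => DirichletCharacter.differentiable_LFunction hχ z)
      (fun z hz => differentiableAt_id.mul (hJ1 z hz)) (fun z hz => ?_) (by linarith)
    rw [DirichletCharacter.LFunction_eq_LSeries χ hz, hJ3 z hz]; simp
  rw [this, norm_mul, mul_comm]
  gcongr
  exact hJ2 s hs

/-- `(s - 1) ζ(s)`, entire. -/
noncomputable abbrev Z1 : ℂ → ℂ := DirichletCharacter.LFunctionTrivChar₁ 1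

lemma Z1_eq {s : ℂ} (hs : s ≠ 1) : Z1 s = (s - 1) * riemannZeta s := by
  rw [Z1, DirichletCharacter.LFunctionTrivChar₁, Function.update_of_ne hs,
    DirichletCharacter.LFunctionTrivChar, DirichletCharacter.LFunction_modOne_eq]

lemma Z1_upper {s : ℂ} (hs : 1 / 2 ≤ s.re) : ‖Z1 s‖ ≤ ‖s‖ + 2 * ‖s‖ * ‖s - 1‖ := by
  obtain ⟨J, hJ1, hJ2, hJ3⟩ := cont_exists 1 1 1
    (fun x hx => by
      have h1 := Nat.floor_le (show 0 ≤ x by linarith)
      have h2 := Nat.lt_floor_add_one x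
      have : ∑ k ∈ Icc 1 ⌊x⌋₊, (1 : ℕ → ℂ) k - 1 * x = ((⌊x⌋₊ - x : ℝ) : ℂ) := by simp
      rw [this, norm_real, Real.norm_eq_abs, abs_le]
      constructor <;> linarith) (fun n => by simp)
  have : Z1 s = s + s * (s - 1) * J s := by
    refine eq_on_halfplane (F := Z1) (G := fun s => s + s * (s - 1) * J s)
      (fun z _ => DirichletCharacter.differentiable_LFunctionTrivChar₁ 1 z)
      (fun z hz => differentiableAt_id.add ((by fun_prop : DifferentiableAt ℂ
        (fun s : ℂ => s * (s - 1)) z).mul (hJ1 z hz))) (fun z hz => ?_) (by linarith)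
    have h1 : z ≠ 1 := by rintro rfl; simp at hz
    rw [Z1_eq h1, ← LSeries_one_eq_riemannZeta hz, hJ3 z hz]
    have := sub_ne_zero.mpr h1
    field_simp
    ring
  rw [this]
  refine (norm_add_le _ _).trans ?_
  rw [norm_mul, norm_mul]
  have := hJ2 s hs
  have h3 : ‖s‖ * ‖s - 1‖ * ‖J s‖ ≤ ‖s‖ * ‖s - 1‖ * (2 * 1) := by gcongr
  linarith

lemma LSeries_two_le {f : ℕ → ℂ} (hf : ∀ n, ‖f n‖ ≤ 1) {s : ℂ} (hs : s.re = 2) :
    ‖LSeries f s‖ ≤ 2 := by
  have h1 : ∀ n, ‖LSeries.term f s n‖ ≤ 1 / (n : ℝ) ^ 2 := by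
    intro n
    rw [LSeries.norm_term_eq]
    split_ifs with h
    · positivity
    · rw [hs, Real.rpow_two]
      gcongr
      exact hf n
  refine (tsum_of_norm_bounded hasSum_zeta_two h1).trans ?_
  have := Real.pi_lt_d2
  have := Real.pi_pos
  nlinarith

lemma L_lower {q : ℕ} [NeZero q] (χ : DirichletCharacter ℂ q) {s : ℂ} (hs : s.re = 2) :
    1 / 2 ≤ ‖χ.LFunction s‖ := by
  have h1 : 1 < s.re := by rw [hs]; norm_num
  have h2 := congrArg norm (DirichletCharacter.LSeries.mul_mu_eq_one χ h1)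
  rw [norm_mul, norm_one, ← DirichletCharacter.LFunction_eq_LSeries χ h1] at h2
  have h3 := LSeries_two_le (f := (fun n : ℕ => χ n) * fun n : ℕ => (ArithmeticFunction.moebius n : ℂ))
    (fun n => by
      rw [Pi.mul_apply, norm_mul]
      refine mul_le_one₀ (χ.norm_le_one _) (norm_nonneg _) ?_
      have := ArithmeticFunction.abs_moebius_le_one (n := n)
      rw [norm_intCast]
      exact_mod_cast this) hs
  have h4 := norm_nonneg (χ.LFunction s)
  nlinarith

/-- The abstract bound on the logarithmic derivative in the strip `σ₁ ≤ re s ≤ 2`. -/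
lemma strip_bound {σ₀ σ₁ : ℝ} (h0 : 1 / 2 ≤ σ₀) (h01 : σ₀ < σ₁) (h1 : σ₁ ≤ 2) {G : ℂ → ℂ}
    {q : ℝ} (hq : 1 ≤ q) (hG : Differentiable ℂ G) (hne : ∀ s : ℂ, σ₀ < s.re → G s ≠ 0)
    (hup : ∀ s : ℂ, 1 / 2 ≤ s.re → ‖G s‖ ≤ 2 * q * (‖s‖ + 1) ^ 2)
    (hlow : ∀ s : ℂ, s.re = 2 → 1 / 2 ≤ ‖G s‖) {s : ℂ} (hs1 : σ₁ ≤ s.re) (hs2 : s.re ≤ 2) :
    ‖deriv G s / G s‖ ≤ 96 / (σ₁ - σ₀) ^ 2 * Real.log (q * (|s.im| + 2)) := by
  set c : ℂ := 2 + s.im * I with hc
  set X : ℝ := q * (|s.im| + 2) with hX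
  have ht := abs_nonneg s.im
  have hX2 : |s.im| + 2 ≤ X := by rw [hX]; nlinarith
  have hL : 0 < Real.log X := Real.log_pos (by linarith)
  have hcre : c.re = 2 := by simp [hc]
  have hre : ∀ z ∈ ball c (2 - σ₀), σ₀ < z.re := by
    intro z hz
    rw [mem_ball, dist_eq_norm] at hz
    have := abs_re_le_norm (z - c)
    rw [sub_re, hcre] at this
    have := neg_abs_le (z.re - 2)
    linarith
  have := logDeriv_bound (f := G) (c := c) (R := 2 - σ₀) (r := 2 - σ₁) (M := 8 * Real.log X)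
    (by linarith) (by linarith) (by positivity) hG.differentiableOn
    (fun z hz => hne z (hre z hz)) (fun z hz => ?_) (z := s) ?_
  · refine this.trans ?_
    rw [show 2 - σ₀ - (2 - σ₁) = σ₁ - σ₀ by ring]
    have hp : 0 < (σ₁ - σ₀) ^ 2 := by have : 0 < σ₁ - σ₀ := by linarith
                                      positivity
    rw [div_mul_eq_mul_div, div_mul_eq_mul_div]
    gcongr ?_ / _
    nlinarith
  · have h2 := hup z (h0.trans (hre z hz).le)
    have h3 := hlow c hcre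
    rw [mem_ball, dist_eq_norm] at hz
    have h4 : ‖c‖ ≤ 2 + |s.im| := by
      refine (norm_add_le _ _).trans ?_
      simp
    have h5 : ‖z‖ ≤ ‖z - c‖ + ‖c‖ := norm_le_norm_sub_add _ _
    have h6 : ‖z‖ + 1 ≤ 4 * (|s.im| + 2) := by linarith
    have h7 : Real.exp (8 * Real.log X) = X ^ 8 := by
      rw [show (8 : ℝ) * Real.log X = Real.log (X ^ 8) by rw [Real.log_pow]; norm_num,
        Real.exp_log (by positivity)]
    rw [h7]
    have h8 : 2 * q * (‖z‖ + 1) ^ 2 ≤ 32 * X ^ 2 := by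
      calc 2 * q * (‖z‖ + 1) ^ 2 ≤ 2 * q * (4 * (|s.im| + 2)) ^ 2 := by gcongr
        _ = 32 * (q * (|s.im| + 2) ^ 2) := by ring
        _ ≤ 32 * (q ^ 2 * (|s.im| + 2) ^ 2) := by gcongr; nlinarith
        _ = 32 * X ^ 2 := by rw [hX]; ring
    have h9 : 64 ≤ X ^ 6 := by
      calc (64 : ℝ) = 2 ^ 6 := by norm_num
        _ ≤ X ^ 6 := by gcongr; linarith
    calc ‖G z‖ ≤ 32 * X ^ 2 := h2.trans h8
      _ ≤ X ^ 6 * X ^ 2 * (1 / 2) := by nlinarith [sq_nonneg X]
      _ = X ^ 8 * (1 / 2) := by ring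
      _ ≤ X ^ 8 * ‖G c‖ := by gcongr
  · have : s - c = ((s.re - 2 : ℝ) : ℂ) := by
      apply Complex.ext <;> simp [hc]
    rw [this, norm_real, Real.norm_eq_abs, abs_le]
    constructor <;> linarith

/-- Part A: from quasi-GRH, holomorphy and logarithmic growth of `-L'/L` (minus its pole)
on a strip `σ₁ ≤ re s ≤ 2` with `σ₁ < 1`. -/
theorem partA (h : QGRH) : ∃ σ₁ C : ℝ, 1 / 2 ≤ σ₁ ∧ σ₁ < 1 ∧ 0 < C ∧
    (∀ (q : ℕ) [NeZero q] (χ : DirichletCharacter ℂ q), χ ≠ 1 → ∃ E : ℂ → ℂ,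
      (∀ s : ℂ, σ₁ ≤ s.re → DifferentiableAt ℂ E s) ∧
      (∀ s : ℂ, σ₁ ≤ s.re → s.re ≤ 2 → ‖E s‖ ≤ C * Real.log (q * (|s.im| + 2))) ∧
      (∀ s : ℂ, 1 < s.re →
        LSeries (fun n => χ n * (ArithmeticFunction.vonMangoldt n : ℂ)) s = E s)) ∧
    (∃ E : ℂ → ℂ, (∀ s : ℂ, σ₁ ≤ s.re → DifferentiableAt ℂ E s) ∧
      (∀ s : ℂ, σ₁ ≤ s.re → s.re ≤ 2 → ‖E s‖ ≤ C * Real.log (1 * (|s.im| + 2))) ∧
      (∀ s : ℂ, 1 < s.re →
        LSeries (fun n => (ArithmeticFunction.vonMangoldt n : ℂ)) s = E s + 1 / (s - 1))) := by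
  obtain ⟨σ, hσ, hz⟩ := h
  set σ₀ := max σ (1 / 2) with hσ₀
  have h0 : 1 / 2 ≤ σ₀ := le_max_right _ _
  have h0' : σ ≤ σ₀ := le_max_left _ _
  have h1 : σ₀ < 1 := max_lt hσ (by norm_num)
  have hp : 0 < (σ₀ + 1) / 2 - σ₀ := by linarith
  refine ⟨(σ₀ + 1) / 2, 96 / ((σ₀ + 1) / 2 - σ₀) ^ 2, by linarith, by linarith, by positivity,
    fun q _ χ hχ => ?_, ?_⟩
  · have hG := DirichletCharacter.differentiable_LFunction hχ
    have hne : ∀ s : ℂ, σ₀ < s.re → χ.LFunction s ≠ 0 := by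
      intro s hs
      rcases eq_or_ne s 1 with rfl | h
      · exact DirichletCharacter.LFunction_apply_one_ne_zero hχ
      · exact hz q χ s (by linarith) h
    have hq : (1 : ℝ) ≤ q := by exact_mod_cast Nat.pos_of_ne_zero (NeZero.ne q)
    refine ⟨fun s => -(deriv χ.LFunction s / χ.LFunction s), fun s hs => ?_, fun s hs1 hs2 => ?_,
      fun s hs => ?_⟩
    · exact ((hG.deriv s).div (hG s) (hne s (by linarith))).neg
    · rw [norm_neg]
      refine strip_bound h0 (by linarith) (by linarith) hq hG hne (fun z hz => ?_)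
        (fun z hz => L_lower χ hz) hs1 hs2
      refine (L_upper hχ hz).trans ?_
      gcongr
      nlinarith [norm_nonneg z]
    · have := DirichletCharacter.LSeries_twist_vonMangoldt_eq χ hs
      rw [← DirichletCharacter.deriv_LFunction_eq_deriv_LSeries χ hs,
        ← DirichletCharacter.LFunction_eq_LSeries χ hs, neg_div] at this
      exact this
  · have hG : Differentiable ℂ Z1 := DirichletCharacter.differentiable_LFunctionTrivChar₁ 1
    have hne : ∀ s : ℂ, σ₀ < s.re → Z1 s ≠ 0 := by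
      intro s hs
      rcases eq_or_ne s 1 with rfl | h
      · exact DirichletCharacter.LFunctionTrivChar₁_apply_one_ne_zero 1
      · rw [Z1_eq h]
        have := hz 1 1 s (by linarith) h
        rw [DirichletCharacter.LFunction_modOne_eq] at this
        exact mul_ne_zero (sub_ne_zero.mpr h) this
    refine ⟨fun s => -(deriv Z1 s / Z1 s), fun s hs => ?_, fun s hs1 hs2 => ?_,
      fun s hs => ?_⟩
    · exact ((hG.deriv s).div (hG s) (hne s (by linarith))).neg
    · rw [norm_neg]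
      refine strip_bound h0 (by linarith) (by linarith) le_rfl hG hne (fun z hz => ?_)
        (fun z hz => ?_) hs1 hs2
      · refine (Z1_upper hz).trans ?_
        have h2 : ‖z - 1‖ ≤ ‖z‖ + 1 := by simpa using norm_sub_le z 1
        nlinarith [norm_nonneg z]
      · have h2 : z ≠ 1 := by rintro rfl; simp at hz
        have h3 := L_lower (1 : DirichletCharacter ℂ 1) hz
        rw [DirichletCharacter.LFunction_modOne_eq] at h3
        have h4 : 1 ≤ ‖z - 1‖ := by
          have := re_le_norm (z - 1)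
          rw [sub_re, hz, one_re] at this
          linarith
        rw [Z1_eq h2, norm_mul]
        nlinarith
    · have h2 : s ≠ 1 := by rintro rfl; simp at hs
      have h3 := ArithmeticFunction.LSeries_vonMangoldt_eq_deriv_riemannZeta_div hs
      have h4 := DirichletCharacter.deriv_LFunctionTrivChar₁_apply_of_ne_one 1 h2
      rw [DirichletCharacter.LFunctionTrivChar, DirichletCharacter.LFunction_modOne_eq] at h4
      have h5 := riemannZeta_ne_zero_of_one_lt_re hs
      have h6 := sub_ne_zero.mpr h2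
      rw [h3]
      simp only
      rw [h4, Z1_eq h2]
      field_simp
      ring

end Vale.Agent.Lib.PS
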