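import Vale.Agent.Lib.PrimeSumGRHA

/-!
# Prime sums under quasi-GRH, part B: Riesz means and the twisted Chebyshev function
-/

open Complex Finset Metric Filter Topology MeasureTheory Asymptotics

namespace Vale.Agent.Lib.PS

/-- The dominating weight `(1 + |t|)^(-3/2)`. -/
noncomputable def wt (t : ℝ) : ℝ := (1 + |t|) ^ (-(3 / 2) : ℝ)

lemma wt_pos (t : ℝ) : 0 < wt t := by unfold wt; positivity

lemma wt_int : Integrable wt := by
  have := integrable_one_add_norm (E := ℝ) (μ := volume) (r := 3 / 2) (by simp; norm_num)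
  simp only [Real.norm_eq_abs] at this
  exact this

lemma wt_neg (t : ℝ) : wt (-t) = wt t := by simp [wt]

lemma wt_tendsto : Tendsto wt atTop (𝓝 0) := by
  have h1 : Tendsto (fun t : ℝ => 1 + |t|) atTop atTop :=
    tendsto_atTop_add_const_left _ _ tendsto_abs_atTop_atTop
  exact (tendsto_rpow_neg_atTop (by norm_num : (0 : ℝ) < 3 / 2)).comp h1

lemma line_int {F : ℂ → ℂ} {a B : ℝ} (hd : ∀ s : ℂ, s.re = a → DifferentiableAt ℂ F s)
    (hb : ∀ s : ℂ, s.re = a → ‖F s‖ ≤ B * wt s.im) :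
    Integrable (fun t : ℝ => F (a + t * I)) := by
  refine (wt_int.const_mul B).mono' ?_ (Eventually.of_forall fun t => ?_)
  · refine Continuous.aestronglyMeasurable (continuous_iff_continuousAt.mpr fun t => ?_)
    exact ContinuousAt.comp (f := fun t : ℝ => (a + t * I : ℂ))
      (hd _ (by simp)).continuousAt (by fun_prop)
  · simpa using hb (a + t * I) (by simp)

lemma vertical_shift {F : ℂ → ℂ} {a b B : ℝ} (hab : a ≤ b)
    (hd : ∀ s : ℂ, a ≤ s.re → s.re ≤ b → DifferentiableAt ℂ F s)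
    (hb : ∀ s : ℂ, a ≤ s.re → s.re ≤ b → ‖F s‖ ≤ B * wt s.im) :
    ∫ t : ℝ, F (b + t * I) = ∫ t : ℝ, F (a + t * I) := by
  have ha' := line_int (F := F) (a := a) (B := B) (fun s hs => hd s hs.ge (hs.le.trans hab))
    (fun s hs => hb s hs.ge (hs.le.trans hab))
  have hb' := line_int (F := F) (a := b) (B := B) (fun s hs => hd s (hab.trans hs.ge) hs.le)
    (fun s hs => hb s (hab.trans hs.ge) hs.le)
  have h1 := intervalIntegral_tendsto_integral ha' tendsto_neg_atTop_atBot tendsto_id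
  have h2 := intervalIntegral_tendsto_integral hb' tendsto_neg_atTop_atBot tendsto_id
  have h3 := (h2.sub h1).norm
  have hH : ∀ T : ℝ, ‖∫ x in a..b, F (x + T * I)‖ ≤ B * wt T * |b - a| := by
    intro T
    refine intervalIntegral.norm_integral_le_of_norm_le_const fun x hx => ?_
    rw [Set.uIoc_of_le hab] at hx
    simpa using hb (x + T * I) (by simpa using hx.1.le) (by simpa using hx.2)
  have h4 : ∀ T : ℝ, ‖(∫ t in -T..id T, F (b + t * I)) - ∫ t in -T..id T, F (a + t * I)‖ ≤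
      2 * B * |b - a| * wt T := by
    intro T
    have h5 := integral_boundary_rect_eq_zero_of_differentiableOn F (a + (-T : ℝ) * I) (b + T * I)
      (fun s hs => by
        have h6 := hs.1
        simp only [add_re, ofReal_re, mul_re, I_re, mul_zero, ofReal_im, I_im, mul_one, sub_self,
          add_zero, Set.uIcc_of_le hab, Set.mem_preimage] at h6
        exact (hd s h6.1 h6.2).differentiableWithinAt)
    simp only [add_re, ofReal_re, mul_re, I_re, mul_zero, ofReal_im, I_im, mul_one, sub_self,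
      add_zero, add_im, mul_im, zero_add, smul_eq_mul] at h5
    have h6 : (∫ t in -T..id T, F (b + t * I)) - ∫ t in -T..id T, F (a + t * I) =
        I * ((∫ x in a..b, F (x + (-T : ℝ) * I)) - ∫ x in a..b, F (x + T * I)) := by
      simp only [id]
      linear_combination (-I) * h5 + ((∫ t in -T..T, F (b + t * I)) -
        ∫ t in -T..T, F (a + t * I)) * I_mul_I
    rw [h6, norm_mul, norm_I, one_mul]
    refine (norm_sub_le _ _).trans ?_
    have h7 := hH (-T)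
    rw [wt_neg] at h7
    have h8 := hH T
    linarith
  have h5 : Tendsto (fun T => 2 * B * |b - a| * wt T) atTop (𝓝 0) := by
    simpa using wt_tendsto.const_mul (2 * B * |b - a|)
  have h6 := le_of_tendsto_of_tendsto' h3 h5 h4
  exact sub_eq_zero.mp (norm_le_zero_iff.mp h6)

lemma ne_zero_of_half {s : ℂ} (hs : 1 / 2 ≤ s.re) : s ≠ 0 ∧ s + 1 ≠ 0 := by
  constructor
  · rintro rfl; simp at hs; linarith
  · intro h; have := congrArg re h; simp at this; linarith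

lemma inv_ss_le {s : ℂ} (hs : 1 / 2 ≤ s.re) :
    ‖1 / (s * (s + 1))‖ ≤ 9 * (1 + |s.im|) ^ (-2 : ℝ) := by
  have h1 : ∀ z : ℂ, 1 / 2 ≤ z.re → (1 + |z.im|) / 3 ≤ ‖z‖ := by
    intro z hz
    have := re_le_norm z
    have := abs_im_le_norm z
    linarith
  have h2 := h1 s hs
  have h3 := h1 (s + 1) (by simp; linarith)
  simp only [add_im, one_im, add_zero] at h3
  have hu : 0 < 1 + |s.im| := by positivity
  rw [norm_div, norm_one, norm_mul, Real.rpow_neg hu.le, Real.rpow_two]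
  calc 1 / (‖s‖ * ‖s + 1‖) ≤ 1 / ((1 + |s.im|) / 3 * ((1 + |s.im|) / 3)) := by gcongr
    _ = _ := by field_simp; norm_num

lemma half_mul_two (t : ℝ) : (1 + |t|) ^ (1 / 2 : ℝ) * (1 + |t|) ^ (-2 : ℝ) = wt t := by
  rw [← Real.rpow_add (by positivity), wt]; norm_num

lemma one_le_half (t : ℝ) : 1 ≤ (1 + |t|) ^ (1 / 2 : ℝ) :=
  Real.one_le_rpow (by simp) (by norm_num)

lemma inv_ss_le' {s : ℂ} (hs : 1 / 2 ≤ s.re) : ‖1 / (s * (s + 1))‖ ≤ 9 * wt s.im := by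
  refine (inv_ss_le hs).trans ?_
  rw [← half_mul_two]
  have := one_le_half s.im
  have : 0 < (1 + |s.im|) ^ (-2 : ℝ) := by positivity
  nlinarith

/-- Mellin inversion for three-term power functions cut off at `1`. -/
lemma inv3 (α β γ a : ℂ) (ha : -2 < a.re) (h1 : α + β + γ = 0) {G : ℂ → ℂ}
    (hG : ∀ s : ℂ, s.re = 2 → G s = α / (s + a) + β / s + γ / (s + 1))
    (hint : Integrable (fun t : ℝ => G ((2 : ℝ) + t * I))) {y : ℝ} (hy : 0 < y) :
    α * ((min y 1 : ℝ) : ℂ) ^ a + β + γ * ((min y 1 : ℝ) : ℂ) =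
      (1 / (2 * Real.pi) : ℝ) • ∫ t : ℝ, (y : ℂ) ^ (-(((2 : ℝ) : ℂ) + t * I)) *
        G ((2 : ℝ) + t * I) := by
  set f : ℝ → ℂ := fun y => α • Set.indicator (Set.Ioc 0 1) (fun t : ℝ => (t : ℂ) ^ a) y +
    β • Set.indicator (Set.Ioc 0 1) (fun _ : ℝ => (1 : ℂ)) y +
    γ • Set.indicator (Set.Ioc 0 1) (fun t : ℝ => (t : ℂ) ^ (1 : ℂ)) y with hf
  have hM : ∀ s : ℂ, s.re = 2 → HasMellin f s (G s) := by
    intro s hs
    have m1 := hasMellin_cpow_Ioc a (s := s) (by rw [hs]; linarith)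
    have m2 := hasMellin_one_Ioc (s := s) (by rw [hs]; norm_num)
    have m3 := hasMellin_cpow_Ioc 1 (s := s) (by rw [hs]; norm_num)
    have n1 := hasMellin_const_smul m1.1 α
    have n2 := hasMellin_const_smul m2.1 β
    have n3 := hasMellin_const_smul m3.1 γ
    have n12 := hasMellin_add n1.1 n2.1
    have n123 := hasMellin_add n12.1 n3.1
    rw [n12.2, n1.2, n2.2, n3.2, m1.2, m2.2, m3.2] at n123
    rw [hG s hs, show α / (s + a) + β / s + γ / (s + 1) =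
      α • (1 / (s + a)) + β • (1 / s) + γ • (1 / (s + 1)) by simp only [smul_eq_mul]; ring]
    exact n123
  have hfy : ∀ y : ℝ, 0 < y →
      f y = α * ((min y 1 : ℝ) : ℂ) ^ a + β + γ * ((min y 1 : ℝ) : ℂ) := by
    intro y hy
    by_cases h : y ≤ 1
    · have : y ∈ Set.Ioc (0 : ℝ) 1 := ⟨hy, h⟩
      simp only [hf, Set.indicator_of_mem this, min_eq_left h, smul_eq_mul, cpow_one, mul_one]
    · have : y ∉ Set.Ioc (0 : ℝ) 1 := fun h' => h h'.2
      simp only [hf, Set.indicator_of_notMem this, min_eq_right (le_of_not_ge h), smul_zero]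
      simp [h1]
  have hc : ContinuousAt f y := by
    have h2 : f =ᶠ[𝓝 y] fun y => α * ((min y 1 : ℝ) : ℂ) ^ a + β + γ * ((min y 1 : ℝ) : ℂ) := by
      filter_upwards [Ioi_mem_nhds hy] with z hz using hfy z hz
    refine ContinuousAt.congr ?_ h2.symm
    have h3 : ContinuousAt (fun y : ℝ => ((min y 1 : ℝ) : ℂ) ^ a) y :=
      ContinuousAt.comp (f := fun y : ℝ => min y 1) (g := fun u : ℝ => (u : ℂ) ^ a)
        (continuousAt_ofReal_cpow_const _ _ (Or.inr (lt_min hy one_pos).ne')) (by fun_prop)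
    fun_prop
  have hv : ∀ t : ℝ, mellin f ((2 : ℝ) + t * I) = G ((2 : ℝ) + t * I) := fun t =>
    (hM _ (by simp)).2
  have := mellinInv_mellin_eq 2 f hy (hM _ (by simp)).1
    (by simpa only [VerticalIntegrable, hv] using hint) hc
  rw [← hfy y hy, ← this, mellinInv]
  simp only [hv, smul_eq_mul]

lemma int_ss : Integrable (fun t : ℝ => 1 / ((((2 : ℝ) : ℂ) + t * I) * (((2 : ℝ) : ℂ) + t * I + 1))) :=
  line_int (F := fun s => 1 / (s * (s + 1))) (a := 2) (B := 9)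
    (fun s hs => by
      obtain ⟨h1, h2⟩ := ne_zero_of_half (s := s) (by rw [hs]; norm_num)
      exact (differentiableAt_const _).div (by fun_prop) (mul_ne_zero h1 h2))
    (fun s hs => inv_ss_le' (by rw [hs]; norm_num))

lemma ker_inv {y : ℝ} (hy : 0 < y) :
    1 - ((min y 1 : ℝ) : ℂ) = (1 / (2 * Real.pi) : ℝ) • ∫ t : ℝ,
      (y : ℂ) ^ (-(((2 : ℝ) : ℂ) + t * I)) *
        (1 / ((((2 : ℝ) : ℂ) + t * I) * (((2 : ℝ) : ℂ) + t * I + 1))) := by
  have := inv3 0 1 (-1) 0 (by simp) (by simp) (G := fun s => 1 / (s * (s + 1)))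
    (fun s hs => by
      obtain ⟨h1, h2⟩ := ne_zero_of_half (s := s) (by rw [hs]; norm_num)
      field_simp; ring) int_ss hy
  rw [← this]; ring

/-- Twice integrated `u ^ w`. -/
noncomputable def Pw (w : ℂ) (x : ℝ) : ℂ :=
  (x : ℂ) ^ (w + 2) / ((w + 1) * (w + 2)) - x / (w + 1) + 1 / (w + 2)

lemma w_ne {w : ℂ} (hw : w.re = 0) : w + 1 ≠ 0 ∧ w + 2 ≠ 0 := by
  constructor <;> intro h <;> have := congrArg re h <;> simp [hw] at this

lemma cpow_inv_neg {x : ℝ} (hx : 0 < x) (s : ℂ) : ((x⁻¹ : ℝ) : ℂ) ^ (-s) = (x : ℂ) ^ s := by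
  rw [ofReal_inv, inv_cpow _ _ (by rw [arg_ofReal_of_nonneg hx.le]; exact Real.pi_pos.ne),
    cpow_neg, inv_inv]

lemma pole_int {w : ℂ} (hw : w.re = 0) : Integrable (fun t : ℝ =>
    1 / (((2 : ℝ) : ℂ) + t * I - 1 - w) *
      (1 / ((((2 : ℝ) : ℂ) + t * I) * (((2 : ℝ) : ℂ) + t * I + 1)))) := by
  refine line_int (F := fun s => 1 / (s - 1 - w) * (1 / (s * (s + 1)))) (a := 2) (B := 9)
    (fun s hs => ?_) (fun s hs => ?_)
  · obtain ⟨h1, h2⟩ := ne_zero_of_half (s := s) (by rw [hs]; norm_num)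
    have h3 : s - 1 - w ≠ 0 := by
      intro h; have := congrArg re h; simp [hw, hs] at this; norm_num at this
    have h4 : DifferentiableAt ℂ (fun s : ℂ => 1 / (s - 1 - w)) s :=
      (differentiableAt_const _).div (by fun_prop) h3
    have h5 : DifferentiableAt ℂ (fun s : ℂ => 1 / (s * (s + 1))) s :=
      (differentiableAt_const _).div (by fun_prop) (mul_ne_zero h1 h2)
    exact h4.mul h5
  · have h1 := inv_ss_le' (s := s) (by rw [hs]; norm_num)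
    have h2 : ‖1 / (s - 1 - w)‖ ≤ 1 := by
      have := re_le_norm (s - 1 - w)
      simp only [sub_re, hs, hw, one_re] at this
      rw [norm_div, norm_one]
      exact div_le_one_of_le₀ (by linarith) (norm_nonneg _)
    rw [norm_mul]
    exact (mul_le_of_le_one_left (norm_nonneg _) h2).trans h1

lemma pole_inv {w : ℂ} (hw : w.re = 0) {x : ℝ} (hx : 1 ≤ x) :
    Pw w x = x * ((1 / (2 * Real.pi) : ℝ) • ∫ t : ℝ, (x : ℂ) ^ (((2 : ℝ) : ℂ) + t * I) *
      (1 / (((2 : ℝ) : ℂ) + t * I - 1 - w) *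
        (1 / ((((2 : ℝ) : ℂ) + t * I) * (((2 : ℝ) : ℂ) + t * I + 1))))) := by
  obtain ⟨w1, w2⟩ := w_ne hw
  have hx0 : 0 < x := by linarith
  have := inv3 (1 / ((w + 1) * (w + 2))) (-1 / (w + 1)) (1 / (w + 2)) (-(w + 1))
    (by simp [hw]) (by field_simp; ring)
    (G := fun s => 1 / (s - 1 - w) * (1 / (s * (s + 1))))
    (fun s hs => by
      obtain ⟨h1, h2⟩ := ne_zero_of_half (s := s) (by rw [hs]; norm_num)
      have h3 : s - 1 - w ≠ 0 := by
        intro h; have := congrArg re h; simp [hw, hs] at this; norm_num at this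
      rw [show s + -(w + 1) = s - 1 - w by ring]
      field_simp; ring) (pole_int hw) (inv_pos.mpr hx0)
  simp only [cpow_inv_neg hx0] at this
  rw [← this, min_eq_left (inv_le_one_of_one_le₀ hx), cpow_inv_neg hx0, Pw,
    show w + 2 = 1 + (w + 1) by ring, cpow_add _ _ (ofReal_ne_zero.mpr hx0.ne'), cpow_one]
  have : (x : ℂ) ≠ 0 := ofReal_ne_zero.mpr hx0.ne'
  rw [show 1 + (w + 1) = w + 2 by ring]
  push_cast
  field_simp
  ring

lemma norm_xpow {x : ℝ} (hx : 0 < x) (σ t : ℝ) : ‖(x : ℂ) ^ ((σ : ℂ) + t * I)‖ = x ^ σ := by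
  rw [norm_cpow_eq_rpow_re_of_pos hx]; simp

lemma cont_xpow {x : ℝ} (hx : 0 < x) (σ : ℝ) :
    Continuous fun t : ℝ => (x : ℂ) ^ ((σ : ℂ) + t * I) :=
  Continuous.const_cpow (by fun_prop) (Or.inl (ofReal_ne_zero.mpr hx.ne'))

lemma sum_inv {a : ℕ → ℂ} (hs : LSeriesSummable a 2) {x : ℝ} (hx : 0 < x) :
    ∑ n ∈ Icc 1 ⌊x⌋₊, a n * (x - n) = x * ((1 / (2 * Real.pi) : ℝ) • ∫ t : ℝ,
      (x : ℂ) ^ (((2 : ℝ) : ℂ) + t * I) * (LSeries a (((2 : ℝ) : ℂ) + t * I) *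
        (1 / ((((2 : ℝ) : ℂ) + t * I) * (((2 : ℝ) : ℂ) + t * I + 1))))) := by
  set K : ℝ → ℂ := fun t => (x : ℂ) ^ (((2 : ℝ) : ℂ) + t * I) *
    (1 / ((((2 : ℝ) : ℂ) + t * I) * (((2 : ℝ) : ℂ) + t * I + 1))) with hK
  have hKi : Integrable K := by
    refine Integrable.bdd_mul (c := x ^ (2 : ℝ)) int_ss (cont_xpow hx 2).aestronglyMeasurable ?_
    exact Eventually.of_forall fun t => (norm_xpow hx 2 t).le
  set F : ℕ → ℝ → ℂ := fun n t => LSeries.term a (((2 : ℝ) : ℂ) + t * I) n * K t with hF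
  have hn : ∀ n (t : ℝ), ‖LSeries.term a (((2 : ℝ) : ℂ) + t * I) n‖ = ‖LSeries.term a 2 n‖ := by
    intro n t
    rw [LSeries.norm_term_eq, LSeries.norm_term_eq]; simp
  have hFi : ∀ n, Integrable (F n) := by
    intro n
    refine Integrable.bdd_mul (c := ‖LSeries.term a 2 n‖) hKi ?_
      (Eventually.of_forall fun t => (hn n t).le)
    rcases eq_or_ne n 0 with rfl | h0
    · simp only [LSeries.term_zero]; exact aestronglyMeasurable_const
    · simp only [LSeries.term_of_ne_zero h0]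
      refine Continuous.aestronglyMeasurable (continuous_const.div ?_ fun t => ?_)
      · exact Continuous.const_cpow (by fun_prop) (Or.inl (Nat.cast_ne_zero.mpr h0))
      · exact cpow_ne_zero_iff.mpr (Or.inl (Nat.cast_ne_zero.mpr h0))
  have hsum : Summable fun n => ∫ t, ‖F n t‖ := by
    simp only [hF, norm_mul, hn, integral_const_mul]
    exact hs.norm.mul_right _
  have h1 := hasSum_integral_of_summable_integral_norm hFi hsum
  have h2 : ∀ t : ℝ, ∑' n, F n t = (x : ℂ) ^ (((2 : ℝ) : ℂ) + t * I) *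
      (LSeries a (((2 : ℝ) : ℂ) + t * I) *
        (1 / ((((2 : ℝ) : ℂ) + t * I) * (((2 : ℝ) : ℂ) + t * I + 1)))) := by
    intro t
    simp only [hF, tsum_mul_right, hK, LSeries]; ring
  simp only [h2] at h1
  have h3 := (h1.const_smul (1 / (2 * Real.pi) : ℝ)).mul_left (x : ℂ)
  have hx' : (x : ℂ) ≠ 0 := ofReal_ne_zero.mpr hx.ne'
  have h4 : ∀ n : ℕ, n ≠ 0 → (x : ℂ) * ((1 / (2 * Real.pi) : ℝ) • ∫ t, F n t) =
      a n * (x - ((min (n : ℝ) x : ℝ) : ℂ)) := by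
    intro n h0
    have hn0 : (0 : ℝ) < n := by exact_mod_cast Nat.pos_of_ne_zero h0
    have h5 := ker_inv (y := n * x⁻¹) (by positivity)
    have h6 : ∀ t : ℝ, F n t = a n * ((((n : ℝ) * x⁻¹ : ℝ) : ℂ) ^ (-(((2 : ℝ) : ℂ) + t * I)) *
        (1 / ((((2 : ℝ) : ℂ) + t * I) * (((2 : ℝ) : ℂ) + t * I + 1)))) := by
      intro t
      rw [ofReal_mul, mul_cpow_ofReal_nonneg hn0.le (by positivity), cpow_inv_neg hx]
      simp only [hF, hK, LSeries.term_of_ne_zero h0, cpow_neg, ofReal_natCast]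
      ring
    simp only [h6, integral_const_mul]
    rw [← mul_smul_comm, ← h5]
    have h7 : (min ((n : ℝ) * x⁻¹) 1) = min (n : ℝ) x * x⁻¹ := by
      rw [min_mul_of_nonneg _ _ (by positivity), mul_inv_cancel₀ hx.ne']
    rw [h7]
    push_cast
    field_simp
  have h5 : HasSum (fun n => (x : ℂ) * ((1 / (2 * Real.pi) : ℝ) • ∫ t, F n t))
      (∑ n ∈ Icc 1 ⌊x⌋₊, (x : ℂ) * ((1 / (2 * Real.pi) : ℝ) • ∫ t, F n t)) := by
    refine hasSum_sum_of_ne_finset_zero fun n hn => ?_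
    rcases eq_or_ne n 0 with rfl | h0
    · simp [hF]
    · rw [h4 n h0]
      have : x ≤ n := by
        rw [mem_Icc, not_and, not_le] at hn
        exact (Nat.floor_lt hx.le).mp (hn (Nat.pos_of_ne_zero h0)) |>.le
      rw [min_eq_right this]; simp
  rw [← h5.unique h3]
  refine sum_congr rfl fun n hn => ?_
  rw [mem_Icc] at hn
  rw [h4 n (by omega), min_eq_left ((Nat.le_floor_iff hx.le).mp hn.2)]
  simp

/-- The absolute constant of the Riesz mean estimate. -/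
noncomputable def C0 : ℝ := 9 * ∫ t, wt t

lemma C0_nonneg : 0 ≤ C0 := by
  unfold C0
  have := integral_nonneg (μ := volume) (f := wt) fun t => (wt_pos t).le
  positivity

theorem riesz {a : ℕ → ℂ} {E : ℂ → ℂ} {κ w : ℂ} (hw : w.re = 0) {σ B : ℝ} (h1 : 1 / 2 ≤ σ)
    (h2 : σ ≤ 2) (hE : ∀ s : ℂ, σ ≤ s.re → DifferentiableAt ℂ E s) (hsum : LSeriesSummable a 2)
    (heq : ∀ s : ℂ, s.re = 2 → LSeries a s = E s + κ * (1 / (s - 1 - w)))
    (hB : ∀ s : ℂ, σ ≤ s.re → s.re ≤ 2 → ‖E s‖ ≤ B * (1 + |s.im|) ^ (1 / 2 : ℝ))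
    {x : ℝ} (hx : 1 ≤ x) :
    ‖∑ n ∈ Icc 1 ⌊x⌋₊, a n * (x - n) - κ * Pw w x‖ ≤ C0 * B * x ^ (1 + σ) := by
  have hx0 : 0 < x := by linarith
  have hx' : (x : ℂ) ≠ 0 := ofReal_ne_zero.mpr hx0.ne'
  have hB0 : 0 ≤ B := by
    have := (norm_nonneg _).trans (hB 2 (by simpa using h2) (by simp))
    simpa using this
  set F : ℂ → ℂ := fun s => (x : ℂ) ^ s * (E s * (1 / (s * (s + 1)))) with hF
  have hFd : ∀ s : ℂ, σ ≤ s.re → DifferentiableAt ℂ F s := by
    intro s hs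
    obtain ⟨h3, h4⟩ := ne_zero_of_half (h1.trans hs)
    exact (differentiableAt_id.const_cpow (Or.inl hx')).mul ((hE s hs).mul
      ((differentiableAt_const _).div (by fun_prop) (mul_ne_zero h3 h4)))
  have hFb : ∀ s : ℂ, σ ≤ s.re → s.re ≤ 2 → ‖F s‖ ≤ x ^ s.re * (9 * B) * wt s.im := by
    intro s hs hs'
    simp only [hF]
    rw [norm_mul, norm_mul, norm_cpow_eq_rpow_re_of_pos hx0, ← half_mul_two]
    calc x ^ s.re * (‖E s‖ * ‖1 / (s * (s + 1))‖)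
        ≤ x ^ s.re * (B * (1 + |s.im|) ^ (1 / 2 : ℝ) * (9 * (1 + |s.im|) ^ (-2 : ℝ))) := by
          gcongr
          · exact hB s hs hs'
          · exact inv_ss_le (h1.trans hs)
      _ = _ := by ring
  have hFb' : ∀ s : ℂ, σ ≤ s.re → s.re ≤ 2 → ‖F s‖ ≤ x ^ (2 : ℝ) * (9 * B) * wt s.im := by
    intro s hs hs'
    refine (hFb s hs hs').trans ?_
    have := (wt_pos s.im).le
    gcongr
  have hsh := vertical_shift h2 (fun s hs _ => hFd s hs) hFb'
  have hFi : Integrable fun t : ℝ => F ((2 : ℝ) + t * I) :=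
    line_int (fun s hs => hFd s (by rw [hs]; exact h2))
      (fun s hs => hFb' s (by rw [hs]; exact h2) hs.le)
  have hPi : Integrable fun t : ℝ => (x : ℂ) ^ (((2 : ℝ) : ℂ) + t * I) *
      (1 / (((2 : ℝ) : ℂ) + t * I - 1 - w) *
        (1 / ((((2 : ℝ) : ℂ) + t * I) * (((2 : ℝ) : ℂ) + t * I + 1)))) := by
    refine Integrable.bdd_mul (c := x ^ (2 : ℝ)) (pole_int hw)
      (cont_xpow hx0 2).aestronglyMeasurable ?_
    exact Eventually.of_forall fun t => (norm_xpow hx0 2 t).le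
  have h3 : ∀ t : ℝ, (x : ℂ) ^ (((2 : ℝ) : ℂ) + t * I) * (LSeries a (((2 : ℝ) : ℂ) + t * I) *
        (1 / ((((2 : ℝ) : ℂ) + t * I) * (((2 : ℝ) : ℂ) + t * I + 1)))) =
      F ((2 : ℝ) + t * I) + κ * ((x : ℂ) ^ (((2 : ℝ) : ℂ) + t * I) *
      (1 / (((2 : ℝ) : ℂ) + t * I - 1 - w) *
        (1 / ((((2 : ℝ) : ℂ) + t * I) * (((2 : ℝ) : ℂ) + t * I + 1))))) := by
    intro t
    rw [heq _ (by simp)]
    simp only [hF]; ring
  have h4 : ∑ n ∈ Icc 1 ⌊x⌋₊, a n * (x - n) - κ * Pw w x =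
      x * ((1 / (2 * Real.pi) : ℝ) • ∫ t : ℝ, F (σ + t * I)) := by
    rw [sum_inv hsum hx0, pole_inv hw hx]
    simp only [h3]
    rw [integral_add hFi (hPi.const_mul κ), integral_const_mul, hsh]
    simp only [real_smul]
    ring
  have h5 : ‖∫ t : ℝ, F (σ + t * I)‖ ≤ ∫ t, x ^ σ * (9 * B) * wt t := by
    refine norm_integral_le_of_norm_le (wt_int.const_mul _) (Eventually.of_forall fun t => ?_)
    simpa using hFb (σ + t * I) (by simp) (by simpa using h2)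
  rw [integral_const_mul] at h5
  have h6 : ‖(1 / (2 * Real.pi) : ℝ)‖ ≤ 1 := by
    rw [Real.norm_of_nonneg (by positivity)]
    exact div_le_one_of_le₀ (by linarith [Real.pi_gt_three]) (by positivity)
  rw [h4, norm_mul, norm_smul, norm_real, Real.norm_of_nonneg hx0.le, Real.rpow_add hx0,
    Real.rpow_one]
  calc x * (‖(1 / (2 * Real.pi) : ℝ)‖ * ‖∫ t : ℝ, F (σ + t * I)‖)
      ≤ x * (1 * (x ^ σ * (9 * B) * ∫ t, wt t)) := by gcongr
    _ = _ := by unfold C0; ring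

/-- Integrated `u ^ w`. -/
noncomputable def Qw (w : ℂ) (x : ℝ) : ℂ := ((x : ℂ) ^ (w + 1) - 1) / (w + 1)

lemma Qw_deriv {w : ℂ} (hw : w.re = 0) {x : ℝ} (hx : 0 < x) :
    HasDerivAt (Qw w) ((x : ℂ) ^ w) x := by
  obtain ⟨w1, -⟩ := w_ne hw
  have := (hasDerivAt_ofReal_cpow_const' hx.ne' (r := w)
    (fun h => w1 (by rw [h]; ring))).sub_const (1 / (w + 1))
  have h : Qw w = fun y : ℝ => (y : ℂ) ^ (w + 1) / (w + 1) - 1 / (w + 1) := by
    ext y; unfold Qw; ring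
  rw [h]; exact this

lemma Pw_deriv {w : ℂ} (hw : w.re = 0) {x : ℝ} (hx : 0 < x) :
    HasDerivAt (Pw w) (Qw w x) x := by
  obtain ⟨w1, w2⟩ := w_ne hw
  have h1 := (hasDerivAt_ofReal_cpow_const' hx.ne' (r := w + 1)
    (fun h => w2 (by linear_combination h))).div_const (w + 1)
  have h2 : HasDerivAt (fun y : ℝ => (y : ℂ) / (w + 1)) (1 / (w + 1)) x := by
    simpa using (hasDerivAt_id x).ofReal_comp.div_const (w + 1)
  have := (h1.sub h2).add_const (1 / (w + 2))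
  have h : Pw w = fun y : ℝ => (y : ℂ) ^ (w + 1 + 1) / (w + 1 + 1) / (w + 1) - y / (w + 1) +
      1 / (w + 2) := by
    ext y; unfold Pw
    rw [show w + 1 + 1 = w + 2 by ring]; field_simp
  have h' : Qw w x = (x : ℂ) ^ (w + 1) / (w + 1) - 1 / (w + 1) := by unfold Qw; ring
  rw [h, h']; exact this

lemma Pw_diff {w : ℂ} (hw : w.re = 0) {x Δ : ℝ} (hx : 0 < x) (hΔ : 0 ≤ Δ) :
    ‖Pw w (x + Δ) - Pw w x - Δ * Qw w x‖ ≤ Δ ^ 2 := by
  have h1 : ∀ u ∈ Set.Icc x (x + Δ), ‖Qw w u - Qw w x‖ ≤ 1 * (u - x) :=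
    norm_image_sub_le_of_norm_deriv_le_segment' (f' := fun u : ℝ => (u : ℂ) ^ w)
      (fun u hu => (Qw_deriv hw (hx.trans_le hu.1)).hasDerivWithinAt)
      (fun u hu => by rw [norm_cpow_eq_rpow_re_of_pos (hx.trans_le hu.1), hw, Real.rpow_zero])
  have h2 := norm_image_sub_le_of_norm_deriv_le_segment'
    (f := fun u : ℝ => Pw w u - u * Qw w x) (f' := fun u : ℝ => Qw w u - Qw w x) (C := Δ)
    (a := x) (b := x + Δ)
    (fun u hu => by
      have h3 : HasDerivAt (fun u : ℝ => (u : ℂ) * Qw w x) (Qw w x) u := by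
        simpa using (hasDerivAt_id u).ofReal_comp.mul_const (Qw w x)
      exact ((Pw_deriv hw (hx.trans_le hu.1)).sub h3).hasDerivWithinAt)
    (fun u hu => (h1 u (Set.Ico_subset_Icc_self hu)).trans (by linarith [hu.2]))
    (x + Δ) ⟨by linarith, le_rfl⟩
  convert h2 using 1
  · congr 1; push_cast; ring
  · ring

theorem differencing {a : ℕ → ℂ} {κ w : ℂ} (hw : w.re = 0) (hκ : ‖κ‖ ≤ 1) {σ D : ℝ}
    (h0 : 0 ≤ σ) (h1 : σ ≤ 1) (ha : ∀ n : ℕ, ‖a n‖ ≤ Real.log n)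
    (hR : ∀ x : ℝ, 1 ≤ x →
      ‖∑ n ∈ Icc 1 ⌊x⌋₊, a n * (x - n) - κ * Pw w x‖ ≤ D * x ^ (1 + σ))
    {x : ℝ} (hx : 1 ≤ x) :
    ‖∑ n ∈ Icc 1 ⌊x⌋₊, a n - κ * Qw w x‖ ≤
      (5 * D + 2 * Real.log (2 * x) + 1) * x ^ ((1 + σ) / 2) := by
  have hx0 : 0 < x := by linarith
  set Δ := x ^ ((1 + σ) / 2) with hΔ
  have hΔ1 : 1 ≤ Δ := Real.one_le_rpow hx (by linarith)
  have hΔx : Δ ≤ x := by
    have := Real.rpow_le_rpow_of_exponent_le hx (show (1 + σ) / 2 ≤ 1 by linarith)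
    rwa [Real.rpow_one] at this
  have hΔ2 : Δ ^ 2 = x ^ (1 + σ) := by
    rw [hΔ, ← Real.rpow_two, ← Real.rpow_mul hx0.le]; congr 1; ring
  have hD : 0 ≤ D := by
    have := (norm_nonneg _).trans (hR 1 le_rfl)
    simpa using this
  have e1 := hR x hx
  have e2 := hR (x + Δ) (by linarith)
  have e2' : D * (x + Δ) ^ (1 + σ) ≤ 4 * D * Δ ^ 2 := by
    have h2 : (x + Δ) ^ (1 + σ) ≤ (2 * x) ^ (1 + σ) := by gcongr; linarith
    have h3 : (2 : ℝ) ^ (1 + σ) ≤ 2 ^ (2 : ℝ) := by gcongr <;> linarith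
    rw [Real.mul_rpow (by norm_num) hx0.le, ← hΔ2] at h2
    rw [Real.rpow_two] at h3
    calc D * (x + Δ) ^ (1 + σ) ≤ D * (2 ^ (1 + σ) * Δ ^ 2) := by gcongr
      _ ≤ D * (2 ^ 2 * Δ ^ 2) := by gcongr
      _ = _ := by ring
  have e3 := Pw_diff hw hx0 (Δ := Δ) (by linarith)
  have hle : ⌊x⌋₊ ≤ ⌊x + Δ⌋₊ := Nat.floor_mono (by linarith)
  have hL : 0 ≤ Real.log (2 * x) := Real.log_nonneg (by linarith)
  have e4 : ‖∑ n ∈ Ioc ⌊x⌋₊ ⌊x + Δ⌋₊, a n * (((x + Δ : ℝ) : ℂ) - n)‖ ≤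
      2 * Real.log (2 * x) * Δ ^ 2 := by
    refine (norm_sum_le _ _).trans ((sum_le_card_nsmul _ _ (Real.log (2 * x) * Δ)
      fun n hn => ?_).trans ?_)
    · rw [mem_Ioc] at hn
      have h2 : x < n := (Nat.floor_lt hx0.le).mp hn.1
      have h3 : (n : ℝ) ≤ x + Δ := (Nat.le_floor_iff (by linarith)).mp hn.2
      rw [norm_mul, show ((x + Δ : ℝ) : ℂ) - n = ((x + Δ - n : ℝ) : ℂ) by push_cast; ring,
        norm_real, Real.norm_of_nonneg (by linarith)]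
      refine mul_le_mul ((ha n).trans (Real.log_le_log (by linarith) (by linarith)))
        (by linarith) (by linarith) hL
    · rw [Nat.card_Ioc, nsmul_eq_mul, Nat.cast_sub hle]
      have h2 := Nat.floor_le (show 0 ≤ x + Δ by linarith)
      have h3 := Nat.lt_floor_add_one x
      calc ((⌊x + Δ⌋₊ : ℝ) - ⌊x⌋₊) * (Real.log (2 * x) * Δ)
          ≤ (2 * Δ) * (Real.log (2 * x) * Δ) := by gcongr; linarith
        _ = _ := by ring
  have hI : ∀ N : ℕ, Icc 1 N = Ioc 0 N := fun N => rfl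
  have e5 : (Δ : ℂ) * (∑ n ∈ Icc 1 ⌊x⌋₊, a n - κ * Qw w x) =
      (∑ n ∈ Icc 1 ⌊x + Δ⌋₊, a n * (((x + Δ : ℝ) : ℂ) - n) - κ * Pw w (x + Δ)) -
      (∑ n ∈ Icc 1 ⌊x⌋₊, a n * (x - n) - κ * Pw w x) -
      ∑ n ∈ Ioc ⌊x⌋₊ ⌊x + Δ⌋₊, a n * (((x + Δ : ℝ) : ℂ) - n) +
      κ * (Pw w (x + Δ) - Pw w x - Δ * Qw w x) := by
    rw [hI, hI, ← sum_Ioc_consecutive _ (Nat.zero_le _) hle]
    have : ∑ n ∈ Ioc 0 ⌊x⌋₊, a n * (((x + Δ : ℝ) : ℂ) - n) =
        ∑ n ∈ Ioc 0 ⌊x⌋₊, a n * (x - n) + Δ * ∑ n ∈ Ioc 0 ⌊x⌋₊, a n := by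
      rw [mul_sum, ← sum_add_distrib]
      refine sum_congr rfl fun n _ => ?_
      push_cast; ring
    rw [this]; ring
  have e6 := congrArg norm e5
  rw [norm_mul, norm_real, Real.norm_of_nonneg (by linarith)] at e6
  have e7 : ‖κ * (Pw w (x + Δ) - Pw w x - Δ * Qw w x)‖ ≤ Δ ^ 2 := by
    rw [norm_mul]
    exact (mul_le_of_le_one_left (norm_nonneg _) hκ).trans e3
  rw [← hΔ2] at e1
  have e8 : Δ * ‖∑ n ∈ Icc 1 ⌊x⌋₊, a n - κ * Qw w x‖ ≤
      Δ * ((5 * D + 2 * Real.log (2 * x) + 1) * Δ) := by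
    rw [e6]
    refine (norm_add_le _ _).trans ?_
    have := norm_sub_le ((∑ n ∈ Icc 1 ⌊x + Δ⌋₊, a n * (((x + Δ : ℝ) : ℂ) - n) - κ * Pw w (x + Δ)) -
      (∑ n ∈ Icc 1 ⌊x⌋₊, a n * (x - n) - κ * Pw w x))
      (∑ n ∈ Ioc ⌊x⌋₊ ⌊x + Δ⌋₊, a n * (((x + Δ : ℝ) : ℂ) - n))
    have := norm_sub_le (∑ n ∈ Icc 1 ⌊x + Δ⌋₊, a n * (((x + Δ : ℝ) : ℂ) - n) - κ * Pw w (x + Δ))
      (∑ n ∈ Icc 1 ⌊x⌋₊, a n * (x - n) - κ * Pw w x)
    nlinarith
  exact le_of_mul_le_mul_left e8 (by linarith)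

end Vale.Agent.Lib.PS
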