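import Vale.Agent.Lib.PrimeSumGRHB

/-!
# Prime sums under quasi-GRH, part C: twisted Chebyshev sums and sums over primes
-/

open Complex Finset Filter Topology
open ArithmeticFunction (vonMangoldt)

namespace Vale.Agent.Lib.PS

lemma half_le_log_two : (1 / 2 : ℝ) ≤ Real.log 2 := by
  have := Real.log_two_gt_d9; linarith

lemma twist_gen {b : ℕ → ℂ} {E : ℂ → ℂ} {κ : ℂ} {σ C q : ℝ} (hκ : ‖κ‖ ≤ 1) (h1 : 1 / 2 ≤ σ)
    (h2 : σ ≤ 1) (hC : 0 < C) (hq : 1 ≤ q) (hb : ∀ n : ℕ, ‖b n‖ ≤ Real.log n)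
    (hs : ∀ s : ℂ, 1 < s.re → LSeriesSummable b s)
    (hE : ∀ s : ℂ, σ ≤ s.re → DifferentiableAt ℂ E s)
    (hbd : ∀ s : ℂ, σ ≤ s.re → s.re ≤ 2 → ‖E s‖ ≤ C * Real.log (q * (|s.im| + 2)))
    (heq : ∀ s : ℂ, 1 < s.re → LSeries b s = E s + κ * (1 / (s - 1))) (t : ℝ) {x : ℝ}
    (hx : 1 ≤ x) :
    ‖∑ n ∈ Icc 1 ⌊x⌋₊, b n * (n : ℂ) ^ (t * I) - κ * Qw (t * I) x‖ ≤
      (25 * C0 * C + 4) * x ^ ((1 + σ) / 2) * Real.log (q * (|t| + 2) * x) := by
  set w : ℂ := t * I with hw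
  have hwre : w.re = 0 := by simp [hw]
  have hwim : w.im = t := by simp [hw]
  set L0 := Real.log (q * (|t| + 2)) with hL0
  have ht := abs_nonneg t
  have hX : 2 ≤ q * (|t| + 2) := by nlinarith
  have hL0' : 1 / 2 ≤ L0 := half_le_log_two.trans (Real.log_le_log (by norm_num) hX)
  have hterm : ∀ (s : ℂ) (n : ℕ), LSeries.term (fun n : ℕ => b n * (n : ℂ) ^ w) s n =
      LSeries.term b (s - w) n := by
    intro s n
    rcases eq_or_ne n 0 with rfl | h0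
    · simp
    · have hn : (n : ℂ) ≠ 0 := Nat.cast_ne_zero.mpr h0
      rw [LSeries.term_of_ne_zero h0, LSeries.term_of_ne_zero h0, cpow_sub _ _ hn]
      have : (n : ℂ) ^ w ≠ 0 := cpow_ne_zero_iff.mpr (Or.inl hn)
      have : (n : ℂ) ^ s ≠ 0 := cpow_ne_zero_iff.mpr (Or.inl hn)
      field_simp
  have ha : ∀ n : ℕ, ‖b n * (n : ℂ) ^ w‖ ≤ Real.log n := by
    intro n
    rcases eq_or_ne n 0 with rfl | h0
    · have := hb 0
      simp only [Nat.cast_zero, Real.log_zero, norm_le_zero_iff] at this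
      simp [this]
    · rw [norm_mul, norm_natCast_cpow_of_pos (Nat.pos_of_ne_zero h0), hwre, Real.rpow_zero,
        mul_one]
      exact hb n
  have hR := fun (y : ℝ) (hy : 1 ≤ y) => riesz (a := fun n : ℕ => b n * (n : ℂ) ^ w)
    (E := fun s => E (s - w)) (κ := κ) hwre (σ := σ) (B := 5 * C * L0) h1 (by linarith)
    (fun s hs' => (hE (s - w) (by simpa [hwre] using hs')).comp s (by fun_prop))
    (by
      have := hs (2 - w) (by simp [hwre])
      exact this.congr fun n => (hterm 2 n).symm)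
    (fun s hs' => by
      rw [show s - 1 - w = s - w - 1 by ring, ← heq (s - w) (by simp [hwre, hs'])]
      simp only [LSeries, hterm])
    (fun s hs1 hs2 => by
      refine (hbd (s - w) (by simpa [hwre] using hs1) (by simpa [hwre] using hs2)).trans ?_
      rw [sub_im, hwim]
      have hu := abs_nonneg s.im
      have h3 : |s.im - t| ≤ |s.im| + |t| := abs_sub _ _
      have h4 : Real.log (q * (|s.im - t| + 2)) ≤ L0 + Real.log (1 + |s.im|) := by
        rw [hL0, ← Real.log_mul (by positivity) (by positivity)]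
        refine Real.log_le_log (by positivity) ?_
        rw [mul_assoc]
        gcongr
        nlinarith
      have h5 : Real.log (1 + |s.im|) ≤ (1 + |s.im|) ^ (1 / 2 : ℝ) / (1 / 2) :=
        Real.log_le_rpow_div (by positivity) (by norm_num)
      have h6 := one_le_half s.im
      calc C * Real.log (q * (|s.im - t| + 2))
          ≤ C * (5 * L0 * (1 + |s.im|) ^ (1 / 2 : ℝ)) := by
            gcongr
            nlinarith
        _ = _ := by ring) hy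
  have := differencing hwre hκ (by linarith) h2 ha hR hx
  refine this.trans ?_
  have h3 : L0 ≤ Real.log (q * (|t| + 2) * x) :=
    Real.log_le_log (by positivity) (by nlinarith)
  have h4 : Real.log (2 * x) ≤ Real.log (q * (|t| + 2) * x) :=
    Real.log_le_log (by positivity) (by gcongr)
  have h5 := C0_nonneg
  have h6 : C0 * C * L0 ≤ C0 * C * Real.log (q * (|t| + 2) * x) := by gcongr
  rw [mul_right_comm (25 * C0 * C + 4)]
  gcongr
  nlinarith

/-- Twisted Chebyshev sums with power saving. -/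
theorem psi_twist (h : QGRH) : ∃ θ C : ℝ, 3 / 4 ≤ θ ∧ θ < 1 ∧ 0 < C ∧
    (∀ (q : ℕ) [NeZero q] (χ : DirichletCharacter ℂ q), χ ≠ 1 → ∀ t x : ℝ, 1 ≤ x →
      ‖∑ n ∈ Icc 1 ⌊x⌋₊, χ n * (vonMangoldt n : ℂ) * (n : ℂ) ^ (t * I)‖ ≤
        C * x ^ θ * Real.log (q * (|t| + 2) * x)) ∧
    (∀ t x : ℝ, 1 ≤ x →
      ‖∑ n ∈ Icc 1 ⌊x⌋₊, (vonMangoldt n : ℂ) * (n : ℂ) ^ (t * I) -
          ((x : ℂ) ^ (t * I + 1) - 1) / (t * I + 1)‖ ≤
        C * x ^ θ * Real.log ((|t| + 2) * x)) := by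
  obtain ⟨σ, C, h1, h2, hC, hχ, E, hE1, hE2, hE3⟩ := partA h
  have h5 := C0_nonneg
  have hΛ : ∀ n : ℕ, ‖(vonMangoldt n : ℂ)‖ ≤ Real.log n := fun n => by
    rw [norm_real, Real.norm_of_nonneg ArithmeticFunction.vonMangoldt_nonneg]
    exact ArithmeticFunction.vonMangoldt_le_log
  refine ⟨(1 + σ) / 2, 25 * C0 * C + 4, by linarith, by linarith, by positivity,
    fun q _ χ hne t x hx => ?_, fun t x hx => ?_⟩
  · obtain ⟨E, hE1, hE2, hE3⟩ := hχ q χ hne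
    have hq : (1 : ℝ) ≤ q := by exact_mod_cast Nat.pos_of_ne_zero (NeZero.ne q)
    have := twist_gen (b := fun n => χ n * (vonMangoldt n : ℂ)) (κ := 0) (by simp) h1 h2.le hC hq
      (fun n => by
        rw [norm_mul]
        exact (mul_le_of_le_one_left (norm_nonneg _) (χ.norm_le_one _)).trans (hΛ n))
      (fun s hs => DirichletCharacter.LSeriesSummable_twist_vonMangoldt χ hs) hE1 hE2
      (fun s hs => by simpa using hE3 s hs) t hx
    simpa using this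
  · have := twist_gen (b := fun n => (vonMangoldt n : ℂ)) (κ := 1) (by simp) h1 h2.le hC le_rfl
      hΛ (fun s hs => ArithmeticFunction.LSeriesSummable_vonMangoldt hs) hE1 hE2
      (fun s hs => by simpa using hE3 s hs) t hx
    simpa [Qw] using this

/-- Abel summation against an antitone nonnegative weight. -/
lemma abel_antitone {b : ℕ → ℂ} {c : ℕ → ℝ} {M N : ℕ} {A : ℝ} (hMN : M ≤ N)
    (hc : ∀ n, M < n → c (n + 1) ≤ c n) (hc0 : 0 ≤ c (N + 1))
    (hA : ∀ k, M ≤ k → k ≤ N → ‖∑ n ∈ Ioc M k, b n‖ ≤ A) :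
    ‖∑ n ∈ Ioc M N, (c n : ℂ) * b n‖ ≤ c (M + 1) * A := by
  have key : ∀ k, M ≤ k → k ≤ N →
      ‖∑ n ∈ Ioc M k, (c n : ℂ) * b n - c (k + 1) * ∑ n ∈ Ioc M k, b n‖ ≤
        (c (M + 1) - c (k + 1)) * A := by
    intro k hk
    induction k, hk using Nat.le_induction with
    | base => intro _; simp
    | succ k hk ih =>
      intro hkN
      have h1 := ih (by omega)
      have h2 := hA (k + 1) (by omega) hkN
      have h3 := hc (k + 1) (by omega)
      have h4 : ∑ n ∈ Ioc M (k + 1), (c n : ℂ) * b n - c (k + 1 + 1) * ∑ n ∈ Ioc M (k + 1), b n =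
          (∑ n ∈ Ioc M k, (c n : ℂ) * b n - c (k + 1) * ∑ n ∈ Ioc M k, b n) +
          ((c (k + 1) - c (k + 1 + 1) : ℝ) : ℂ) * ∑ n ∈ Ioc M (k + 1), b n := by
        rw [sum_Ioc_succ_top hk, sum_Ioc_succ_top hk]; push_cast; ring
      rw [h4]
      refine (norm_add_le _ _).trans ?_
      rw [norm_mul, norm_real, Real.norm_of_nonneg (by linarith)]
      have h5 : (c (k + 1) - c (k + 1 + 1)) * ‖∑ n ∈ Ioc M (k + 1), b n‖ ≤
          (c (k + 1) - c (k + 1 + 1)) * A := by gcongr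
      linarith
  have h1 := key N hMN le_rfl
  have h2 := hA N hMN le_rfl
  have h3 := norm_le_norm_sub_add (∑ n ∈ Ioc M N, (c n : ℂ) * b n)
    (c (N + 1) * ∑ n ∈ Ioc M N, b n)
  rw [norm_mul, norm_real, Real.norm_of_nonneg hc0] at h3
  have h5 : c (N + 1) * ‖∑ n ∈ Ioc M N, b n‖ ≤ c (N + 1) * A := by gcongr
  linarith

lemma nonprime_le {c : ℕ → ℂ} (hc : ∀ n, ‖c n‖ ≤ 1) {M k : ℕ} (hk : 1 ≤ k) :
    ‖∑ n ∈ Ioc M k, c n * (vonMangoldt n : ℂ) -
      ∑ p ∈ (Ioc M k).filter Nat.Prime, c p * (Real.log p : ℂ)‖ ≤ 2 * √k * Real.log k := by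
  have h1 : ∑ n ∈ Ioc M k, c n * (vonMangoldt n : ℂ) -
      ∑ p ∈ (Ioc M k).filter Nat.Prime, c p * (Real.log p : ℂ) =
      ∑ n ∈ (Ioc M k).filter (fun n => ¬ n.Prime), c n * (vonMangoldt n : ℂ) := by
    rw [← sum_filter_add_sum_filter_not (Ioc M k) Nat.Prime]
    have : ∑ p ∈ (Ioc M k).filter Nat.Prime, c p * (vonMangoldt p : ℂ) =
        ∑ p ∈ (Ioc M k).filter Nat.Prime, c p * (Real.log p : ℂ) :=
      sum_congr rfl fun p hp => by
        rw [ArithmeticFunction.vonMangoldt_apply_prime (mem_filter.mp hp).2]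
    rw [this]; ring
  have h2 := Chebyshev.psi_sub_theta_le (x := k) (by exact_mod_cast hk)
  rw [Chebyshev.psi_sub_theta_eq_sum_not_prime, Nat.floor_natCast] at h2
  rw [h1]
  refine (norm_sum_le _ _).trans (le_trans ?_ h2)
  refine (sum_le_sum (g := fun n => vonMangoldt n) fun n _ => ?_).trans
    (sum_le_sum_of_subset_of_nonneg (filter_subset_filter _ (Ioc_subset_Ioc_left (Nat.zero_le _)))
      fun _ _ _ => ArithmeticFunction.vonMangoldt_nonneg)
  rw [norm_mul, norm_real, Real.norm_of_nonneg ArithmeticFunction.vonMangoldt_nonneg]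
  exact mul_le_of_le_one_left ArithmeticFunction.vonMangoldt_nonneg (hc n)

/-- From von Mangoldt sums to sums over primes. -/
lemma primes_gen {c : ℕ → ℂ} (hc : ∀ n, ‖c n‖ ≤ 1) {M N : ℕ} (hM : 2 ≤ M) (hMN : M ≤ N) {A : ℝ}
    (hA : ∀ k, M ≤ k → k ≤ N → ‖∑ n ∈ Ioc M k, c n * (vonMangoldt n : ℂ)‖ ≤ A) :
    ‖∑ p ∈ (Ioc M N).filter Nat.Prime, c p‖ ≤
      1 / Real.log (M + 1) * (A + 2 * √N * Real.log N) := by
  have hM' : (2 : ℝ) ≤ M := by exact_mod_cast hM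
  have := abel_antitone (b := fun n => if n.Prime then c n * (Real.log n : ℂ) else 0)
    (c := fun n => 1 / Real.log n) (A := A + 2 * √N * Real.log N) hMN
    (fun n hn => by
      have : (M : ℝ) < n := by exact_mod_cast hn
      have : 0 < Real.log n := Real.log_pos (by linarith)
      exact one_div_le_one_div_of_le this (Real.log_le_log (by linarith) (by simp)))
    (by have := Real.log_natCast_nonneg (N + 1); positivity)
    (fun k hk hkN => by
      rw [← sum_filter]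
      have h1 := nonprime_le hc (M := M) (k := k) (by omega)
      have h2 := hA k hk hkN
      have hk' : (2 : ℝ) ≤ k := by exact_mod_cast hM.trans hk
      have hkN' : (k : ℝ) ≤ N := by exact_mod_cast hkN
      have h3 : 2 * √k * Real.log k ≤ 2 * √N * Real.log N := by
        have := Real.log_natCast_nonneg k
        gcongr
      have h4 := norm_sub_le (∑ n ∈ Ioc M k, c n * (vonMangoldt n : ℂ))
        (∑ n ∈ Ioc M k, c n * (vonMangoldt n : ℂ) -
          ∑ p ∈ (Ioc M k).filter Nat.Prime, c p * (Real.log p : ℂ))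
      rw [sub_sub_cancel] at h4
      linarith)
  rw [sum_filter]
  convert this using 2
  · refine sum_congr rfl fun n hn => ?_
    split_ifs with hp
    · have : (Real.log n : ℂ) ≠ 0 :=
        ofReal_ne_zero.mpr (Real.log_pos (by exact_mod_cast hp.one_lt)).ne'
      push_cast [-natCast_log]
      field_simp
    · simp
  · simp

lemma window_aux {θ C q t P : ℝ} (hθ : 3 / 4 ≤ θ) (hθ1 : θ < 1) (hC : 0 < C) (hq : 1 ≤ q)
    (hP : 2 ≤ P) {y : ℝ} (hy1 : 1 ≤ y) (hy : y ≤ 2 * P) :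
    C * y ^ θ * Real.log (q * (|t| + 2) * y) ≤ 4 * C * P ^ θ * Real.log (q * (|t| + 2) * P) ∧
    2 * √y * Real.log y ≤ 4 * P ^ θ * Real.log (q * (|t| + 2) * P) ∧
    1 ≤ Real.log (q * (|t| + 2) * P) := by
  have ht := abs_nonneg t
  have hX : 2 ≤ q * (|t| + 2) := by nlinarith
  have h1 : y ^ θ ≤ 2 * P ^ θ := by
    calc y ^ θ ≤ (2 * P) ^ θ := by gcongr
      _ = 2 ^ θ * P ^ θ := Real.mul_rpow (by norm_num) (by linarith)
      _ ≤ 2 ^ (1 : ℝ) * P ^ θ := by gcongr; norm_num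
      _ = _ := by rw [Real.rpow_one]
  have h2 : Real.log (q * (|t| + 2) * y) ≤ 2 * Real.log (q * (|t| + 2) * P) := by
    rw [show (2 : ℝ) * Real.log (q * (|t| + 2) * P) = Real.log ((q * (|t| + 2) * P) ^ 2) by
      rw [Real.log_pow]; norm_num]
    refine Real.log_le_log (by positivity) ?_
    calc q * (|t| + 2) * y ≤ q * (|t| + 2) * (2 * P) := by gcongr
      _ = q * (|t| + 2) * P * 2 := by ring
      _ ≤ q * (|t| + 2) * P * (q * (|t| + 2) * P) := by gcongr; nlinarith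
      _ = _ := by ring
  have h3 : 0 ≤ Real.log (q * (|t| + 2) * y) := Real.log_nonneg (by nlinarith)
  have h4 : Real.log y ≤ Real.log (q * (|t| + 2) * P) :=
    Real.log_le_log (by linarith) (by nlinarith)
  have h5 : √y ≤ y ^ θ := by
    rw [Real.sqrt_eq_rpow]; gcongr; linarith
  have h6 : 0 ≤ Real.log y := Real.log_nonneg hy1
  refine ⟨?_, ?_, ?_⟩
  · calc C * y ^ θ * Real.log (q * (|t| + 2) * y)
        ≤ C * (2 * P ^ θ) * (2 * Real.log (q * (|t| + 2) * P)) := by gcongr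
      _ = _ := by ring
  · calc 2 * √y * Real.log y ≤ 2 * (2 * P ^ θ) * Real.log (q * (|t| + 2) * P) := by
          gcongr; exact h5.trans h1
      _ = _ := by ring
  · rw [Real.le_log_iff_exp_le (by positivity)]
    have := Real.exp_one_lt_d9
    nlinarith

lemma norm_cpow_tI (t : ℝ) (n : ℕ) : ‖(n : ℂ) ^ (t * I)‖ ≤ 1 := by
  rcases eq_or_ne n 0 with rfl | h0
  · rcases eq_or_ne ((t : ℂ) * I) 0 with h | h
    · rw [h]; simp
    · simp [zero_cpow h]
  · rw [norm_natCast_cpow_of_pos (Nat.pos_of_ne_zero h0)]; simp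

lemma Ioc_split (f : ℕ → ℂ) {M k : ℕ} (h : M ≤ k) :
    ∑ n ∈ Ioc M k, f n = ∑ n ∈ Icc 1 k, f n - ∑ n ∈ Icc 1 M, f n := by
  have hI : ∀ N : ℕ, Icc 1 N = Ioc 0 N := fun N => rfl
  rw [hI, hI, ← sum_Ioc_consecutive _ (Nat.zero_le M) h]; ring

/-- Sums over primes in a dyadic window, sharp form (one logarithm, and `1 / log P` on the main
term), with a common exponent and constant. -/
theorem ps_all (h : QGRH) : ∃ δ C : ℝ, 0 < δ ∧ δ ≤ 1 / 4 ∧ 0 < C ∧
    (∀ (q : ℕ) [NeZero q] (χ : DirichletCharacter ℂ q), χ ≠ 1 → ∀ t P P' : ℝ,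
      2 ≤ P → P ≤ P' → P' ≤ 2 * P →
      ‖∑ p ∈ (Ioc ⌊P⌋₊ ⌊P'⌋₊).filter Nat.Prime, χ p * (p : ℂ) ^ (t * I)‖ ≤
        C * P ^ (1 - δ) * Real.log (q * (|t| + 2) * P)) ∧
    (∀ t P P' : ℝ, 2 ≤ P → P ≤ P' → P' ≤ 2 * P →
      ‖∑ p ∈ (Ioc ⌊P⌋₊ ⌊P'⌋₊).filter Nat.Prime, (p : ℂ) ^ (t * I)‖ ≤
        C * P ^ (1 - δ) * Real.log ((|t| + 2) * P) + C * P / ((1 + |t|) * Real.log P)) := by
  obtain ⟨θ, C, hθ, hθ1, hC, h1, h2⟩ := psi_twist h
  have hgen : ∀ P P' : ℝ, 2 ≤ P → P ≤ P' → P' ≤ 2 * P → 2 ≤ ⌊P⌋₊ ∧ ⌊P⌋₊ ≤ ⌊P'⌋₊ ∧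
      (∀ k : ℕ, ⌊P⌋₊ ≤ k → k ≤ ⌊P'⌋₊ → (1 : ℝ) ≤ k ∧ (k : ℝ) ≤ 2 * P) ∧
      1 / Real.log (⌊P⌋₊ + 1) ≤ 1 / Real.log P ∧ 1 / Real.log P ≤ 2 := by
    intro P P' hP hP' hP2
    have a1 : 2 ≤ ⌊P⌋₊ := Nat.le_floor (by exact_mod_cast hP)
    have a2 : 1 / 2 ≤ Real.log P := half_le_log_two.trans (Real.log_le_log (by norm_num) hP)
    refine ⟨a1, Nat.floor_mono hP', fun k hk hk' => ⟨by exact_mod_cast (by omega : 1 ≤ k), ?_⟩,
      ?_, ?_⟩
    · exact ((Nat.le_floor_iff (by linarith)).mp hk').trans hP2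
    · gcongr
      exact (Nat.lt_floor_add_one P).le
    · rw [div_le_iff₀ (by linarith)]; linarith
  refine ⟨1 - θ, 16 * C + 8, by linarith, by linarith, by positivity,
    fun q _ χ hne t P P' hP hP' hP2 => ?_, fun t P P' hP hP' hP2 => ?_⟩
  · obtain ⟨a1, a2, a3, a4, a5⟩ := hgen P P' hP hP' hP2
    have hq : (1 : ℝ) ≤ q := by exact_mod_cast Nat.pos_of_ne_zero (NeZero.ne q)
    have hb : ∀ k : ℕ, ⌊P⌋₊ ≤ k → k ≤ ⌊P'⌋₊ →
        ‖∑ n ∈ Icc 1 k, χ n * (n : ℂ) ^ (t * I) * (vonMangoldt n : ℂ)‖ ≤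
          4 * C * P ^ θ * Real.log (q * (|t| + 2) * P) := by
      intro k hk hk'
      obtain ⟨b1, b2⟩ := a3 k hk hk'
      have := h1 q χ hne t k b1
      rw [Nat.floor_natCast] at this
      simp only [mul_right_comm _ ((_ : ℂ) ^ ((t : ℂ) * I))]
      exact this.trans (window_aux hθ hθ1 hC hq hP b1 b2).1
    have := primes_gen (c := fun n => χ n * (n : ℂ) ^ (t * I))
      (fun n => by
        rw [norm_mul]; exact mul_le_one₀ (χ.norm_le_one _) (norm_nonneg _) (norm_cpow_tI t n))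
      a1 a2 (A := 8 * C * P ^ θ * Real.log (q * (|t| + 2) * P)) (fun k hk hk' => by
        rw [Ioc_split _ hk]
        refine (norm_sub_le _ _).trans ?_
        have := hb k hk hk'
        have := hb _ le_rfl a2
        linarith)
    refine this.trans ?_
    obtain ⟨b1, b2⟩ := a3 _ a2 le_rfl
    obtain ⟨-, c2, c3⟩ := window_aux (t := t) hθ hθ1 hC hq hP b1 b2
    rw [sub_sub_cancel]
    calc 1 / Real.log (⌊P⌋₊ + 1) * (8 * C * P ^ θ * Real.log (q * (|t| + 2) * P) +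
          2 * √⌊P'⌋₊ * Real.log ⌊P'⌋₊)
        ≤ 2 * (8 * C * P ^ θ * Real.log (q * (|t| + 2) * P) +
          4 * P ^ θ * Real.log (q * (|t| + 2) * P)) := by
          have := Real.log_natCast_nonneg ⌊P'⌋₊
          gcongr
          exact a4.trans a5
      _ = _ := by ring
  · obtain ⟨a1, a2, a3, a4, a5⟩ := hgen P P' hP hP' hP2
    have ht := abs_nonneg t
    have hw : (1 + |t|) / 2 ≤ ‖(t : ℂ) * I + 1‖ := by
      have b1 := re_le_norm ((t : ℂ) * I + 1)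
      have b2 := abs_im_le_norm ((t : ℂ) * I + 1)
      simp at b1 b2
      linarith
    have hb : ∀ k : ℕ, ⌊P⌋₊ ≤ k → k ≤ ⌊P'⌋₊ →
        ‖∑ n ∈ Icc 1 k, (n : ℂ) ^ (t * I) * (vonMangoldt n : ℂ) + 1 / (t * I + 1)‖ ≤
          4 * C * P ^ θ * Real.log (1 * (|t| + 2) * P) + 4 * P / (1 + |t|) := by
      intro k hk hk'
      obtain ⟨b1, b2⟩ := a3 k hk hk'
      have := h2 t k b1
      rw [Nat.floor_natCast, ← one_mul (|t| + 2)] at this
      have b3 := this.trans (window_aux hθ hθ1 hC le_rfl hP b1 b2).1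
      have b4 : ‖((k : ℝ) : ℂ) ^ (t * I + 1) / (t * I + 1)‖ ≤ 4 * P / (1 + |t|) := by
        rw [norm_div, norm_cpow_eq_rpow_re_of_pos (by linarith)]
        simp only [add_re, mul_re, ofReal_re, I_re, mul_zero, ofReal_im, I_im, mul_one, sub_self,
          one_re, zero_add, Real.rpow_one]
        calc (k : ℝ) / ‖(t : ℂ) * I + 1‖ ≤ 2 * P / ((1 + |t|) / 2) := by gcongr
          _ = _ := by field_simp; norm_num
      have b5 : ∑ n ∈ Icc 1 k, (n : ℂ) ^ (t * I) * (vonMangoldt n : ℂ) + 1 / (t * I + 1) =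
          (∑ n ∈ Icc 1 k, (vonMangoldt n : ℂ) * (n : ℂ) ^ (t * I) -
            (((k : ℝ) : ℂ) ^ (t * I + 1) - 1) / (t * I + 1)) +
            ((k : ℝ) : ℂ) ^ (t * I + 1) / (t * I + 1) := by
        simp only [mul_comm ((_ : ℂ) ^ ((t : ℂ) * I))]; ring
      rw [b5]
      exact (norm_add_le _ _).trans (add_le_add b3 b4)
    have := primes_gen (c := fun n => (n : ℂ) ^ (t * I)) (norm_cpow_tI t)
      a1 a2 (A := 8 * C * P ^ θ * Real.log (1 * (|t| + 2) * P) + 8 * P / (1 + |t|))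
      (fun k hk hk' => by
        rw [Ioc_split _ hk, ← add_sub_add_right_eq_sub _ _ (1 / (t * I + 1))]
        refine (norm_sub_le _ _).trans ?_
        have := hb k hk hk'
        have := hb _ le_rfl a2
        have : 8 * P / (1 + |t|) = 4 * P / (1 + |t|) + 4 * P / (1 + |t|) := by ring
        linarith)
    refine this.trans ?_
    obtain ⟨b1, b2⟩ := a3 _ a2 le_rfl
    obtain ⟨-, c2, c3⟩ := window_aux (t := t) hθ hθ1 hC le_rfl hP b1 b2
    rw [sub_sub_cancel]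
    rw [one_mul] at c2 c3 ⊢
    have hlP : 0 < Real.log P := Real.log_pos (by linarith)
    calc 1 / Real.log (⌊P⌋₊ + 1) * (8 * C * P ^ θ * Real.log ((|t| + 2) * P) +
          8 * P / (1 + |t|) + 2 * √⌊P'⌋₊ * Real.log ⌊P'⌋₊)
        ≤ 1 / Real.log P * (8 * C * P ^ θ * Real.log ((|t| + 2) * P) +
          8 * P / (1 + |t|) + 4 * P ^ θ * Real.log ((|t| + 2) * P)) := by
          have := Real.log_natCast_nonneg ⌊P'⌋₊
          gcongr
      _ = 1 / Real.log P * ((8 * C + 4) * P ^ θ * Real.log ((|t| + 2) * P)) +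
          8 * P / ((1 + |t|) * Real.log P) := by field_simp; ring
      _ ≤ 2 * ((8 * C + 4) * P ^ θ * Real.log ((|t| + 2) * P)) +
          (16 * C + 8) * P / ((1 + |t|) * Real.log P) := by
          gcongr
          linarith
      _ = _ := by ring

theorem ps_nonprincipal (h : QGRH) : ∃ δ > 0, ∃ C : ℝ,
    ∀ (q : ℕ) [NeZero q] (χ : DirichletCharacter ℂ q), χ ≠ 1 → ∀ t P P' : ℝ,
      2 ≤ P → P ≤ P' → P' ≤ 2 * P →
      ‖∑ p ∈ (Ioc ⌊P⌋₊ ⌊P'⌋₊).filter Nat.Prime, χ p * (p : ℂ) ^ (t * I)‖ ≤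
        C * P ^ (1 - δ : ℝ) * Real.log (q * (|t| + 2) * P) ^ 2 := by
  obtain ⟨δ, C, hδ, hδ', hC, h1, -⟩ := ps_all h
  refine ⟨δ, hδ, C, fun q _ χ hne t P P' hP hP' hP2 => (h1 q χ hne t P P' hP hP' hP2).trans ?_⟩
  have hq : (1 : ℝ) ≤ q := by exact_mod_cast Nat.pos_of_ne_zero (NeZero.ne q)
  obtain ⟨-, -, c3⟩ := window_aux (t := t) (θ := 3 / 4) le_rfl (by norm_num) hC hq hP le_rfl
    (by linarith)
  have : 0 ≤ P := by linarith
  gcongr
  nlinarith

theorem ps_trivial (h : QGRH) : ∃ δ > 0, ∃ C : ℝ, ∀ t P P' : ℝ, 2 ≤ P → P ≤ P' → P' ≤ 2 * P →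
      ‖∑ p ∈ (Ioc ⌊P⌋₊ ⌊P'⌋₊).filter Nat.Prime, (p : ℂ) ^ (t * I)‖ ≤
        C * P ^ (1 - δ : ℝ) * Real.log ((|t| + 2) * P) ^ 2 + C * P / (1 + |t|) := by
  obtain ⟨δ, C, hδ, hδ', hC, -, h2⟩ := ps_all h
  refine ⟨δ, hδ, 2 * C, fun t P P' hP hP' hP2 => (h2 t P P' hP hP' hP2).trans ?_⟩
  obtain ⟨-, -, c3⟩ := window_aux (t := t) (θ := 3 / 4) le_rfl (by norm_num) hC le_rfl hP le_rfl
    (by linarith)
  rw [one_mul] at c3
  have : 0 ≤ P := by linarith
  have a2 : 1 / 2 ≤ Real.log P := half_le_log_two.trans (Real.log_le_log (by norm_num) hP)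
  have ht := abs_nonneg t
  gcongr ?_ + ?_
  · gcongr
    · linarith
    · nlinarith
  · calc C * P / ((1 + |t|) * Real.log P) ≤ C * P / ((1 + |t|) * (1 / 2)) := by gcongr
      _ = _ := by field_simp

lemma psi_cast (y : ℝ) :
    ∑ n ∈ Icc 1 ⌊y⌋₊, (vonMangoldt n : ℂ) = ((Chebyshev.psi y : ℝ) : ℂ) := by
  rw [Chebyshev.psi, ofReal_sum]; rfl

/-- Untwisted forms with one logarithm and a common exponent and constant. -/
theorem psi_all (h : QGRH) : ∃ θ C : ℝ, 3 / 4 ≤ θ ∧ θ < 1 ∧ 0 < C ∧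
    (∀ (q : ℕ) [NeZero q] (χ : DirichletCharacter ℂ q), χ ≠ 1 → ∀ y : ℝ, 1 ≤ y →
      ‖∑ n ∈ Icc 1 ⌊y⌋₊, (vonMangoldt n : ℂ) * χ n‖ ≤ C * y ^ θ * Real.log (2 * q * y)) ∧
    (∀ y : ℝ, 1 ≤ y → |Chebyshev.psi y - y| ≤ C * y ^ θ * Real.log (2 * y)) := by
  obtain ⟨θ, C, hθ, hθ1, hC, h1, h2⟩ := psi_twist h
  refine ⟨θ, C + 2, hθ, hθ1, by positivity, fun q _ χ hne y hy => ?_, fun y hy => ?_⟩
  · have := h1 q χ hne 0 y hy
    have hq : (1 : ℝ) ≤ q := by exact_mod_cast Nat.pos_of_ne_zero (NeZero.ne q)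
    simp only [ofReal_zero, zero_mul, cpow_zero, mul_one, abs_zero, zero_add] at this
    simp only [mul_comm (vonMangoldt _ : ℂ)]
    rw [mul_comm 2 (q : ℝ)]
    refine this.trans ?_
    have : 0 ≤ Real.log (q * 2 * y) := Real.log_nonneg (by nlinarith)
    gcongr
    linarith
  · have := h2 0 y hy
    simp only [ofReal_zero, zero_mul, cpow_zero, mul_one, abs_zero, zero_add, cpow_one,
      div_one, psi_cast] at this
    rw [show ((Chebyshev.psi y : ℝ) : ℂ) - (y - 1) = ((Chebyshev.psi y - y + 1 : ℝ) : ℂ) by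
      push_cast; ring, norm_real, Real.norm_eq_abs] at this
    have h3 : 1 ≤ y ^ θ := Real.one_le_rpow hy (by linarith)
    have h4 : 1 / 2 ≤ Real.log (2 * y) :=
      half_le_log_two.trans (Real.log_le_log (by norm_num) (by linarith))
    have h5 : |Chebyshev.psi y - y| ≤ |Chebyshev.psi y - y + 1| + 1 := by
      have := abs_sub (Chebyshev.psi y - y + 1) 1
      simpa using this
    nlinarith

theorem psi_power (h : QGRH) : ∃ δ > 0, ∃ C : ℝ, ∀ y : ℝ, y ≥ 1 →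
    |Chebyshev.psi y - y| ≤ C * y ^ (1 - δ : ℝ) := by
  obtain ⟨θ, C, hθ, hθ1, hC, -, h2⟩ := psi_all h
  set ε := (1 - θ) / 2 with hε
  have hε0 : 0 < ε := by rw [hε]; linarith
  refine ⟨ε, hε0, C * (2 / ε), fun y hy => (h2 y hy).trans ?_⟩
  have hy0 : 0 < y := by linarith
  have h3 : Real.log (2 * y) ≤ (2 * y) ^ ε / ε := Real.log_le_rpow_div (by positivity) hε0
  have h4 : (2 * y) ^ ε ≤ 2 * y ^ ε := by
    calc (2 * y) ^ ε = 2 ^ ε * y ^ ε := Real.mul_rpow (by norm_num) hy0.le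
      _ ≤ 2 ^ (1 : ℝ) * y ^ ε := by gcongr <;> linarith
      _ = _ := by rw [Real.rpow_one]
  calc C * y ^ θ * Real.log (2 * y) ≤ C * y ^ θ * (2 * y ^ ε / ε) := by
        gcongr; exact h3.trans (by gcongr)
    _ = C * (2 / ε) * (y ^ θ * y ^ ε) := by ring
    _ = _ := by rw [← Real.rpow_add hy0]; congr 2; rw [hε]; ring

theorem psi_chi_power (h : QGRH) : ∃ δ > 0, ∃ C : ℝ,
    ∀ (q : ℕ) [NeZero q] (χ : DirichletCharacter ℂ q), χ ≠ 1 → ∀ y : ℝ, y ≥ 1 →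
      ‖∑ n ∈ Icc 1 ⌊y⌋₊, (vonMangoldt n : ℂ) * χ n‖ ≤
        C * y ^ (1 - δ : ℝ) * Real.log (q * y) ^ 2 := by
  obtain ⟨θ, C, hθ, hθ1, hC, h1, -⟩ := psi_all h
  refine ⟨1 - θ, by linarith, 4 * C, fun q _ χ hne y hy => (h1 q χ hne y hy).trans ?_⟩
  have hq : (2 : ℝ) ≤ q := by
    have h0 := NeZero.ne q
    have h1 : q ≠ 1 := by rintro rfl; exact hne (Subsingleton.elim _ _)
    exact_mod_cast (by omega : 2 ≤ q)
  have h3 : Real.log 2 ≤ Real.log (q * y) := Real.log_le_log (by norm_num) (by nlinarith)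
  have h4 := half_le_log_two
  rw [sub_sub_cancel, mul_assoc 2, Real.log_mul (by norm_num) (by positivity)]
  have : 0 ≤ y := by linarith
  calc C * y ^ θ * (Real.log 2 + Real.log (q * y))
      ≤ C * y ^ θ * (4 * Real.log (q * y) ^ 2) := by gcongr; nlinarith
    _ = _ := by ring

end Vale.Agent.Lib.PS
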