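import Mathlib

/-!
# The Riemann mapping theorem, with Moebius maps of the disc, Schwarz-Pick, Montel and Hurwitz
-/

open Metric Set Filter Function Complex
open scoped Topology ComplexConjugate Pointwise

namespace Vale.Agent.Lib.RMT

/-- The Moebius map of the disc sending `a` to `0`. -/
noncomputable def mob (a w : ℂ) : ℂ := (w - a) / (1 - conj a * w)

lemma mob_den_ne {a w : ℂ} (ha : ‖a‖ < 1) (hw : ‖w‖ ≤ 1) : 1 - conj a * w ≠ 0 := by
  intro h
  have h1 : conj a * w = 1 := by linear_combination -h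
  have h2 : ‖a‖ * ‖w‖ = 1 := by simpa using congrArg norm h1
  nlinarith [norm_nonneg a, norm_nonneg w]

lemma mob_identity (a w : ℂ) :
    ‖1 - conj a * w‖ ^ 2 - ‖w - a‖ ^ 2 = (1 - ‖a‖ ^ 2) * (1 - ‖w‖ ^ 2) := by
  simp only [Complex.sq_norm, Complex.normSq_apply]
  simp
  ring

lemma one_sub_norm_mob_sq {a w : ℂ} (ha : ‖a‖ < 1) (hw : ‖w‖ ≤ 1) :
    1 - ‖mob a w‖ ^ 2 = (1 - ‖a‖ ^ 2) * (1 - ‖w‖ ^ 2) / ‖1 - conj a * w‖ ^ 2 := by
  have h : ‖1 - conj a * w‖ ≠ 0 := norm_ne_zero_iff.2 (mob_den_ne ha hw)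
  rw [← mob_identity, mob, norm_div, div_pow, sub_div, div_self (pow_ne_zero 2 h)]

lemma norm_mob_le {a w : ℂ} (ha : ‖a‖ < 1) (hw : ‖w‖ ≤ 1) : ‖mob a w‖ ≤ 1 := by
  have h := one_sub_norm_mob_sq ha hw
  have h1 : 0 ≤ (1 - ‖a‖ ^ 2) * (1 - ‖w‖ ^ 2) / ‖1 - conj a * w‖ ^ 2 := by
    have : 0 ≤ 1 - ‖a‖ ^ 2 := by nlinarith [norm_nonneg a]
    have : 0 ≤ 1 - ‖w‖ ^ 2 := by nlinarith [norm_nonneg w]
    positivity
  nlinarith [norm_nonneg (mob a w)]

lemma norm_mob_lt {a w : ℂ} (ha : ‖a‖ < 1) (hw : ‖w‖ < 1) : ‖mob a w‖ < 1 := by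
  have h := one_sub_norm_mob_sq ha hw.le
  have h1 : 0 < (1 - ‖a‖ ^ 2) * (1 - ‖w‖ ^ 2) / ‖1 - conj a * w‖ ^ 2 := by
    have : 0 < 1 - ‖a‖ ^ 2 := by nlinarith [norm_nonneg a]
    have : 0 < 1 - ‖w‖ ^ 2 := by nlinarith [norm_nonneg w]
    have : 0 < ‖1 - conj a * w‖ := norm_pos_iff.2 (mob_den_ne ha hw.le)
    positivity
  nlinarith [norm_nonneg (mob a w)]

lemma mob_self (a : ℂ) : mob a a = 0 := by simp [mob]

lemma mob_zero (a : ℂ) : mob a 0 = -a := by simp [mob]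

lemma mob_zero_left (w : ℂ) : mob 0 w = w := by simp [mob]

lemma conj_mul_self_eq (a : ℂ) : conj a * a = ((‖a‖ ^ 2 : ℝ) : ℂ) := by
  rw [Complex.conj_mul']
  push_cast
  rfl

lemma hasDerivAt_mob {a w : ℂ} (ha : ‖a‖ < 1) (hw : ‖w‖ ≤ 1) :
    HasDerivAt (mob a) ((1 - conj a * a) / (1 - conj a * w) ^ 2) w := by
  have h := ((hasDerivAt_id w).sub_const a).div
    (((hasDerivAt_id w).const_mul (conj a)).const_sub 1) (mob_den_ne ha hw)
  have h2 : (1 - conj a * a) / (1 - conj a * w) ^ 2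
      = (1 * (1 - conj a * id w) - (id w - a) * -(conj a * 1)) / (1 - conj a * id w) ^ 2 := by
    simp only [id]
    ring
  rw [h2]
  exact h

lemma mob_neg_mob {a w : ℂ} (ha : ‖a‖ < 1) (hw : ‖w‖ ≤ 1) : mob (-a) (mob a w) = w := by
  have h := mob_den_ne ha hw
  have h2 := mob_den_ne ha ha.le
  have h3 : 1 - conj (-a) * ((w - a) / (1 - conj a * w))
      = (1 - conj a * a) / (1 - conj a * w) := by
    rw [map_neg]
    field_simp
    ring
  have h4 : (w - a) / (1 - conj a * w) - -a = w * ((1 - conj a * a) / (1 - conj a * w)) := by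
    rw [sub_neg_eq_add, div_add' _ _ _ h, ← mul_div_assoc]
    congr 1
    ring
  rw [mob, mob, h3, h4, mul_div_assoc, div_self (div_ne_zero h2 h), mul_one]

lemma mob_eq_zero {a w : ℂ} (ha : ‖a‖ < 1) (hw : ‖w‖ ≤ 1) (h : mob a w = 0) : w = a := by
  have := mob_neg_mob ha hw
  rw [h, mob_zero, neg_neg] at this
  exact this.symm

lemma mob_inj {a w w' : ℂ} (ha : ‖a‖ < 1) (hw : ‖w‖ ≤ 1) (hw' : ‖w'‖ ≤ 1)
    (h : mob a w = mob a w') : w = w' := by
  rw [← mob_neg_mob ha hw, h, mob_neg_mob ha hw']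

lemma norm_one_sub_conj_mul_self {a : ℂ} (ha : ‖a‖ < 1) : ‖1 - conj a * a‖ = 1 - ‖a‖ ^ 2 := by
  rw [conj_mul_self_eq, ← Complex.ofReal_one, ← Complex.ofReal_sub, Complex.norm_real,
    Real.norm_of_nonneg]
  nlinarith [norm_nonneg a]

lemma differentiableOn_mob_comp {g : ℂ → ℂ} {s : Set ℂ} {a : ℂ} (ha : ‖a‖ < 1)
    (hg : DifferentiableOn ℂ g s) (hm : MapsTo g s (closedBall 0 1)) :
    DifferentiableOn ℂ (fun z => mob a (g z)) s := fun z hz =>
  (hasDerivAt_mob ha (mem_closedBall_zero_iff.1 (hm hz))).differentiableAt.comp_differentiableWithinAt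
    z (hg z hz)

/-- Schwarz-Pick, distance form, from a ball. -/
lemma norm_mob_le_of_ball {g : ℂ → ℂ} {c x : ℂ} {r : ℝ} (hg : DifferentiableOn ℂ g (ball c r))
    (hm : MapsTo g (ball c r) (closedBall 0 1)) (hc : ‖g c‖ < 1) (hx : x ∈ ball c r) :
    ‖mob (g c) (g x)‖ ≤ ‖x - c‖ / r := by
  have h := Complex.dist_le_div_mul_dist_of_mapsTo_ball (R₂ := 1)
    (differentiableOn_mob_comp hc hg hm) (fun z hz => by
      rw [mob_self, mem_closedBall_zero_iff]
      exact norm_mob_le hc (mem_closedBall_zero_iff.1 (hm hz))) hx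
  rw [mob_self, dist_zero_right, dist_eq_norm] at h
  rwa [div_mul_eq_mul_div, one_mul] at h

/-- Schwarz-Pick, derivative form, at the centre of a ball. -/
lemma norm_deriv_le_of_ball {g : ℂ → ℂ} {c : ℂ} {r : ℝ} (hr : 0 < r)
    (hg : DifferentiableOn ℂ g (ball c r))
    (hm : MapsTo g (ball c r) (closedBall 0 1)) (hc : ‖g c‖ < 1) :
    ‖deriv g c‖ ≤ (1 - ‖g c‖ ^ 2) / r := by
  have h := Complex.norm_deriv_le_div_of_mapsTo_ball (R₂ := 1)
    (differentiableOn_mob_comp hc hg hm) (fun z hz => by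
      rw [mob_self, mem_closedBall_zero_iff]
      exact norm_mob_le hc (mem_closedBall_zero_iff.1 (hm hz))) hr
  have hd : HasDerivAt g (deriv g c) c := (hg.differentiableAt (ball_mem_nhds c hr)).hasDerivAt
  have h2 := ((hasDerivAt_mob hc hc.le).comp c hd).deriv
  have h3 : (fun z => mob (g c) (g z)) = mob (g c) ∘ g := rfl
  have hp : 0 < 1 - ‖g c‖ ^ 2 := by nlinarith [norm_nonneg (g c)]
  rw [h3, h2, norm_mul, norm_div, norm_pow, norm_one_sub_conj_mul_self hc] at h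
  rw [le_div_iff₀ hr] at h ⊢
  have h4 : (1 - ‖g c‖ ^ 2) / (1 - ‖g c‖ ^ 2) ^ 2 = 1 / (1 - ‖g c‖ ^ 2) := by field_simp
  rw [h4, mul_assoc, div_mul_eq_mul_div, one_mul, div_le_one hp] at h
  exact h

/-- Schwarz-Pick on the unit disc. -/
lemma schwarz_pick {g : ℂ → ℂ} {z : ℂ} (hg : DifferentiableOn ℂ g (ball 0 1))
    (hm : MapsTo g (ball 0 1) (closedBall 0 1)) (hz : ‖z‖ < 1) (hc : ‖g z‖ < 1) :
    ‖deriv g z‖ * (1 - ‖z‖ ^ 2) ≤ 1 - ‖g z‖ ^ 2 := by
  have hz' : ‖-z‖ < 1 := by simpa using hz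
  have hmaps : MapsTo (mob (-z)) (ball 0 1) (ball 0 1) := fun w hw =>
    mem_ball_zero_iff.2 (norm_mob_lt hz' (mem_ball_zero_iff.1 hw))
  have hd : DifferentiableOn ℂ (mob (-z)) (ball 0 1) := fun w hw =>
    (hasDerivAt_mob hz' (mem_ball_zero_iff.1 hw).le).differentiableAt.differentiableWithinAt
  have h0 : mob (-z) 0 = z := by rw [mob_zero, neg_neg]
  have h := norm_deriv_le_of_ball (g := g ∘ mob (-z)) (c := 0) one_pos (hg.comp hd hmaps)
    (hm.comp hmaps) (by simpa [h0] using hc)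
  have hgd : HasDerivAt g (deriv g z) (mob (-z) 0) := by
    rw [h0]
    exact (hg.differentiableAt (isOpen_ball.mem_nhds (mem_ball_zero_iff.2 hz))).hasDerivAt
  have h2 := (hgd.comp 0 (hasDerivAt_mob hz' (by simp))).deriv
  rw [h2, norm_mul, norm_div, norm_one_sub_conj_mul_self hz'] at h
  simpa [h0] using h

/-- Montel along an ultrafilter. -/
lemma montel {Ω : Set ℂ} (hΩ : IsOpen Ω) {ι : Type*} (U : Ultrafilter ι) {F : ι → ℂ → ℂ}
    (hF : ∀ i, DifferentiableOn ℂ (F i) Ω) (hb : ∀ i, MapsTo (F i) Ω (closedBall 0 1)) :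
    ∃ f : ℂ → ℂ, TendstoLocallyUniformlyOn F f U Ω := by
  have h1 : ∀ z, ∃ w : ℂ, z ∈ Ω → Tendsto (fun i => F i z) U (𝓝 w) := by
    intro z
    by_cases hz : z ∈ Ω
    · obtain ⟨w, -, hw⟩ := (isCompact_closedBall (0 : ℂ) 1).ultrafilter_le_nhds
        (U.map (fun i => F i z)) (by
          rw [Ultrafilter.coe_map, le_principal_iff, mem_map]
          exact Eventually.of_forall (fun i => hb i hz))
      exact ⟨w, fun _ => hw⟩
    · exact ⟨0, fun h => absurd h hz⟩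
  choose f hf using h1
  refine ⟨f, Metric.tendstoLocallyUniformlyOn_iff.2 (fun ε hε x hx => ?_)⟩
  obtain ⟨r, hr, hrΩ⟩ := Metric.isOpen_iff.1 hΩ x hx
  have hlip : ∀ i, ∀ y ∈ ball x r, dist (F i y) (F i x) ≤ 2 / r * dist y x := by
    intro i y hy
    refine Complex.dist_le_div_mul_dist_of_mapsTo_ball ((hF i).mono hrΩ) (fun z hz => ?_) hy
    have h1 := mem_closedBall_zero_iff.1 (hb i (hrΩ hz))
    have h2 := mem_closedBall_zero_iff.1 (hb i hx)
    rw [mem_closedBall, dist_eq_norm]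
    linarith [norm_sub_le (F i z) (F i x)]
  have hlip' : ∀ y ∈ ball x r, dist (f y) (f x) ≤ 2 / r * dist y x := fun y hy =>
    le_of_tendsto ((hf y (hrΩ hy)).dist (hf x hx)) (Eventually.of_forall (fun i => hlip i y hy))
  refine ⟨ball x (min r (ε * r / 6)), mem_nhdsWithin_of_mem_nhds
    (ball_mem_nhds _ (by positivity)), ?_⟩
  filter_upwards [Metric.tendsto_nhds.1 (hf x hx) (ε / 3) (by positivity)] with i hi y hy
  have hy1 : y ∈ ball x r := ball_subset_ball (min_le_left _ _) hy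
  have hy2 : dist y x ≤ ε * r / 6 := (mem_ball.1 hy).le.trans (min_le_right _ _)
  have h3 : 2 / r * dist y x ≤ ε / 3 := by
    calc 2 / r * dist y x ≤ 2 / r * (ε * r / 6) := by gcongr
      _ = ε / 3 := by field_simp; ring
  have h4 := dist_triangle4 (f y) (f x) (F i x) (F i y)
  rw [dist_comm (f x), dist_comm (F i x) (F i y)] at h4
  linarith [hlip i y hy1, hlip' y hy1]

/-- Hurwitz: a locally uniform limit of zero-free holomorphic functions vanishes near each of its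
zeros. -/
lemma hurwitz {Ω : Set ℂ} (hΩ : IsOpen Ω) {ι : Type*} {l : Filter ι} [l.NeBot] {F : ι → ℂ → ℂ}
    {f : ℂ → ℂ} (hlim : TendstoLocallyUniformlyOn F f l Ω)
    (hF : ∀ i, DifferentiableOn ℂ (F i) Ω) (hne : ∀ i, ∀ z ∈ Ω, F i z ≠ 0) {a : ℂ} (ha : a ∈ Ω)
    (hfa : f a = 0) : ∀ᶠ z in 𝓝 a, f z = 0 := by
  have hf : DifferentiableOn ℂ f Ω := hlim.differentiableOn (Eventually.of_forall hF) hΩ
  rcases (hf.analyticAt (hΩ.mem_nhds ha)).eventually_eq_zero_or_eventually_ne_zero with h | h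
  · exact h
  exfalso
  rw [eventually_nhdsWithin_iff] at h
  obtain ⟨r, hr, hball⟩ := Metric.nhds_basis_closedBall.eventually_iff.1
    (h.and (hΩ.mem_nhds ha))
  have hsub : closedBall a r ⊆ Ω := fun z hz => (hball hz).2
  obtain ⟨z0, hz0, hmin⟩ := (isCompact_sphere a r).exists_isMinOn
    (NormedSpace.sphere_nonempty.2 hr.le)
    ((hf.continuousOn.mono (sphere_subset_closedBall.trans hsub)).norm)
  have hpos : 0 < ‖f z0‖ := by
    refine norm_pos_iff.2 ((hball (sphere_subset_closedBall hz0)).1 ?_)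
    rintro rfl
    simp [hr.ne] at hz0
  have hu := (tendstoLocallyUniformlyOn_iff_forall_isCompact hΩ).1 hlim _ hsub
    (isCompact_closedBall a r)
  obtain ⟨i, hi⟩ := (Metric.tendstoUniformlyOn_iff.1 hu (‖f z0‖ / 2) (by positivity)).exists
  have hd : DiffContOnCl ℂ (fun z => (F i z)⁻¹) (ball a r) := by
    refine DifferentiableOn.diffContOnCl ?_
    rw [closure_ball a hr.ne']
    exact ((hF i).mono hsub).inv (fun z hz => hne i z (hsub hz))
  have hmax := Complex.norm_le_of_forall_mem_frontier_norm_le isBounded_ball hd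
    (C := (‖f z0‖ / 2)⁻¹) (fun z hz => by
      rw [frontier_ball a hr.ne'] at hz
      rw [norm_inv]
      refine inv_anti₀ (by positivity) ?_
      have h1 := hi z (sphere_subset_closedBall hz)
      have h2 : ‖f z0‖ ≤ ‖f z‖ := hmin hz
      rw [dist_eq_norm] at h1
      linarith [norm_sub_norm_le (f z) (F i z)]) (subset_closure (mem_ball_self hr))
  have h1 := hi a (mem_closedBall_self hr.le)
  rw [hfa, dist_zero_left] at h1
  rw [norm_inv, inv_le_inv₀ (norm_pos_iff.2 (hne i a ha)) (by positivity)] at hmax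
  linarith

lemma hasDerivAt_of_sq {g k : ℂ → ℂ} {k' z : ℂ} (hg : ContinuousAt g z) (h0 : g z ≠ 0)
    (hk : HasDerivAt k k' z) (h : ∀ x, g x ^ 2 = k x) : HasDerivAt g (k' / (2 * g z)) z := by
  rw [hasDerivAt_iff_tendsto_slope] at hk ⊢
  have h1 : Tendsto (fun y => g y + g z) (𝓝[≠] z) (𝓝 (2 * g z)) := by
    rw [two_mul]
    exact (hg.tendsto.add_const _).mono_left nhdsWithin_le_nhds
  have h2 : 2 * g z ≠ 0 := mul_ne_zero two_ne_zero h0
  refine (hk.div h1 h2).congr' ?_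
  filter_upwards [h1.eventually_ne h2] with y hy
  simp only [Pi.div_apply, slope_def_field, ← h]
  field_simp
  ring

theorem rmt_step1 {U : Set ℂ} (hUo : IsOpen U) (hUc : IsSimplyConnected U) (hU : U ≠ univ) :
    ∃ f : ℂ → ℂ, Injective f ∧ ¬Dense (f '' U) ∧ ∀ z ∈ U, deriv f z ≠ 0 := by
  wlog hU₀ : 0 ∉ U
  · rw [ne_univ_iff_exists_notMem] at hU
    rcases hU with ⟨a, ha⟩
    specialize this (hUo.vadd (-a)) (by simpa) (by simp [hU])
      (by simpa [mem_vadd_set_iff_neg_vadd_mem])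
    rcases this with ⟨f, hf_inj, hf_dense, hdf⟩
    refine ⟨f ∘ (-a + ·), hf_inj.comp (add_right_injective (-a)), ?_, fun z hz ↦ ?_⟩
    · simpa only [← image_vadd, Set.image_image] using! hf_dense
    · simpa [Function.comp_def, deriv_comp_const_add] using hdf (-a + z) (mapsTo_image _ _ hz)
  rcases exists_continuousOn_pow_eq hUc hUo continuousOn_id (by rwa [image_id]) two_ne_zero
    with ⟨f, hfc, hf_inv⟩
  replace hf_inv : LeftInverse (· ^ 2) f := hf_inv
  have hf₀ : ∀ z ∈ U, f z ≠ 0 := by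
    intro z hz hfz
    simpa [hfz, (ne_of_mem_of_not_mem hz hU₀).symm] using hf_inv z
  have hdf : ∀ z ∈ U, HasStrictDerivAt f (2 * f z)⁻¹ z := by
    intro z hz
    apply HasStrictDerivAt.of_local_left_inverse
    · exact hfc.continuousAt <| hUo.mem_nhds hz
    · simpa using hasStrictDerivAt_pow 2 (f z)
    · simpa using hf₀ z hz
    · exact .of_forall hf_inv
  refine ⟨f, hf_inv.injective, ?_, fun z hz ↦ ?_⟩
  · simp only [Dense, not_forall, mem_closure_iff_frequently, not_frequently]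
    rcases hUc.nonempty with ⟨x, hx⟩
    use -f x
    have : f '' U ∈ 𝓝 (f x) := by
      rw [← (hdf x hx).map_nhds_eq (by simpa using hf₀ x hx)]
      exact Filter.image_mem_map <| hUo.mem_nhds hx
    rw [nhds_neg, eventually_neg]
    filter_upwards [this]
    rintro _ ⟨a, ha, rfl⟩ ⟨b, hb, hab⟩
    obtain rfl : a = b := by
      rw [← hf_inv b, hab]
      simp [hf_inv a]
    refine hf₀ a ha ?_
    linear_combination hab / 2
  · simpa [(hdf z hz).hasDerivAt.deriv] using hf₀ z hz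

lemma rmt_step2 {U : Set ℂ} (hUo : IsOpen U) (hUc : IsSimplyConnected U) (hU : U ≠ univ) :
    ∃ f : ℂ → ℂ, MapsTo f U (ball 0 1) ∧ InjOn f U ∧ ∀ z ∈ U, deriv f z ≠ 0 := by
  rcases rmt_step1 hUo hUc hU with ⟨f, hf_inj, hfd, hdf⟩
  obtain ⟨x, ε, hε₀, hε⟩ : ∃ (x : ℂ) (ε : ℝ), 0 < ε ∧ ∀ a ∈ U, ε < dist (f a) x := by
    simpa [Dense, mem_closure_iff_nhds_basis Metric.nhds_basis_closedBall] using hfd
  have hfx : ∀ z ∈ U, f z ≠ x := fun z hz ↦ by simpa using hε₀.trans (hε z hz)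
  use fun z ↦ ε / (f z - x)
  refine ⟨?mapsTo, ?injOn, ?deriv⟩
  case mapsTo =>
    intro z hz
    rw [mem_ball_zero_iff, norm_div, norm_real, Real.norm_of_nonneg hε₀.le, div_lt_one₀]
    · simpa [dist_eq_norm] using hε z hz
    · simpa [sub_eq_zero] using hfx z hz
  case injOn =>
    intro z hz w hw heq
    simpa [div_eq_mul_inv, hε₀.ne', hf_inj.eq_iff] using heq
  case deriv =>
    intro z hz
    have hdz : DifferentiableAt ℂ f z := differentiableAt_of_deriv_ne_zero (hdf z hz)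
    rw [(hasDerivAt_const _ _).fun_div (hdz.hasDerivAt.sub_const _) _ |>.deriv] <;>
      simp [*, ne_of_gt, sub_eq_zero]

/-- The family of normalised univalent maps into the disc. -/
structure Fam (Ω : Set ℂ) (p : ℂ) (f : ℂ → ℂ) : Prop where
  maps : MapsTo f Ω (ball 0 1)
  inj : InjOn f Ω
  dne : ∀ z ∈ Ω, deriv f z ≠ 0
  zero : f p = 0

lemma Fam.diff {Ω : Set ℂ} {p : ℂ} {f : ℂ → ℂ} (h : Fam Ω p f) : DifferentiableOn ℂ f Ω :=
  fun z hz => (differentiableAt_of_deriv_ne_zero (h.dne z hz)).differentiableWithinAt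

lemma fam_normalise {Ω : Set ℂ} {p : ℂ} (hp : p ∈ Ω) {g : ℂ → ℂ} (hm : MapsTo g Ω (ball 0 1))
    (hi : InjOn g Ω) (hd : ∀ z ∈ Ω, deriv g z ≠ 0) :
    Fam Ω p (mob (g p) ∘ g) ∧ ‖deriv (mob (g p) ∘ g) p‖ = ‖deriv g p‖ / (1 - ‖g p‖ ^ 2) := by
  have hlt : ∀ z ∈ Ω, ‖g z‖ < 1 := fun z hz => mem_ball_zero_iff.1 (hm hz)
  have hder : ∀ z ∈ Ω, deriv (mob (g p) ∘ g) z
      = (1 - conj (g p) * g p) / (1 - conj (g p) * g z) ^ 2 * deriv g z := fun z hz =>
    ((hasDerivAt_mob (hlt p hp) (hlt z hz).le).comp z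
      (differentiableAt_of_deriv_ne_zero (hd z hz)).hasDerivAt).deriv
  refine ⟨⟨fun z hz => mem_ball_zero_iff.2 (norm_mob_lt (hlt p hp) (hlt z hz)),
    fun z hz w hw h => hi hz hw (mob_inj (hlt p hp) (hlt z hz).le (hlt w hw).le h),
    fun z hz => ?_, mob_self _⟩, ?_⟩
  · rw [hder z hz]
    exact mul_ne_zero (div_ne_zero (mob_den_ne (hlt p hp) (hlt p hp).le)
      (pow_ne_zero _ (mob_den_ne (hlt p hp) (hlt z hz).le))) (hd z hz)
  · have hpos : 0 < 1 - ‖g p‖ ^ 2 := by nlinarith [norm_nonneg (g p), hlt p hp]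
    rw [hder p hp, norm_mul, norm_div, norm_pow, norm_one_sub_conj_mul_self (hlt p hp)]
    field_simp

lemma koebe {Ω : Set ℂ} (hopen : IsOpen Ω) (hsc : IsSimplyConnected Ω) {p : ℂ} (hp : p ∈ Ω)
    {f : ℂ → ℂ} (hf : Fam Ω p f) {w : ℂ} (hw : ‖w‖ < 1) (hnot : w ∉ f '' Ω) :
    ∃ h, Fam Ω p h ∧ ‖deriv f p‖ < ‖deriv h p‖ := by
  have hlt : ∀ z ∈ Ω, ‖f z‖ < 1 := fun z hz => mem_ball_zero_iff.1 (hf.maps hz)
  have hk : ∀ z ∈ Ω, HasDerivAt (mob w ∘ f)
      ((1 - conj w * w) / (1 - conj w * f z) ^ 2 * deriv f z) z := fun z hz =>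
    (hasDerivAt_mob hw (hlt z hz).le).comp z
      (differentiableAt_of_deriv_ne_zero (hf.dne z hz)).hasDerivAt
  have hk0 : ∀ z ∈ Ω, (mob w ∘ f) z ≠ 0 := fun z hz h =>
    hnot ⟨z, hz, mob_eq_zero hw (hlt z hz).le h⟩
  obtain ⟨g, hgc, hg⟩ := exists_continuousOn_pow_eq hsc hopen (g := mob w ∘ f)
    (fun z hz => (hk z hz).continuousAt.continuousWithinAt)
    (by rintro ⟨z, hz, h⟩; exact hk0 z hz h) two_ne_zero
  have hg0 : ∀ z ∈ Ω, g z ≠ 0 := fun z hz h => hk0 z hz (by rw [← hg, h]; simp)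
  have hgd : ∀ z ∈ Ω, deriv g z
      = (1 - conj w * w) / (1 - conj w * f z) ^ 2 * deriv f z / (2 * g z) := fun z hz =>
    (hasDerivAt_of_sq (hgc.continuousAt (hopen.mem_nhds hz)) (hg0 z hz) (hk z hz) hg).deriv
  have hglt : ∀ z ∈ Ω, ‖g z‖ < 1 := by
    intro z hz
    have h1 : ‖g z‖ ^ 2 < 1 := by
      rw [← norm_pow, hg]
      exact norm_mob_lt hw (hlt z hz)
    nlinarith [norm_nonneg (g z)]
  obtain ⟨h1, h2⟩ := fam_normalise hp (g := g) (fun z hz => mem_ball_zero_iff.2 (hglt z hz))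
    (fun z hz y hy h => hf.inj hz hy (mob_inj hw (hlt z hz).le (hlt y hy).le (by
      have h3 := hg z
      rw [h, hg] at h3
      exact h3.symm)))
    (fun z hz => by
      rw [hgd z hz]
      exact div_ne_zero (mul_ne_zero (div_ne_zero (mob_den_ne hw hw.le)
        (pow_ne_zero _ (mob_den_ne hw (hlt z hz).le))) (hf.dne z hz))
        (mul_ne_zero two_ne_zero (hg0 z hz)))
  refine ⟨_, h1, ?_⟩
  have ht : ‖g p‖ ^ 2 = ‖w‖ := by
    rw [← norm_pow, hg, Function.comp, hf.zero, mob_zero, norm_neg]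
  have ht0 : 0 < ‖g p‖ := norm_pos_iff.2 (hg0 p hp)
  have ht1 := hglt p hp
  have hd0 : 0 < ‖deriv f p‖ := norm_pos_iff.2 (hf.dne p hp)
  rw [h2, hgd p hp, hf.zero, norm_div, norm_mul, norm_div, norm_one_sub_conj_mul_self hw, ← ht]
  set t := ‖g p‖ with htdef
  have h3 : 0 < 1 - t ^ 2 := by nlinarith
  simp only [mul_zero, sub_zero, one_pow, norm_one, div_one, norm_mul, Complex.norm_ofNat,
    ← htdef]
  rw [div_div, lt_div_iff₀ (by positivity)]
  have h4 : 2 * t * (1 - t ^ 2) < 1 - (t ^ 2) ^ 2 := by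
    have : 0 < (1 - t) ^ 2 * (1 - t ^ 2) := mul_pos (pow_pos (by linarith) 2) h3
    nlinarith
  nlinarith

lemma exists_extremal {Ω : Set ℂ} (hopen : IsOpen Ω) (hsc : IsSimplyConnected Ω)
    (hne : Ω ≠ univ) {p : ℂ} (hp : p ∈ Ω) :
    ∃ f, Fam Ω p f ∧ ∀ h, Fam Ω p h → ‖deriv h p‖ ≤ ‖deriv f p‖ := by
  obtain ⟨g, hg1, hg2, hg3⟩ := rmt_step2 hopen hsc hne
  have hg := (fam_normalise hp hg1 hg2 hg3).1
  set T : Set ℝ := {t | ∃ h, Fam Ω p h ∧ ‖deriv h p‖ = t} with hT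
  have hTne : T.Nonempty := ⟨_, _, hg, rfl⟩
  obtain ⟨r, hr, hrΩ⟩ := Metric.isOpen_iff.1 hopen p hp
  have hTb : BddAbove T := by
    refine ⟨1 / r, ?_⟩
    rintro _ ⟨h, hh, rfl⟩
    refine Complex.norm_deriv_le_div_of_mapsTo_ball (hh.diff.mono hrΩ) (fun z hz => ?_) hr
    rw [hh.zero]
    exact ball_subset_closedBall (hh.maps (hrΩ hz))
  obtain ⟨u, -, hu, huT⟩ := exists_seq_tendsto_sSup hTne hTb
  choose F hF hFu using huT
  obtain ⟨f, hlim⟩ := montel hopen (Ultrafilter.of atTop) (fun i => (hF i).diff)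
    (fun i => (hF i).maps.mono_right ball_subset_closedBall)
  have hFd : ∀ᶠ i in ((Ultrafilter.of atTop : Ultrafilter ℕ) : Filter ℕ), DifferentiableOn ℂ (F i) Ω :=
    Eventually.of_forall (fun i => (hF i).diff)
  have hfd : DifferentiableOn ℂ f Ω := hlim.differentiableOn hFd hopen
  have hlim' := hlim.deriv hFd hopen
  have hsup : ‖deriv f p‖ = sSup T := by
    refine tendsto_nhds_unique (hlim'.tendsto_at hp).norm ?_
    simp only [Function.comp, hFu]
    exact hu.mono_left (Ultrafilter.of_le _)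
  have hle : ∀ h, Fam Ω p h → ‖deriv h p‖ ≤ ‖deriv f p‖ := fun h hh =>
    hsup ▸ le_csSup hTb ⟨h, hh, rfl⟩
  have hdp : deriv f p ≠ 0 :=
    norm_pos_iff.1 ((norm_pos_iff.2 (hg.dne p hp)).trans_le (hle _ hg))
  have hconn : IsPreconnected Ω := hsc.isPathConnected.isConnected.isPreconnected
  have han : AnalyticOnNhd ℂ f Ω := hfd.analyticOnNhd hopen
  have hdne : ∀ z ∈ Ω, deriv f z ≠ 0 := by
    intro z hz h
    have h1 := hurwitz hopen hlim' (fun i => (hF i).diff.deriv hopen)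
      (fun i y hy => (hF i).dne y hy) hz h
    exact hdp (han.deriv.eqOn_zero_of_preconnected_of_eventuallyEq_zero hconn hz h1 hp)
  refine ⟨f, ⟨fun z hz => ?_, fun a ha b hb hab => ?_, hdne, ?_⟩, hle⟩
  · have h1 : MapsTo f Ω (closedBall 0 1) := fun y hy =>
      isClosed_closedBall.mem_of_tendsto (hlim.tendsto_at hy)
        (Eventually.of_forall (fun i => ball_subset_closedBall ((hF i).maps hy)))
    rw [← interior_closedBall _ one_ne_zero, mem_interior_iff_mem_nhds,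
      ← (han z hz).hasStrictDerivAt.map_nhds_eq (hdne z hz), mem_map]
    exact mem_of_superset (hopen.mem_nhds hz) h1
  · by_contra hc
    have ho : IsOpen (Ω \ {b}) := hopen.sdiff isClosed_singleton
    have h1 : TendstoLocallyUniformlyOn (fun i z => F i z - F i b) (fun z => f z - f b)
        ((Ultrafilter.of atTop : Ultrafilter ℕ) : Filter ℕ) (Ω \ {b}) :=
      (hlim.mono sdiff_subset).sub
        ((hlim.tendsto_at hb).tendstoUniformlyOn_const _).tendstoLocallyUniformlyOn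
    have h2 := hurwitz ho h1 (fun i => ((hF i).diff.mono sdiff_subset).sub_const _)
      (fun i z hz h => hz.2 ((hF i).inj hz.1 hb (sub_eq_zero.1 h))) (a := a) ⟨ha, hc⟩
      (sub_eq_zero.2 hab)
    have h3 : f =ᶠ[𝓝 a] fun _ => f b := h2.mono (fun z hz => sub_eq_zero.1 hz)
    exact hdne a ha (by rw [h3.deriv_eq, deriv_const])
  · refine tendsto_nhds_unique (hlim.tendsto_at hp) ?_
    simp only [(hF _).zero]
    exact tendsto_const_nhds

/-- Riemann mapping theorem for a simply connected proper open subset of the plane,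
normalised so that the centre of the disc goes to a prescribed point. -/
theorem riemann_mapping {Ω : Set ℂ} (hopen : IsOpen Ω) (hsc : IsSimplyConnected Ω)
    (hne : Ω ≠ univ) {p : ℂ} (hp : p ∈ Ω) :
    ∃ φ ψ : ℂ → ℂ, DifferentiableOn ℂ φ (ball 0 1) ∧ DifferentiableOn ℂ ψ Ω ∧
      MapsTo φ (ball 0 1) Ω ∧ MapsTo ψ Ω (ball 0 1) ∧
      (∀ z ∈ ball (0 : ℂ) 1, ψ (φ z) = z) ∧ (∀ x ∈ Ω, φ (ψ x) = x) ∧ φ 0 = p := by
  obtain ⟨f, hf, hmax⟩ := exists_extremal hopen hsc hne hp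
  have hsurj : SurjOn f Ω (ball 0 1) := by
    intro w hw
    by_contra hc
    obtain ⟨h, hh, hlt⟩ := koebe hopen hsc hp hf (mem_ball_zero_iff.1 hw) hc
    exact absurd (hmax h hh) (not_le.2 hlt)
  have hleft : ∀ x ∈ Ω, invFunOn f Ω (f x) = x := fun x hx => hf.inj.leftInvOn_invFunOn hx
  refine ⟨invFunOn f Ω, f, fun w hw => ?_, hf.diff, hsurj.mapsTo_invFunOn, hf.maps,
    fun z hz => hsurj.rightInvOn_invFunOn hz, hleft, ?_⟩
  · obtain ⟨z, hz, rfl⟩ := hsurj hw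
    have h1 := (hf.diff.analyticAt (hopen.mem_nhds hz)).hasStrictDerivAt.to_local_left_inverse
      (hf.dne z hz) (g := invFunOn f Ω) (mem_of_superset (hopen.mem_nhds hz) hleft)
    exact h1.hasDerivAt.differentiableAt.differentiableWithinAt
  · rw [← hf.zero]
    exact hleft p hp

end Vale.Agent.Lib.RMT
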